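import Vale.Agent.P142.AreaD

open Complex MeasureTheory Metric Set Filter Topology

namespace Vale.Agent.P142

namespace AreaL

section series

variable {B : ℕ → ℂ} {h : ℂ → ℂ}

lemma summ0 (hB : ∀ w ∈ ball (0 : ℂ) 1, w ≠ 0 → HasSum (fun n => B n * w ^ n) (h w))
    {r : ℝ} (h0 : 0 ≤ r) (h1 : r < 1) : Summable fun n => ‖B n‖ * r ^ n := by
  have hρ0 : 0 < (r + 1) / 2 := by linarith
  have hρ1 : (r + 1) / 2 < 1 := by linarith
  have hm : (((r + 1) / 2 : ℝ) : ℂ) ∈ ball (0 : ℂ) 1 := by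
    simp only [mem_ball, dist_zero_right, Complex.norm_real]
    rw [Real.norm_of_nonneg hρ0.le]; exact hρ1
  have hne : (((r + 1) / 2 : ℝ) : ℂ) ≠ 0 := by
    exact_mod_cast hρ0.ne'
  have hs := (hB _ hm hne).summable.norm
  refine Summable.of_nonneg_of_le (fun n => by positivity) (fun n => ?_) hs
  rw [norm_mul, norm_pow, Complex.norm_real, Real.norm_of_nonneg hρ0.le]
  apply mul_le_mul_of_nonneg_left _ (norm_nonneg _)
  exact pow_le_pow_left₀ h0 (by linarith) n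

lemma summ1 (hB : ∀ w ∈ ball (0 : ℂ) 1, w ≠ 0 → HasSum (fun n => B n * w ^ n) (h w))
    {r : ℝ} (h0 : 0 ≤ r) (h1 : r < 1) : Summable fun n : ℕ => (n : ℝ) * (‖B n‖ * r ^ n) := by
  have hρ0 : 0 < (r + 1) / 2 := by linarith
  have hρ1 : (r + 1) / 2 < 1 := by linarith
  have hs := summ0 hB hρ0.le hρ1
  set ρ := (r + 1) / 2 with hρ
  set C := ∑' n, ‖B n‖ * ρ ^ n with hC
  have hbd : ∀ n, ‖B n‖ * ρ ^ n ≤ C := fun n => hs.le_tsum n (fun m _ => by positivity)
  have hq : ‖r / ρ‖ < 1 := by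
    rw [Real.norm_of_nonneg (by positivity), div_lt_one hρ0]
    rw [hρ]; linarith
  have hg := (summable_pow_mul_geometric_of_norm_lt_one 1 hq).mul_left C
  refine Summable.of_nonneg_of_le (fun n => by positivity) (fun n => ?_) hg
  have h2 : ‖B n‖ * r ^ n = (‖B n‖ * ρ ^ n) * (r / ρ) ^ n := by
    rw [mul_assoc, ← mul_pow]
    congr 2
    exact (mul_div_cancel₀ r hρ0.ne').symm
  rw [h2, pow_one]
  have h3 := hbd n
  have h4 : 0 ≤ (n : ℝ) * (r / ρ) ^ n := by positivity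
  calc (n : ℝ) * (‖B n‖ * ρ ^ n * (r / ρ) ^ n) = (‖B n‖ * ρ ^ n) * ((n : ℝ) * (r / ρ) ^ n) := by ring
    _ ≤ C * ((n : ℝ) * (r / ρ) ^ n) := mul_le_mul_of_nonneg_right h3 h4

lemma summ3 (hB : ∀ w ∈ ball (0 : ℂ) 1, w ≠ 0 → HasSum (fun n => B n * w ^ n) (h w))
    {r : ℝ} (h0 : 0 ≤ r) (h1 : r < 1) :
    Summable fun n : ℕ => ‖((n : ℂ) - 3) * B n‖ * r ^ n := by
  have h2 := (summ1 hB h0 h1).add ((summ0 hB h0 h1).mul_left 3)
  refine Summable.of_nonneg_of_le (fun n => by positivity) (fun n => ?_) h2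
  rw [norm_mul]
  have h3 : ‖(n : ℂ) - 3‖ ≤ n + 3 := by
    refine (norm_sub_le _ _).trans ?_
    simp
  calc ‖(n : ℂ) - 3‖ * ‖B n‖ * r ^ n = ‖(n : ℂ) - 3‖ * (‖B n‖ * r ^ n) := by ring
    _ ≤ (n + 3) * (‖B n‖ * r ^ n) := mul_le_mul_of_nonneg_right h3 (by positivity)
    _ = _ := by ring

lemma series_deriv (hB : ∀ w ∈ ball (0 : ℂ) 1, w ≠ 0 → HasSum (fun n => B n * w ^ n) (h w))
    {z : ℂ} (hz : z ∈ ball (0 : ℂ) 1) :
    ∃ D : ℂ, HasDerivAt (fun w => ∑' n, B n * w ^ n) D z ∧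
      z * D - 3 * ∑' n, B n * z ^ n = ∑' n : ℕ, (((n : ℂ) - 3) * B n) * z ^ n := by
  have hz1 : ‖z‖ < 1 := by simpa using hz
  set r : ℝ := (‖z‖ + 1) / 2 with hr
  have hr0 : 0 < r := by rw [hr]; positivity
  have hr1 : r < 1 := by rw [hr]; linarith
  have hzr : z ∈ ball (0 : ℂ) r := by
    simp only [mem_ball, dist_zero_right]; rw [hr]; linarith
  have hu : Summable fun n : ℕ => ‖B n‖ * (n * r ^ (n - 1)) := by
    have := (summ1 hB hr0.le hr1).mul_left r⁻¹
    refine this.congr fun n => ?_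
    rcases n with _ | n
    · simp
    · simp only [Nat.add_sub_cancel, pow_succ]
      field_simp
  have hs0 : Summable fun n => B n * z ^ n := by
    refine Summable.of_norm ?_
    refine (summ0 hB (norm_nonneg z) hz1).congr fun n => ?_
    rw [norm_mul, norm_pow]
  have hder := hasDerivAt_tsum_of_isPreconnected (𝕜 := ℂ) (F := ℂ)
    (g := fun n w => B n * w ^ n) (g' := fun n w => B n * (n * w ^ (n - 1)))
    (t := ball 0 r) (y₀ := z) (y := z) hu isOpen_ball
    (convex_ball 0 r).isPreconnected (fun n y _ => (hasDerivAt_pow n y).const_mul (B n))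
    (fun n y hy => by
      rw [norm_mul, norm_mul, norm_pow, Complex.norm_natCast]
      have : ‖y‖ ≤ r := by
        have : ‖y‖ < r := by simpa using hy
        exact this.le
      gcongr) hzr hs0 hzr
  refine ⟨_, hder, ?_⟩
  have hs1 : Summable fun n : ℕ => (n : ℂ) * B n * z ^ n := by
    refine Summable.of_norm ?_
    refine (summ1 hB (norm_nonneg z) hz1).congr fun n => ?_
    rw [norm_mul, norm_mul, norm_pow, Complex.norm_natCast, mul_assoc]
  have h1 : z * ∑' n : ℕ, B n * (n * z ^ (n - 1)) = ∑' n : ℕ, (n : ℂ) * B n * z ^ n := by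
    rw [← tsum_mul_left]
    congr 1
    ext n
    rcases n with _ | n
    · simp
    · simp only [Nat.add_sub_cancel, pow_succ]
      ring
  rw [h1, ← tsum_mul_left, ← hs1.tsum_sub (hs0.mul_left 3)]
  congr 1
  ext n
  ring

end series

end AreaL

open AreaL

/-- A1 (file Area.lean). Area theorem for `P(1/g)`, `P(s)=p1 s + p3 s^3`, `g` univalent. -/
theorem area_laurent {g : ℂ → ℂ} (hg : DifferentiableOn ℂ g (ball 0 1)) (hi : InjOn g (ball 0 1))
    (h0 : g 0 = 0) (p1 p3 : ℂ) (B : ℕ → ℂ)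
    (hB : ∀ w ∈ ball (0 : ℂ) 1, w ≠ 0 → HasSum (fun n => B n * w ^ n)
      (w ^ 3 * (p1 / g w + p3 / g w ^ 3))) (N : ℕ) :
    ∑ n ∈ Finset.range N, ((n : ℝ) + 1) * ‖B (n + 4)‖ ^ 2 ≤
      3 * ‖B 0‖ ^ 2 + 2 * ‖B 1‖ ^ 2 + ‖B 2‖ ^ 2 := by
  obtain ⟨gi, h⟩ := exists_UD hg hi h0
  -- the integrand after the change of variables
  have key : ∀ a b : ℝ, ∀ z ∈ ball (0 : ℂ) 1 \ {0},
      2 * (kk a b (‖z‖ ^ 2) : ℂ) *
        (z * (GD g z * ((starRingEnd ℂ) (PP p1 p3 (g z)⁻¹) * PD p1 p3 (g z)⁻¹))) =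
      2 * ((wgt a b z : ℂ) * ((starRingEnd ℂ) (∑' n, B n * z ^ n) *
        ∑' n : ℕ, (((n : ℂ) - 3) * B n) * z ^ n)) := by
    intro a b z hz
    have hz0 : z ≠ 0 := hz.2
    obtain ⟨D, hD, hDS⟩ := series_deriv hB hz.1
    have hval : ∀ w ∈ ball (0 : ℂ) 1, w ≠ 0 →
        ∑' n, B n * w ^ n = w ^ 3 * PP p1 p3 (g w)⁻¹ := by
      intro w hw hw0
      rw [(hB w hw hw0).tsum_eq]
      unfold PP
      rw [inv_pow]
      ring
    have hG := G_deriv h hz.1 hz0
    have hPG : HasDerivAt (fun w => PP p1 p3 (g w)⁻¹) (PD p1 p3 (g z)⁻¹ * GD g z) z :=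
      HasDerivAt.comp (h := fun w => (g w)⁻¹) (h₂ := PP p1 p3) z (PP_deriv p1 p3 (g z)⁻¹) hG
    have hprod := (hasDerivAt_pow 3 z).mul hPG
    have hev : (fun w => ∑' n, B n * w ^ n) =ᶠ[𝓝 z]
        ((fun w => w ^ 3) * fun w => PP p1 p3 (g w)⁻¹) := by
      filter_upwards [isOpen_ball.mem_nhds hz.1, isOpen_ne.mem_nhds hz0] with w hw hw0
      exact hval w hw hw0
    have hDe := hD.unique (hprod.congr_of_eventuallyEq hev)
    rw [hval z hz.1 hz0] at hDS
    have hS : ∑' n : ℕ, (((n : ℂ) - 3) * B n) * z ^ n = z ^ 4 * (PD p1 p3 (g z)⁻¹ * GD g z) := by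
      rw [← hDS, hDe]
      push_cast
      ring
    rw [hS, hval z hz.1 hz0, map_mul, map_pow]
    have hn : ((kk a b (‖z‖ ^ 2) : ℝ) : ℂ) = (wgt a b z : ℂ) * ((starRingEnd ℂ) z ^ 3 * z ^ 3) := by
      rw [← mul_pow, ← Complex.normSq_eq_conj_mul_self, Complex.normSq_eq_norm_sq]
      unfold kk wgt
      rw [abs_of_nonneg (by positivity)]
      push_cast
      ring
    rw [hn]
    ring
  -- the inequality for a given cut-off
  have main : ∀ a b : ℝ, 0 < a → a < b → b < 1 →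
      ∑ n ∈ Finset.range (4 + N), ((n : ℝ) - 3) * ‖B n‖ ^ 2 * mom a b n ≤ 0 := by
    intro a b ha hab hb
    have hM := main1 (VV_contDiff h hab hb) (VV_support h ha hab hb)
      (VV_nonneg g gi hab) p1 p3
    rw [pull_back h hab hb (fun w => (starRingEnd ℂ) (PP p1 p3 w) * PD p1 p3 w)] at hM
    have hmeas : MeasurableSet (ball (0 : ℂ) 1 \ {0}) :=
      measurableSet_ball.diff (measurableSet_singleton 0)
    rw [setIntegral_congr_fun hmeas (key a b)] at hM
    rw [setIntegral_eq_integral_of_forall_compl_eq_zero, integral_const_mul] at hM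
    · have hb0 : 0 ≤ √b := Real.sqrt_nonneg b
      have hb1 : √b < 1 := by rw [Real.sqrt_lt' one_pos]; simpa using hb
      have hP := parseval ha.le hab hb.le B (fun n => ((n : ℂ) - 3) * B n)
        (summ0 hB hb0 hb1) (summ3 hB hb0 hb1)
      have hP2 := Complex.hasSum_re hP
      have hfun : (fun n => ((starRingEnd ℂ) (B n) * (((n : ℂ) - 3) * B n) *
          (mom a b n : ℂ)).re) = fun n : ℕ => ((n : ℝ) - 3) * ‖B n‖ ^ 2 * mom a b n := by
        funext n
        have : (starRingEnd ℂ) (B n) * (((n : ℂ) - 3) * B n) * (mom a b n : ℂ) =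
            ((((n : ℝ) - 3) * ‖B n‖ ^ 2 * mom a b n : ℝ) : ℂ) := by
          have h1 : (starRingEnd ℂ) (B n) * B n = ((‖B n‖ ^ 2 : ℝ) : ℂ) := by
            rw [← Complex.normSq_eq_conj_mul_self, Complex.normSq_eq_norm_sq]
          push_cast at h1 ⊢
          linear_combination ((n : ℂ) - 3) * (mom a b n : ℂ) * h1
        rw [this, Complex.ofReal_re]
      rw [hfun] at hP2
      have hre : (∫ w : ℂ, (wgt a b w : ℂ) * ((starRingEnd ℂ) (∑' n, B n * w ^ n) *
          ∑' n : ℕ, (((n : ℂ) - 3) * B n) * w ^ n)).re ≤ 0 := by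
        simp only [mul_re, re_ofNat, im_ofNat, zero_mul, sub_zero] at hM
        linarith
      refine (sum_le_hasSum (Finset.range (4 + N)) ?_ hP2).trans hre
      intro n hn
      simp only [Finset.mem_range, not_lt] at hn
      have hn4 : (4 : ℝ) ≤ n := by exact_mod_cast (by omega : 4 ≤ n)
      have hm0 : 0 ≤ mom a b n := by
        refine le_trans ?_ (mom_ge ha.le hab hb.le n)
        exact mul_nonneg (by positivity) (mom_pos ha.le hab hb.le).le
      exact mul_nonneg (mul_nonneg (by linarith) (by positivity)) hm0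
    · intro w hw
      have hw' : w = 0 ∨ 1 ≤ ‖w‖ := by
        by_contra hc
        push Not at hc
        apply hw
        exact ⟨by simpa using hc.2, hc.1⟩
      have : wgt a b w = 0 := by
        rcases hw' with rfl | hw1
        · apply wgt_zero' hab
          simpa using ha.le
        · exact wgt_zero hab hb.le hw1
      simp [this]
  -- pass to the limit
  have fin : ∀ a : ℝ, 0 < a → a < 1 →
      ∑ n ∈ Finset.range N, ((n : ℝ) + 1) * ‖B (n + 4)‖ ^ 2 * a ^ (4 + n) ≤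
      3 * ‖B 0‖ ^ 2 + 2 * ‖B 1‖ ^ 2 + ‖B 2‖ ^ 2 := by
    intro a ha ha1
    have hab : a < (1 + a) / 2 := by linarith
    have hb : (1 + a) / 2 < 1 := by linarith
    have hm := main a ((1 + a) / 2) ha hab hb
    set b := (1 + a) / 2 with hbdef
    rw [Finset.sum_range_add] at hm
    have hM0 := mom_pos ha.le hab hb.le
    have h1 : ∑ n ∈ Finset.range N, ((n : ℝ) + 1) * ‖B (n + 4)‖ ^ 2 * a ^ (4 + n) * mom a b 0 ≤
        ∑ n ∈ Finset.range N, (((4 + n : ℕ) : ℝ) - 3) * ‖B (4 + n)‖ ^ 2 * mom a b (4 + n) := by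
      apply Finset.sum_le_sum
      intro n _
      have h2 := mom_ge ha.le hab hb.le (4 + n)
      rw [add_comm n 4]
      have h3 : (((4 + n : ℕ) : ℝ) - 3) = n + 1 := by push_cast; ring
      rw [h3, mul_assoc]
      exact mul_le_mul_of_nonneg_left h2 (by positivity)
    rw [← Finset.sum_mul] at h1
    simp only [Finset.sum_range_succ, Finset.sum_range_zero, Nat.cast_zero, Nat.cast_one,
      Nat.cast_ofNat, zero_add, zero_sub] at hm
    have h4 := mom_le hab hb.le 1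
    have h5 := mom_le hab hb.le 2
    have h6 := mul_le_mul_of_nonneg_left h4 (sq_nonneg ‖B 1‖)
    have h7 := mul_le_mul_of_nonneg_left h5 (sq_nonneg ‖B 2‖)
    refine le_of_mul_le_mul_right ?_ hM0
    nlinarith [h1, hm, h6, h7]
  have hcont : Continuous fun a : ℝ =>
      ∑ n ∈ Finset.range N, ((n : ℝ) + 1) * ‖B (n + 4)‖ ^ 2 * a ^ (4 + n) := by fun_prop
  have htend : Tendsto (fun a : ℝ =>
      ∑ n ∈ Finset.range N, ((n : ℝ) + 1) * ‖B (n + 4)‖ ^ 2 * a ^ (4 + n)) (𝓝[<] 1)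
      (𝓝 (∑ n ∈ Finset.range N, ((n : ℝ) + 1) * ‖B (n + 4)‖ ^ 2)) := by
    have h1 := (hcont.tendsto 1).mono_left (nhdsWithin_le_nhds (s := Iio 1))
    simpa using h1
  refine le_of_tendsto htend ?_
  filter_upwards [Ioo_mem_nhdsLT (show (0 : ℝ) < 1 by norm_num)] with a ha
  exact fin a ha.1 ha.2

end Vale.Agent.P142
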