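import Vale.Agent.P142.Defs

open Complex MeasureTheory Metric Set Filter Topology

namespace Vale.Agent.P142

namespace AreaL

/-! ### cut-off -/

/-- bump -/
noncomputable def bp (a b t : ℝ) : ℝ := max 0 ((t - a) * (b - t))

/-- bump derivative -/
noncomputable def kk (a b t : ℝ) : ℝ := bp a b t * |t| ^ 3

/-- the (unnormalised) cut-off -/
noncomputable def chi (a b x : ℝ) : ℝ := ∫ t in a..x, kk a b t

lemma bp_cont (a b : ℝ) : Continuous (bp a b) := by
  unfold bp; fun_prop

lemma kk_cont (a b : ℝ) : Continuous (kk a b) := by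
  unfold kk bp; fun_prop

lemma bp_nonneg (a b t : ℝ) : 0 ≤ bp a b t := le_max_left _ _

lemma kk_nonneg (a b t : ℝ) : 0 ≤ kk a b t := mul_nonneg (bp_nonneg _ _ _) (by positivity)

lemma bp_le {a b t : ℝ} (hab : a < b) (h : t ≤ a) : bp a b t = 0 := by
  unfold bp
  apply max_eq_left
  nlinarith

lemma bp_ge {a b t : ℝ} (hab : a < b) (h : b ≤ t) : bp a b t = 0 := by
  unfold bp
  apply max_eq_left
  nlinarith

lemma bp_pos {a b t : ℝ} (h1 : a < t) (h2 : t < b) : 0 < bp a b t := by
  unfold bp
  have : 0 < (t - a) * (b - t) := mul_pos (by linarith) (by linarith)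
  exact lt_max_of_lt_right this

lemma kk_le {a b t : ℝ} (hab : a < b) (h : t ≤ a) : kk a b t = 0 := by
  rw [kk, bp_le hab h, zero_mul]

lemma kk_ge {a b t : ℝ} (hab : a < b) (h : b ≤ t) : kk a b t = 0 := by
  rw [kk, bp_ge hab h, zero_mul]

lemma chi_hasDeriv (a b x : ℝ) : HasDerivAt (chi a b) (kk a b x) x := by
  unfold chi
  exact intervalIntegral.integral_hasDerivAt_right ((kk_cont a b).intervalIntegrable _ _)
    ((kk_cont a b).stronglyMeasurableAtFilter _ _) (kk_cont a b).continuousAt

lemma chi_contDiff (a b : ℝ) : ContDiff ℝ 1 (chi a b) := by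
  rw [contDiff_one_iff_deriv]
  refine ⟨fun x => (chi_hasDeriv a b x).differentiableAt, ?_⟩
  have : deriv (chi a b) = kk a b := funext fun x => (chi_hasDeriv a b x).deriv
  rw [this]; exact kk_cont a b

lemma chi_mono (a b : ℝ) : Monotone (chi a b) :=
  monotone_of_deriv_nonneg (fun x => (chi_hasDeriv a b x).differentiableAt)
    (fun x => by rw [(chi_hasDeriv a b x).deriv]; exact kk_nonneg a b x)

lemma chi_le {a b x : ℝ} (hab : a < b) (h : x ≤ a) : chi a b x = 0 := by
  unfold chi
  rw [intervalIntegral.integral_symm, intervalIntegral.integral_congr (g := fun _ => (0 : ℝ))]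
  · simp
  · intro t ht
    rw [uIcc_of_le h] at ht
    exact kk_le hab ht.2

lemma chi_ge {a b x : ℝ} (hab : a < b) (h : b ≤ x) : chi a b x = chi a b b := by
  unfold chi
  rw [← intervalIntegral.integral_add_adjacent_intervals (a := a) (b := b) (c := x)
    ((kk_cont a b).intervalIntegrable _ _) ((kk_cont a b).intervalIntegrable _ _)]
  rw [intervalIntegral.integral_congr (a := b) (b := x) (g := fun _ => (0 : ℝ))]
  · simp
  · intro t ht
    rw [uIcc_of_le h] at ht
    exact kk_ge hab ht.1

lemma chi_nonneg {a b : ℝ} (hab : a < b) (x : ℝ) : 0 ≤ chi a b x := by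
  rcases le_total x a with h | h
  · rw [chi_le hab h]
  · have := chi_mono a b h
    rwa [chi_le hab le_rfl] at this

/-! ### the inverse of a univalent function -/

/-- a univalent function as a partial homeomorphism -/
theorem exists_homeo {g : ℂ → ℂ} (hg : DifferentiableOn ℂ g (ball 0 1))
    (hi : InjOn g (ball 0 1)) :
    ∃ e : OpenPartialHomeomorph ℂ ℂ, (e : ℂ → ℂ) = g ∧ e.source = ball 0 1 ∧
      e.target = g '' ball 0 1 := by
  have han : AnalyticOnNhd ℂ g (ball 0 1) := hg.analyticOnNhd isOpen_ball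
  have hpc : IsPreconnected (ball (0 : ℂ) 1) := (convex_ball 0 1).isPreconnected
  have hop : ∀ s ⊆ ball (0 : ℂ) 1, IsOpen s → IsOpen (g '' s) := by
    rcases han.is_constant_or_isOpen hpc with ⟨w, hw⟩ | h
    · exfalso
      have h1 : (0 : ℂ) ∈ ball (0 : ℂ) 1 := by simp
      have h2 : (1 / 2 : ℂ) ∈ ball (0 : ℂ) 1 := by
        simp only [mem_ball_zero_iff]; norm_num
      have := hi h1 h2 (by rw [hw _ h1, hw _ h2])
      norm_num at this
    · exact h
  refine ⟨OpenPartialHomeomorph.ofContinuousOpenRestrict (hi.toPartialEquiv g (ball 0 1))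
    hg.continuousOn ?_ isOpen_ball, rfl, rfl, rfl⟩
  intro s hs
  obtain ⟨t, ht, rfl⟩ := isOpen_induced_iff.1 hs
  have h3 := hop (t ∩ ball 0 1) inter_subset_right (ht.inter isOpen_ball)
  convert h3 using 1
  ext y
  constructor
  · rintro ⟨⟨x, hx⟩, hx', rfl⟩
    exact ⟨x, ⟨hx', hx⟩, rfl⟩
  · rintro ⟨x, ⟨hx1, hx2⟩, rfl⟩
    exact ⟨⟨x, hx2⟩, hx1, rfl⟩

/-- the derivative of a univalent function does not vanish -/
theorem deriv_ne {g : ℂ → ℂ} (hg : DifferentiableOn ℂ g (ball 0 1))
    (hi : InjOn g (ball 0 1)) {z : ℂ} (hz : z ∈ ball (0 : ℂ) 1) : deriv g z ≠ 0 := by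
  obtain ⟨e, he, hs, ht⟩ := exists_homeo hg hi
  have han : AnalyticOnNhd ℂ g (ball 0 1) := hg.analyticOnNhd isOpen_ball
  have hda : AnalyticAt ℂ (deriv g) z := (han z hz).deriv
  have hz' : z ∈ e.source := by rw [hs]; exact hz
  have hnhds : ball (0 : ℂ) 1 ∈ 𝓝 z := isOpen_ball.mem_nhds hz
  have hev : ∀ᶠ x in 𝓝[≠] z, deriv g x ≠ 0 := by
    rcases hda.eventually_eq_zero_or_eventually_ne_zero with h | h
    · exfalso
      have h2 : ∀ᶠ x in 𝓝 z, deriv g x = 0 ∧ x ∈ ball (0 : ℂ) 1 := h.and hnhds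
      obtain ⟨ε, hε, hb⟩ := Metric.eventually_nhds_iff_ball.1 h2
      have hd : DifferentiableOn ℂ g (ball z ε) := fun x hx =>
        (hg x (hb x hx).2).mono (fun y hy => (hb y hy).2)
      have hc : ∀ x ∈ ball z ε, g x = g z := by
        intro x hx
        refine (convex_ball z ε).is_const_of_fderivWithin_eq_zero (𝕜 := ℂ) hd ?_ hx
          (mem_ball_self hε)
        intro y hy
        rw [fderivWithin_of_isOpen isOpen_ball hy]
        ext
        simpa using (hb y hy).1
      have hx : z + (ε / 2 : ℝ) ∈ ball z ε := by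
        simp only [mem_ball, dist_eq_norm, add_sub_cancel_left, Complex.norm_real]
        rw [Real.norm_of_nonneg (by positivity)]; linarith
      have := hi (hb _ hx).2 hz (hc _ hx)
      have h3 : ((ε / 2 : ℝ) : ℂ) = 0 := by linear_combination this
      have h4 : ε / 2 = 0 := by exact_mod_cast h3
      linarith
    · exact h
  have hw : e z ∈ e.target := e.map_source hz'
  have hsz : e.symm (e z) = z := e.left_inv hz'
  have hcont : ContinuousAt e.symm (e z) := e.symm.continuousAt hw
  have htend : Tendsto e.symm (𝓝[≠] (e z)) (𝓝[≠] z) := by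
    refine tendsto_nhdsWithin_of_tendsto_nhds_of_eventually_within _ ?_ ?_
    · have := hcont.tendsto
      rw [hsz] at this
      exact this.mono_left nhdsWithin_le_nhds
    · have h1 : ∀ᶠ w in 𝓝[≠] (e z), w ∈ e.target :=
        nhdsWithin_le_nhds (e.open_target.mem_nhds hw)
      filter_upwards [h1, self_mem_nhdsWithin] with w hw1 hw2 hw3
      apply hw2
      have : e.symm w = z := hw3
      rw [← this, e.right_inv hw1]; rfl
  have hdiff : ∀ᶠ w in 𝓝[≠] (e z), DifferentiableAt ℂ e.symm w := by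
    have h1 : ∀ᶠ w in 𝓝[≠] (e z), w ∈ e.target :=
      nhdsWithin_le_nhds (e.open_target.mem_nhds hw)
    filter_upwards [h1, htend.eventually hev] with w hw1 hw2
    have hm : e.symm w ∈ ball (0 : ℂ) 1 := by
      rw [← hs]; exact e.map_target hw1
    have hd : HasDerivAt e (deriv g (e.symm w)) (e.symm w) := by
      rw [he]
      exact (hg.differentiableAt (isOpen_ball.mem_nhds hm)).hasDerivAt
    exact (e.hasDerivAt_symm hw1 hw2 hd).differentiableAt
  have hA : AnalyticAt ℂ e.symm (e z) :=
    analyticAt_of_differentiable_on_punctured_nhds_of_continuousAt hdiff hcont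
  have hgd : HasDerivAt g (deriv g z) z := (hg.differentiableAt hnhds).hasDerivAt
  have h1 : HasDerivAt e.symm (deriv e.symm (g z)) (g z) := by
    rw [← he]; exact hA.differentiableAt.hasDerivAt
  have h2 := h1.comp z hgd
  have h3 : HasDerivAt (e.symm ∘ g) 1 z := by
    have h4 : (e.symm ∘ g) =ᶠ[𝓝 z] id := by
      filter_upwards [hnhds] with x hx
      have : e.symm (e x) = x := e.left_inv (by rw [hs]; exact hx)
      rw [he] at this
      exact this
    exact (hasDerivAt_id z).congr_of_eventuallyEq h4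
  have h5 := h2.unique h3
  intro h0
  rw [h0, mul_zero] at h5
  exact zero_ne_one h5

end AreaL

end Vale.Agent.P142
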