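import Vale.Agent.P142.AreaA

open Complex MeasureTheory Metric Set Filter Topology

namespace Vale.Agent.P142

namespace AreaL

/-! ### orthogonality of monomials for radial weights -/

/-- the weight -/
noncomputable def wgt (a b : ℝ) (w : ℂ) : ℝ := bp a b (‖w‖ ^ 2)

lemma wgt_cont (a b : ℝ) : Continuous (wgt a b) :=
  (bp_cont a b).comp (by fun_prop)

lemma wgt_nonneg (a b : ℝ) (w : ℂ) : 0 ≤ wgt a b w := bp_nonneg _ _ _

lemma wgt_zero {a b : ℝ} (hab : a < b) (hb : b ≤ 1) {w : ℂ} (hw : 1 ≤ ‖w‖) : wgt a b w = 0 := by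
  apply bp_ge hab
  nlinarith

lemma wgt_zero' {a b : ℝ} (hab : a < b) {w : ℂ} (hw : ‖w‖ ^ 2 ≤ a) : wgt a b w = 0 :=
  bp_le hab hw

lemma wgt_supp {a b : ℝ} (hab : a < b) (hb : b ≤ 1) : HasCompactSupport (wgt a b) := by
  refine HasCompactSupport.intro (isCompact_closedBall (0 : ℂ) 1) fun w hw => ?_
  apply wgt_zero hab hb
  simp only [mem_closedBall, dist_zero_right, not_le] at hw
  exact hw.le

/-- moments -/
noncomputable def mom (a b : ℝ) (n : ℕ) : ℝ := ∫ w : ℂ, wgt a b w * ‖w‖ ^ (2 * n)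

lemma wgt_mul_integrable {a b : ℝ} (hab : a < b) (hb : b ≤ 1) {f : ℂ → ℂ} (hf : Continuous f) :
    Integrable (fun w => (wgt a b w : ℂ) * f w) := by
  apply Continuous.integrable_of_hasCompactSupport
  · exact (Complex.continuous_ofReal.comp (wgt_cont a b)).mul hf
  · apply HasCompactSupport.mul_right
    exact (wgt_supp hab hb).comp_left (g := fun x : ℝ => (x : ℂ)) (by simp)

lemma wgt_mul_integrable' {a b : ℝ} (hab : a < b) (hb : b ≤ 1) {f : ℂ → ℝ} (hf : Continuous f) :
    Integrable (fun w => wgt a b w * f w) := by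
  apply Continuous.integrable_of_hasCompactSupport
  · exact (wgt_cont a b).mul hf
  · exact (wgt_supp hab hb).mul_right

lemma mom_le {a b : ℝ} (hab : a < b) (hb : b ≤ 1) (n : ℕ) : mom a b n ≤ mom a b 0 := by
  unfold mom
  apply integral_mono (wgt_mul_integrable' hab hb (by fun_prop))
    (wgt_mul_integrable' hab hb (by fun_prop))
  intro w
  rcases le_total ‖w‖ 1 with h | h
  · simp only [mul_zero, pow_zero]
    exact mul_le_mul_of_nonneg_left (pow_le_one₀ (norm_nonneg _) h) (wgt_nonneg _ _ _)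
  · simp [wgt_zero hab hb h]

lemma mom_ge {a b : ℝ} (ha : 0 ≤ a) (hab : a < b) (hb : b ≤ 1) (n : ℕ) :
    a ^ n * mom a b 0 ≤ mom a b n := by
  unfold mom
  rw [← integral_const_mul]
  apply integral_mono ((wgt_mul_integrable' hab hb (by fun_prop)).const_mul _)
    (wgt_mul_integrable' hab hb (by fun_prop))
  intro w
  rcases le_total (‖w‖ ^ 2) a with h | h
  · simp [wgt_zero' hab h]
  · simp only [mul_zero, pow_zero, mul_one]
    rw [mul_comm, pow_mul]
    exact mul_le_mul_of_nonneg_left (pow_le_pow_left₀ ha h n) (wgt_nonneg _ _ _)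

lemma mom_pos {a b : ℝ} (ha : 0 ≤ a) (hab : a < b) (hb : b ≤ 1) : 0 < mom a b 0 := by
  unfold mom
  simp only [mul_zero, pow_zero, mul_one]
  apply (wgt_cont a b).integral_pos_of_hasCompactSupport_nonneg_nonzero (wgt_supp hab hb)
    (wgt_nonneg a b) (x := ((√((a + b) / 2) : ℝ) : ℂ))
  have : 0 < (a + b) / 2 := by linarith
  rw [wgt, Complex.norm_real, Real.norm_of_nonneg (Real.sqrt_nonneg _), Real.sq_sqrt this.le]
  exact (bp_pos (by linarith) (by linarith)).ne'

lemma orth {a b : ℝ} {n m : ℕ} (hnm : n ≠ m) :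
    ∫ w : ℂ, (wgt a b w : ℂ) * ((starRingEnd ℂ) (w ^ n) * w ^ m) = 0 := by
  set t : ℝ := Real.pi / ((m : ℝ) - n) with ht
  have hne : ((m : ℝ) - n) ≠ 0 := by
    rw [sub_ne_zero]; exact_mod_cast hnm.symm
  set u : Circle := Circle.exp t with hu
  have huu : (starRingEnd ℂ) ((u : ℂ) ^ n) * (u : ℂ) ^ m = -1 := by
    rw [hu, Circle.coe_exp, ← Complex.exp_nat_mul, ← Complex.exp_nat_mul, ← Complex.exp_conj,
      ← Complex.exp_add]
    have : (starRingEnd ℂ) ((n : ℂ) * ((t : ℂ) * I)) + (m : ℂ) * ((t : ℂ) * I) = Real.pi * I := by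
      simp only [map_mul, Complex.conj_I, Complex.conj_ofReal, map_natCast]
      have h2 : (t : ℂ) * ((m : ℂ) - n) = Real.pi := by
        rw [ht]; push_cast
        have : ((m : ℂ) - n) ≠ 0 := by exact_mod_cast hne
        field_simp
      linear_combination I * h2
    rw [this, Complex.exp_pi_mul_I]
  have hmp := (rotation u).measurePreserving
  have h1 := hmp.integral_comp (rotation u).toHomeomorph.measurableEmbedding
    (fun w : ℂ => (wgt a b w : ℂ) * ((starRingEnd ℂ) (w ^ n) * w ^ m))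
  have h2 : ∀ w : ℂ, (wgt a b (rotation u w) : ℂ) *
      ((starRingEnd ℂ) ((rotation u w) ^ n) * (rotation u w) ^ m) =
      -((wgt a b w : ℂ) * ((starRingEnd ℂ) (w ^ n) * w ^ m)) := by
    intro w
    have h3 : wgt a b (rotation u w) = wgt a b w := by
      unfold wgt; rw [LinearIsometryEquiv.norm_map]
    rw [h3, rotation_apply, mul_pow, mul_pow, map_mul]
    linear_combination (wgt a b w : ℂ) * ((starRingEnd ℂ) (w ^ n) * w ^ m) * huu
  simp only [h2, integral_neg] at h1
  have := self_eq_neg.1 h1.symm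
  exact this

lemma diag {a b : ℝ} (n : ℕ) :
    ∫ w : ℂ, (wgt a b w : ℂ) * ((starRingEnd ℂ) (w ^ n) * w ^ n) = (mom a b n : ℂ) := by
  unfold mom
  rw [← integral_complex_ofReal]
  congr 1
  ext w
  rw [← Complex.normSq_eq_conj_mul_self, Complex.normSq_eq_norm_sq]
  push_cast
  rw [norm_pow]
  push_cast
  ring

/-- Parseval for a radial weight -/
theorem parseval {a b : ℝ} (ha : 0 ≤ a) (hab : a < b) (hb : b ≤ 1) (A B : ℕ → ℂ)
    (hA : Summable fun n => ‖A n‖ * (√b) ^ n) (hB : Summable fun n => ‖B n‖ * (√b) ^ n) :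
    HasSum (fun n => (starRingEnd ℂ) (A n) * B n * (mom a b n : ℂ))
      (∫ w : ℂ, (wgt a b w : ℂ) * ((starRingEnd ℂ) (∑' n, A n * w ^ n) * ∑' n, B n * w ^ n)) := by
  set F : ℕ × ℕ → ℂ → ℂ := fun p w =>
    (wgt a b w : ℂ) * ((starRingEnd ℂ) (A p.1 * w ^ p.1) * (B p.2 * w ^ p.2)) with hF
  have hFint : ∀ p, Integrable (F p) := fun p => wgt_mul_integrable hab hb (by fun_prop)
  have hbd : ∀ p w, ‖F p w‖ ≤ (‖A p.1‖ * (√b) ^ p.1 * (‖B p.2‖ * (√b) ^ p.2)) * wgt a b w := by
    intro p w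
    simp only [hF, norm_mul, Complex.norm_real, RCLike.norm_conj, norm_pow,
      Real.norm_of_nonneg (wgt_nonneg a b w)]
    rcases le_total b (‖w‖ ^ 2) with h | h
    · have : wgt a b w = 0 := bp_ge hab h
      simp [this]
    · have h1 : ‖w‖ ≤ √b := Real.le_sqrt_of_sq_le h
      have h2 : ‖w‖ ^ p.1 ≤ (√b) ^ p.1 := pow_le_pow_left₀ (norm_nonneg _) h1 _
      have h3 : ‖w‖ ^ p.2 ≤ (√b) ^ p.2 := pow_le_pow_left₀ (norm_nonneg _) h1 _
      rw [mul_comm]
      apply mul_le_mul_of_nonneg_right _ (wgt_nonneg a b w)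
      gcongr
  have hFsum : Summable fun p => ∫ w, ‖F p w‖ := by
    have h1 : Summable fun p : ℕ × ℕ => (‖A p.1‖ * (√b) ^ p.1 * (‖B p.2‖ * (√b) ^ p.2)) *
        ∫ w, wgt a b w := by
      apply Summable.mul_right
      exact hA.mul_of_nonneg hB (fun n => by positivity) (fun n => by positivity)
    refine Summable.of_nonneg_of_le (fun p => integral_nonneg fun w => norm_nonneg _) ?_ h1
    intro p
    rw [← integral_const_mul]
    apply integral_mono (hFint p).norm
    · have := (wgt_cont a b).integrable_of_hasCompactSupport (wgt_supp hab hb) (μ := volume)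
      exact this.const_mul _
    · intro w; exact hbd p w
  have hS := hasSum_integral_of_summable_integral_norm hFint hFsum
  have hpt : ∀ w, ∑' p, F p w =
      (wgt a b w : ℂ) * ((starRingEnd ℂ) (∑' n, A n * w ^ n) * ∑' n, B n * w ^ n) := by
    intro w
    rcases le_total b (‖w‖ ^ 2) with h | h
    · have : wgt a b w = 0 := bp_ge hab h
      simp [hF, this]
    · have h1 : ‖w‖ ≤ √b := Real.le_sqrt_of_sq_le h
      have hA' : Summable fun n => ‖(starRingEnd ℂ) (A n * w ^ n)‖ := by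
        refine Summable.of_nonneg_of_le (fun n => norm_nonneg _) (fun n => ?_) hA
        rw [RCLike.norm_conj, norm_mul, norm_pow]
        gcongr
      have hB' : Summable fun n => ‖B n * w ^ n‖ := by
        refine Summable.of_nonneg_of_le (fun n => norm_nonneg _) (fun n => ?_) hB
        rw [norm_mul, norm_pow]
        gcongr
      rw [Complex.conj_tsum, tsum_mul_tsum_of_summable_norm hA' hB', ← tsum_mul_left]
  simp only [hpt] at hS
  have hinj : Function.Injective (fun n : ℕ => (n, n)) := fun n m h => (Prod.mk.inj h).1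
  rw [← hinj.hasSum_iff] at hS
  · have hfun : (fun n => (starRingEnd ℂ) (A n) * B n * (mom a b n : ℂ)) =
        (fun x => ∫ w : ℂ, F x w) ∘ (fun n : ℕ => (n, n)) := by
      funext n
      simp only [Function.comp, hF]
      rw [← diag, ← integral_const_mul]
      congr 1
      ext w
      rw [map_mul]
      ring
    rw [hfun]
    exact hS
  · rintro ⟨n, m⟩ hp
    have hnm : n ≠ m := by
      rintro rfl
      exact hp ⟨n, rfl⟩
    have h0 := orth (a := a) (b := b) hnm
    simp only [hF]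
    have : ∀ w : ℂ, (wgt a b w : ℂ) * ((starRingEnd ℂ) (A n * w ^ n) * (B m * w ^ m)) =
        ((starRingEnd ℂ) (A n) * B m) * ((wgt a b w : ℂ) * ((starRingEnd ℂ) (w ^ n) * w ^ m)) := by
      intro w
      rw [map_mul]; ring
    simp only [this, integral_const_mul, h0, mul_zero]

end AreaL

end Vale.Agent.P142
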