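import Vale.Agent.P142.AreaB

open Complex MeasureTheory Metric Set Filter Topology

namespace Vale.Agent.P142

namespace AreaL

/-! ### the cut-off on the image side -/

/-- a univalent function on the disc, with its inverse -/
structure UD (g gi : ℂ → ℂ) : Prop where
  dg : DifferentiableOn ℂ g (ball 0 1)
  inj : InjOn g (ball 0 1)
  zero : g 0 = 0
  li : ∀ z ∈ ball (0 : ℂ) 1, gi (g z) = z
  op : ∀ s ⊆ ball (0 : ℂ) 1, IsOpen s → IsOpen (g '' s)
  der : ∀ z ∈ ball (0 : ℂ) 1, HasDerivAt gi (deriv g z)⁻¹ (g z)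

theorem exists_UD {g : ℂ → ℂ} (hg : DifferentiableOn ℂ g (ball 0 1))
    (hi : InjOn g (ball 0 1)) (h0 : g 0 = 0) : ∃ gi, UD g gi := by
  obtain ⟨e, he, hs, ht⟩ := exists_homeo hg hi
  refine ⟨e.symm, hg, hi, h0, ?_, ?_, ?_⟩
  · intro z hz
    rw [← he]
    exact e.left_inv (by rw [hs]; exact hz)
  · intro s hs' hso
    rw [← he]
    exact e.isOpen_image_of_subset_source hso (by rw [hs]; exact hs')
  · intro z hz
    have hz' : z ∈ e.source := by rw [hs]; exact hz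
    rw [← he]
    apply e.hasDerivAt_symm (e.map_source hz')
    · rw [he]; exact deriv_ne hg hi hz
    · rw [e.left_inv hz', he]
      exact (hg.differentiableAt (isOpen_ball.mem_nhds hz)).hasDerivAt

open Classical in
/-- cut-off on the image side -/
noncomputable def VV (g gi : ℂ → ℂ) (a b : ℝ) (w : ℂ) : ℝ :=
  if w ≠ 0 ∧ w⁻¹ ∈ g '' ball 0 1 then chi a b (‖gi w⁻¹‖ ^ 2) else chi a b b

lemma VV_nonneg (g gi : ℂ → ℂ) {a b : ℝ} (hab : a < b) (w : ℂ) : 0 ≤ VV g gi a b w := by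
  unfold VV
  split_ifs
  · exact chi_nonneg hab _
  · exact chi_nonneg hab _

/-- image of a closed disc under `1/g` -/
def K2 (g : ℂ → ℂ) (r : ℝ) : Set ℂ := {w | ∃ z ∈ closedBall (0 : ℂ) r, w * g z = 1}

lemma K2_closed {g gi : ℂ → ℂ} (h : UD g gi) {r : ℝ} (hr : r < 1) : IsClosed (K2 g r) := by
  have : CompactSpace (closedBall (0 : ℂ) r) :=
    isCompact_iff_compactSpace.1 (isCompact_closedBall (0 : ℂ) r)
  have hc : Continuous fun z : closedBall (0 : ℂ) r => g z := by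
    have h1 : ContinuousOn g (closedBall 0 r) :=
      h.dg.continuousOn.mono (closedBall_subset_ball hr)
    exact continuousOn_iff_continuous_domRestrict.1 h1
  have hS : IsClosed {p : ℂ × closedBall (0 : ℂ) r | p.1 * g p.2 = 1} :=
    isClosed_eq (continuous_fst.mul (hc.comp continuous_snd)) continuous_const
  have := isClosedMap_fst_of_compactSpace _ hS
  convert this using 1
  ext w
  constructor
  · rintro ⟨z, hz, hw⟩
    exact ⟨(w, ⟨z, hz⟩), hw, rfl⟩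
  · rintro ⟨⟨w', ⟨z, hz⟩⟩, hw, rfl⟩
    exact ⟨z, hz, hw⟩

lemma not_K2 {g : ℂ → ℂ} {r : ℝ} (hr : r < 1) {w : ℂ}
    (hw : ¬ (w ≠ 0 ∧ w⁻¹ ∈ g '' ball 0 1)) : w ∉ K2 g r := by
  rintro ⟨z, hz, h1⟩
  apply hw
  have h0 : w ≠ 0 := by rintro rfl; simp at h1
  exact ⟨h0, z, closedBall_subset_ball hr hz, (eq_inv_of_mul_eq_one_right h1)⟩

lemma VV_of_not_K2 {g gi : ℂ → ℂ} (h : UD g gi) {a b : ℝ} (hab : a < b) {w : ℂ}
    (hw : w ∉ K2 g (√b)) : VV g gi a b w = chi a b b := by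
  unfold VV
  split_ifs with hc
  · obtain ⟨hw0, z, hz, hzw⟩ := hc
    rw [← hzw, h.li z hz]
    apply chi_ge hab
    by_contra hlt
    push Not at hlt
    apply hw
    refine ⟨z, ?_, ?_⟩
    · simp only [mem_closedBall, dist_zero_right]
      exact Real.le_sqrt_of_sq_le hlt.le
    · rw [hzw]; exact mul_inv_cancel₀ hw0
  · rfl

lemma VV_eventually_const {g gi : ℂ → ℂ} (h : UD g gi) {a b : ℝ} (hab : a < b) (hb : b < 1)
    {w : ℂ} (hw : ¬ (w ≠ 0 ∧ w⁻¹ ∈ g '' ball 0 1)) :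
    VV g gi a b =ᶠ[𝓝 w] fun _ => chi a b b := by
  have hr : √b < 1 := by rw [Real.sqrt_lt' one_pos]; simpa using hb
  filter_upwards [(K2_closed h hr).isOpen_compl.mem_nhds (not_K2 hr hw)] with w' hw'
  exact VV_of_not_K2 h hab hw'

lemma VV_eventually {g gi : ℂ → ℂ} (h : UD g gi) (a b : ℝ)
    {w : ℂ} (hw : w ≠ 0 ∧ w⁻¹ ∈ g '' ball 0 1) :
    VV g gi a b =ᶠ[𝓝 w] fun w => chi a b (‖gi w⁻¹‖ ^ 2) := by
  have h1 : ∀ᶠ w' in 𝓝 w, w' ≠ 0 := isOpen_ne.mem_nhds hw.1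
  have h2 : ∀ᶠ w' in 𝓝 w, w'⁻¹ ∈ g '' ball 0 1 :=
    (continuousAt_inv₀ hw.1).eventually_mem ((h.op _ subset_rfl isOpen_ball).mem_nhds hw.2)
  filter_upwards [h1, h2] with w' h3 h4
  unfold VV
  rw [if_pos ⟨h3, h4⟩]

lemma gi_analytic {g gi : ℂ → ℂ} (h : UD g gi) {w : ℂ} (hw : w ∈ g '' ball 0 1) :
    AnalyticAt ℂ gi w := by
  have hd : DifferentiableOn ℂ gi (g '' ball 0 1) := by
    rintro _ ⟨z, hz, rfl⟩
    exact (h.der z hz).differentiableAt.differentiableWithinAt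
  exact hd.analyticAt ((h.op _ subset_rfl isOpen_ball).mem_nhds hw)

lemma VV_contDiff {g gi : ℂ → ℂ} (h : UD g gi) {a b : ℝ} (hab : a < b) (hb : b < 1) :
    ContDiff ℝ 1 (VV g gi a b) := by
  rw [contDiff_iff_contDiffAt]
  intro w
  by_cases hw : w ≠ 0 ∧ w⁻¹ ∈ g '' ball 0 1
  · refine ContDiffAt.congr_of_eventuallyEq ?_ (VV_eventually h a b hw)
    have h1 : ContDiffAt ℝ 1 gi w⁻¹ :=
      ((gi_analytic h hw.2).contDiffAt (n := 1)).restrict_scalars ℝ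
    have h2 : ContDiffAt ℝ 1 (fun w : ℂ => w⁻¹) w :=
      ((contDiffAt_inv ℂ hw.1 (n := 1))).restrict_scalars ℝ
    have h3 : ContDiffAt ℝ 1 (fun w => gi w⁻¹) w := h1.comp w h2
    have h4 : ContDiffAt ℝ 1 (fun w => ‖gi w⁻¹‖ ^ 2) w := h3.norm_sq ℝ
    exact (chi_contDiff a b).contDiffAt.comp w h4
  · exact contDiffAt_const.congr_of_eventuallyEq (VV_eventually_const h hab hb hw)

lemma VV_support {g gi : ℂ → ℂ} (h : UD g gi) {a b : ℝ} (ha : 0 < a) (hab : a < b) (hb : b < 1) :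
    HasCompactSupport (VV g gi a b) := by
  have hr : √a ≤ 1 := Real.sqrt_le_one.2 (by linarith)
  have h1 : IsOpen (g '' ball 0 (√a)) := h.op _ (ball_subset_ball hr) isOpen_ball
  have h2 : (0 : ℂ) ∈ g '' ball 0 (√a) := ⟨0, by simp [ha], h.zero⟩
  obtain ⟨δ, hδ, hδs⟩ := Metric.isOpen_iff.1 h1 0 h2
  refine HasCompactSupport.intro (isCompact_closedBall (0 : ℂ) (δ⁻¹)) fun w hw => ?_
  simp only [mem_closedBall, dist_zero_right, not_le] at hw
  have hw0 : w ≠ 0 := by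
    rintro rfl
    simp only [norm_zero] at hw
    have : 0 < δ⁻¹ := by positivity
    linarith
  have h3 : w⁻¹ ∈ ball (0 : ℂ) δ := by
    simp only [mem_ball, dist_zero_right, norm_inv]
    exact inv_lt_of_inv_lt₀ hδ hw
  obtain ⟨z, hz, hzw⟩ := hδs h3
  have hz1 : z ∈ ball (0 : ℂ) 1 := ball_subset_ball hr hz
  unfold VV
  rw [if_pos ⟨hw0, z, hz1, hzw⟩, ← hzw, h.li z hz1]
  apply chi_le hab
  simp only [mem_ball, dist_zero_right] at hz
  have := Real.lt_sqrt (norm_nonneg z) (y := a)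
  exact (this.1 hz).le

/-! ### the vector field -/

/-- `P` -/
noncomputable def PP (p1 p3 w : ℂ) : ℂ := p1 * w + p3 * w ^ 3

/-- `P'` -/
noncomputable def PD (p1 p3 w : ℂ) : ℂ := p1 + 3 * p3 * w ^ 2

lemma PP_deriv (p1 p3 w : ℂ) : HasDerivAt (PP p1 p3) (PD p1 p3 w) w := by
  unfold PP PD
  have := ((hasDerivAt_id' w).const_mul p1).add (((hasDerivAt_id' w).pow 3).const_mul p3)
  refine this.congr_deriv ?_
  push_cast; ring

lemma PD_deriv (p1 p3 w : ℂ) : HasDerivAt (PD p1 p3) (6 * p3 * w) w := by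
  unfold PD
  have := ((((hasDerivAt_id' w).pow 2).const_mul (3 * p3)).const_add p1)
  refine this.congr_deriv ?_
  push_cast; ring

/-- the field -/
noncomputable def FF (V : ℂ → ℝ) (p1 p3 : ℂ) (w : ℂ) : ℂ :=
  (V w : ℂ) * ((starRingEnd ℂ) (PP p1 p3 w) * PD p1 p3 w)

/-- twice the d-bar derivative of a real function -/
noncomputable def dV (V : ℂ → ℝ) (w : ℂ) : ℂ :=
  (fderiv ℝ V w 1 : ℂ) + I * (fderiv ℝ V w I : ℂ)

lemma FF_contDiff {V : ℂ → ℝ} (hV : ContDiff ℝ 1 V) (p1 p3 : ℂ) : ContDiff ℝ 1 (FF V p1 p3) := by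
  unfold FF PP PD
  refine (Complex.ofRealCLM.contDiff.comp hV).mul (ContDiff.mul ?_ ?_)
  · exact Complex.conjCLE.contDiff.comp (by fun_prop)
  · fun_prop

lemma FF_dbar {V : ℂ → ℝ} (hV : ContDiff ℝ 1 V) (p1 p3 w : ℂ) :
    fderiv ℝ (FF V p1 p3) w 1 + I * fderiv ℝ (FF V p1 p3) w I =
      dV V w * ((starRingEnd ℂ) (PP p1 p3 w) * PD p1 p3 w) +
        2 * ((V w : ℂ) * ((starRingEnd ℂ) (PD p1 p3 w) * PD p1 p3 w)) := by
  have h1 : HasFDerivAt V (fderiv ℝ V w) w :=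
    (hV.differentiable one_ne_zero).differentiableAt.hasFDerivAt
  have h2 : HasFDerivAt (fun w => (V w : ℂ)) (Complex.ofRealCLM ∘L fderiv ℝ V w) w :=
    (Complex.ofRealCLM.hasFDerivAt).comp w h1
  have h3 : HasFDerivAt (PP p1 p3) _ w := (PP_deriv p1 p3 w).hasFDerivAt.restrictScalars ℝ
  have h4 : HasFDerivAt (PD p1 p3) _ w := (PD_deriv p1 p3 w).hasFDerivAt.restrictScalars ℝ
  have h5 : HasFDerivAt (fun w => (starRingEnd ℂ) (PP p1 p3 w)) _ w :=
    (Complex.conjCLE.hasFDerivAt).comp w h3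
  have h6 := (h2.mul (h5.mul h4)).fderiv
  have h7 : fderiv ℝ (FF V p1 p3) w = _ := h6
  rw [h7]
  simp only [dV, add_apply, smul_apply, smul_eq_mul, Pi.mul_apply,
    ContinuousLinearMap.comp_apply, ContinuousLinearMap.coe_restrictScalars',
    ContinuousLinearMap.toSpanSingleton_apply, Complex.ofRealCLM_apply, one_mul,
    ContinuousLinearEquiv.coe_coe, Complex.conjCLE_apply, map_mul, Complex.conj_I]
  linear_combination (-(V w : ℂ) * ((starRingEnd ℂ) (PD p1 p3 w) * PD p1 p3 w) +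
    (V w : ℂ) * (starRingEnd ℂ) (PP p1 p3 w) * (6 * p3 * w)) * Complex.I_mul_I

end AreaL

end Vale.Agent.P142
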