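import Vale.Agent.P142.AreaC

open Complex MeasureTheory Metric Set Filter Topology

namespace Vale.Agent.P142

namespace AreaL

lemma int_fderiv_zero {F : ℂ → ℂ} (hF : ContDiff ℝ 1 F) (hs : HasCompactSupport F) (v : ℂ) :
    ∫ w, fderiv ℝ F w v = 0 := by
  have hc : Continuous fun w => fderiv ℝ F w v :=
    (hF.continuous_fderiv one_ne_zero).clm_apply continuous_const
  have hsv : HasCompactSupport fun w => fderiv ℝ F w v := by
    have := hs.fderiv (𝕜 := ℝ)
    exact this.comp_left (g := fun L : ℂ →L[ℝ] ℂ => L v) (by simp)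
  have h := integral_mul_fderiv_eq_neg_fderiv_mul_of_integrable (μ := (volume : Measure ℂ))
    (f := fun _ : ℂ => (1 : ℂ)) (g := F) (v := v) (by simp)
    (by simpa using hc.integrable_of_hasCompactSupport hsv)
    (by simpa using hF.continuous.integrable_of_hasCompactSupport hs)
    (by simp) (fun x _ => (hF.differentiable one_ne_zero).differentiableAt)
  simpa using h

lemma dV_cont {V : ℂ → ℝ} (hV : ContDiff ℝ 1 V) : Continuous (dV V) := by
  unfold dV
  have h1 : Continuous fun w => fderiv ℝ V w 1 :=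
    (hV.continuous_fderiv one_ne_zero).clm_apply continuous_const
  have h2 : Continuous fun w => fderiv ℝ V w I :=
    (hV.continuous_fderiv one_ne_zero).clm_apply continuous_const
  exact (Complex.continuous_ofReal.comp h1).add
    (continuous_const.mul (Complex.continuous_ofReal.comp h2))

lemma dV_supp {V : ℂ → ℝ} (hs : HasCompactSupport V) : HasCompactSupport (dV V) := by
  have := hs.fderiv (𝕜 := ℝ)
  exact this.comp_left (g := fun L : ℂ →L[ℝ] ℝ => (L 1 : ℂ) + I * (L I : ℂ)) (by simp)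

lemma main1 {V : ℂ → ℝ} (hV : ContDiff ℝ 1 V) (hs : HasCompactSupport V) (hn : ∀ w, 0 ≤ V w)
    (p1 p3 : ℂ) :
    (∫ w, dV V w * ((starRingEnd ℂ) (PP p1 p3 w) * PD p1 p3 w)).re ≤ 0 := by
  have hFc := FF_contDiff hV p1 p3
  have hFs : HasCompactSupport (FF V p1 p3) := by
    unfold FF
    apply HasCompactSupport.mul_right
    exact hs.comp_left (g := fun x : ℝ => (x : ℂ)) (by simp)
  have hPP : Continuous (PP p1 p3) := by unfold PP; fun_prop
  have hPD : Continuous (PD p1 p3) := by unfold PD; fun_prop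
  have h1 := int_fderiv_zero hFc hFs 1
  have hI := int_fderiv_zero hFc hFs I
  have hc : ∀ v : ℂ, Integrable fun w => fderiv ℝ (FF V p1 p3) w v := by
    intro v
    refine Continuous.integrable_of_hasCompactSupport
      ((hFc.continuous_fderiv one_ne_zero).clm_apply continuous_const) ?_
    exact (hFs.fderiv (𝕜 := ℝ)).comp_left (g := fun L : ℂ →L[ℝ] ℂ => L v) (by simp)
  have h2 : ∫ w, (fderiv ℝ (FF V p1 p3) w 1 + I * fderiv ℝ (FF V p1 p3) w I) = 0 := by
    rw [integral_add (hc 1) ((hc I).const_mul I), integral_const_mul, h1, hI]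
    simp
  simp only [FF_dbar hV] at h2
  have hi1 : Integrable fun w => dV V w * ((starRingEnd ℂ) (PP p1 p3 w) * PD p1 p3 w) := by
    apply Continuous.integrable_of_hasCompactSupport
    · exact (dV_cont hV).mul ((Complex.continuous_conj.comp hPP).mul hPD)
    · exact (dV_supp hs).mul_right
  have hi2 : Integrable fun w => (V w : ℂ) * ((starRingEnd ℂ) (PD p1 p3 w) * PD p1 p3 w) := by
    apply Continuous.integrable_of_hasCompactSupport
    · exact (Complex.continuous_ofReal.comp hV.continuous).mul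
        ((Complex.continuous_conj.comp hPD).mul hPD)
    · apply HasCompactSupport.mul_right
      exact hs.comp_left (g := fun x : ℝ => (x : ℂ)) (by simp)
  rw [integral_add hi1 (hi2.const_mul 2), integral_const_mul] at h2
  have h3 : ∫ w, (V w : ℂ) * ((starRingEnd ℂ) (PD p1 p3 w) * PD p1 p3 w) =
      ((∫ w, V w * ‖PD p1 p3 w‖ ^ 2 : ℝ) : ℂ) := by
    rw [← integral_complex_ofReal]
    congr 1
    ext w
    rw [← Complex.normSq_eq_conj_mul_self, Complex.normSq_eq_norm_sq]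
    push_cast
    ring
  have h4 : 0 ≤ ∫ w, V w * ‖PD p1 p3 w‖ ^ 2 :=
    integral_nonneg fun w => mul_nonneg (hn w) (by positivity)
  rw [h3] at h2
  have h5 : ∫ w, dV V w * ((starRingEnd ℂ) (PP p1 p3 w) * PD p1 p3 w) =
      ((-(2 * ∫ w, V w * ‖PD p1 p3 w‖ ^ 2) : ℝ) : ℂ) := by
    push_cast
    linear_combination h2
  rw [h5, Complex.ofReal_re]
  linarith

/-! ### pulling back to the disc -/

/-- derivative of `1/g` -/
noncomputable def GD (g : ℂ → ℂ) (z : ℂ) : ℂ := -deriv g z / g z ^ 2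

lemma g_ne {g gi : ℂ → ℂ} (h : UD g gi) {z : ℂ} (hz : z ∈ ball (0 : ℂ) 1) (h0 : z ≠ 0) :
    g z ≠ 0 := by
  intro hg
  apply h0
  exact h.inj hz (by simp) (by rw [hg, h.zero])

lemma G_deriv {g gi : ℂ → ℂ} (h : UD g gi) {z : ℂ} (hz : z ∈ ball (0 : ℂ) 1) (h0 : z ≠ 0) :
    HasDerivAt (fun z => (g z)⁻¹) (GD g z) z := by
  have h1 : HasDerivAt g (deriv g z) z :=
    (h.dg.differentiableAt (isOpen_ball.mem_nhds hz)).hasDerivAt
  exact h1.fun_inv (g_ne h hz h0)

lemma dV_G {g gi : ℂ → ℂ} (h : UD g gi) (a b : ℝ) {z : ℂ} (hz : z ∈ ball (0 : ℂ) 1) (h0 : z ≠ 0) :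
    dV (VV g gi a b) (g z)⁻¹ = 2 * (kk a b (‖z‖ ^ 2) : ℂ) * (z * (starRingEnd ℂ) (GD g z)⁻¹) := by
  have hg0 := g_ne h hz h0
  have hd0 : deriv g z ≠ 0 := deriv_ne h.dg h.inj hz
  have hcond : (g z)⁻¹ ≠ 0 ∧ ((g z)⁻¹)⁻¹ ∈ g '' ball 0 1 :=
    ⟨inv_ne_zero hg0, by rw [inv_inv]; exact ⟨z, hz, rfl⟩⟩
  have h1 : HasDerivAt (fun w : ℂ => w⁻¹) (-((g z)⁻¹ ^ 2)⁻¹) (g z)⁻¹ :=
    hasDerivAt_inv (inv_ne_zero hg0)
  have h2 : HasDerivAt gi (deriv g z)⁻¹ ((fun w : ℂ => w⁻¹) (g z)⁻¹) := by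
    have := h.der z hz
    simpa using this
  have h3 : HasDerivAt (fun w => gi w⁻¹) (GD g z)⁻¹ (g z)⁻¹ := by
    refine (h2.comp _ h1).congr_deriv ?_
    unfold GD
    field_simp
  have h4 : HasFDerivAt (fun w => gi w⁻¹) _ (g z)⁻¹ := h3.hasFDerivAt.restrictScalars ℝ
  have h5 := h4.norm_sq
  have h6 : gi ((g z)⁻¹)⁻¹ = z := by rw [inv_inv]; exact h.li z hz
  have h7 : HasDerivAt (chi a b) (kk a b (‖gi ((g z)⁻¹)⁻¹‖ ^ 2)) (‖gi ((g z)⁻¹)⁻¹‖ ^ 2) :=
    chi_hasDeriv a b _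
  have h8 : HasFDerivAt (fun w => chi a b (‖gi w⁻¹‖ ^ 2)) _ (g z)⁻¹ :=
    HasDerivAt.comp_hasFDerivAt (f := fun w => ‖gi w⁻¹‖ ^ 2) (g z)⁻¹ h7 h5
  have h9 : HasFDerivAt (VV g gi a b) _ (g z)⁻¹ :=
    h8.congr_of_eventuallyEq (VV_eventually h a b hcond)
  unfold dV
  rw [h9.fderiv]
  simp only [h6, smul_apply, smul_eq_mul, ContinuousLinearMap.comp_apply,
    ContinuousLinearMap.coe_restrictScalars', ContinuousLinearMap.toSpanSingleton_apply,
    innerSL_apply_apply, one_mul, nsmul_eq_mul]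
  generalize (GD g z)⁻¹ = c
  generalize kk a b (‖z‖ ^ 2) = k
  apply Complex.ext
  · simp [Complex.inner]
    ring
  · simp [Complex.inner]
    ring

lemma det_mul (c : ℂ) :
    (ContinuousLinearMap.restrictScalars ℝ (ContinuousLinearMap.toSpanSingleton ℂ c)).det =
      ‖c‖ ^ 2 := by
  simp [ContinuousLinearMap.det, LinearMap.det_restrictScalars,
      Algebra.norm_complex_eq, Complex.normSq_eq_norm_sq]

lemma pull_back {g gi : ℂ → ℂ} (h : UD g gi) {a b : ℝ} (hab : a < b) (hb : b < 1) (Q : ℂ → ℂ) :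
    ∫ w, dV (VV g gi a b) w * Q w =
      ∫ z in ball (0 : ℂ) 1 \ {0}, 2 * (kk a b (‖z‖ ^ 2) : ℂ) * (z * (GD g z * Q (g z)⁻¹)) := by
  set T : Set ℂ := (fun z => (g z)⁻¹) '' (ball (0 : ℂ) 1 \ {0}) with hT
  have hz : ∀ w, w ∉ T → dV (VV g gi a b) w * Q w = 0 := by
    intro w hw
    have hc : ¬ (w ≠ 0 ∧ w⁻¹ ∈ g '' ball 0 1) := by
      rintro ⟨hw0, z, hz, hzw⟩
      apply hw
      refine ⟨z, ⟨hz, ?_⟩, ?_⟩
      · rintro rfl
        rw [h.zero] at hzw
        exact hw0 (inv_eq_zero.1 hzw.symm)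
      · simp only [hzw, inv_inv]
    have := (VV_eventually_const h hab hb hc).fderiv_eq (𝕜 := ℝ)
    simp [dV, this]
  rw [← setIntegral_eq_integral_of_forall_compl_eq_zero (s := T) hz, hT]
  have hinj : InjOn (fun z => (g z)⁻¹) (ball (0 : ℂ) 1 \ {0}) := by
    intro x hx y hy hxy
    exact h.inj hx.1 hy.1 (inv_injective hxy)
  have hmeas : MeasurableSet (ball (0 : ℂ) 1 \ {0}) :=
    measurableSet_ball.diff (measurableSet_singleton 0)
  rw [integral_image_eq_integral_abs_det_fderiv_smul volume hmeas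
    (fun x hx => ((G_deriv h hx.1 hx.2).hasFDerivAt.restrictScalars ℝ).hasFDerivWithinAt) hinj]
  apply setIntegral_congr_fun hmeas
  intro z hz
  have hz0 : z ≠ 0 := hz.2
  simp only [dV_G h a b hz.1 hz0]
  rw [det_mul, abs_of_nonneg (by positivity)]
  have hG : GD g z ≠ 0 := by
    unfold GD
    exact div_ne_zero (neg_ne_zero.2 (deriv_ne h.dg h.inj hz.1)) (pow_ne_zero 2 (g_ne h hz.1 hz0))
  have h1 : ((‖GD g z‖ ^ 2 : ℝ) : ℂ) = GD g z * (starRingEnd ℂ) (GD g z) := by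
    rw [Complex.mul_conj, Complex.normSq_eq_norm_sq]
  have h2 : (starRingEnd ℂ) (GD g z) * (starRingEnd ℂ) (GD g z)⁻¹ = 1 := by
    rw [← map_mul, mul_inv_cancel₀ hG, map_one]
  rw [Complex.real_smul, h1]
  linear_combination (GD g z * 2 * (kk a b (‖z‖ ^ 2) : ℂ) * z * Q (g z)⁻¹) * h2

end AreaL

end Vale.Agent.P142
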