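import Vale.Agent.P142.Defs
import Vale.Agent.P142.Area

open Complex MeasureTheory Metric Set Filter Topology

namespace Vale.Agent.P142

/-! ### Taylor coefficients -/

theorem ai_unique {a b : ℕ → ℂ} {f : ℂ → ℂ}
    (ha : ∀ w ∈ ball (0 : ℂ) 1, HasSum (fun n => a n * w ^ n) (f w))
    (hb : ∀ w ∈ ball (0 : ℂ) 1, HasSum (fun n => b n * w ^ n) (f w)) : a = b := by
  have key : ∀ c : ℕ → ℂ, (∀ w ∈ ball (0 : ℂ) 1, HasSum (fun n => c n * w ^ n) (f w)) →
      HasFPowerSeriesAt f (FormalMultilinearSeries.ofScalars ℂ c) 0 := by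
    intro c hc
    rw [hasFPowerSeriesAt_iff]
    filter_upwards [ball_mem_nhds (0 : ℂ) one_pos] with w hw
    have h := hc w hw
    simp only [FormalMultilinearSeries.coeff_ofScalars, smul_eq_mul, zero_add]
    simpa only [mul_comm] using h
  have h := (key a ha).eq_formalMultilinearSeries (key b hb)
  funext n
  have := congrArg (fun p => p.coeff n) h
  simpa [FormalMultilinearSeries.coeff_ofScalars] using this

/-- Taylor coefficients at `0` -/
noncomputable def aiT (f : ℂ → ℂ) (n : ℕ) : ℂ := (n.factorial : ℂ)⁻¹ * iteratedDeriv n f 0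

theorem aiT_hasSum {f : ℂ → ℂ} (hf : DifferentiableOn ℂ f (ball 0 1)) {w : ℂ}
    (hw : w ∈ ball (0 : ℂ) 1) : HasSum (fun n => aiT f n * w ^ n) (f w) := by
  have h := Complex.hasSum_taylorSeries_on_ball (c := 0) (r := 1) hf hw
  have e : (fun n : ℕ => aiT f n * w ^ n) =
      fun n => (n.factorial : ℂ)⁻¹ • (w - 0) ^ n • iteratedDeriv n f 0 := by
    funext n
    simp only [aiT, smul_eq_mul, sub_zero]
    ring
  rw [e]
  exact h

theorem aiT_deriv (f : ℂ → ℂ) (n : ℕ) : aiT (deriv f) n = ((n : ℂ) + 1) * aiT f (n + 1) := by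
  unfold aiT
  rw [iteratedDeriv_succ', Nat.factorial_succ]
  have h1 : ((n : ℂ) + 1) ≠ 0 := Nat.cast_add_one_ne_zero n
  have h2 : (n.factorial : ℂ) ≠ 0 := Nat.cast_ne_zero.mpr n.factorial_ne_zero
  push_cast
  field_simp

theorem ai_mul {a b : ℕ → ℂ} {w x y : ℂ}
    (ha : HasSum (fun n => a n * w ^ n) x) (hb : HasSum (fun n => b n * w ^ n) y) :
    HasSum (fun n => (∑ k ∈ Finset.range (n + 1), a k * b (n - k)) * w ^ n) (x * y) := by
  have ha' : Summable (fun n => ‖a n * w ^ n‖) := ha.summable.norm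
  have hb' : Summable (fun n => ‖b n * w ^ n‖) := hb.summable.norm
  have h := hasSum_sum_range_mul_of_summable_norm ha' hb'
  rw [ha.tsum_eq, hb.tsum_eq] at h
  have e : (fun n => (∑ k ∈ Finset.range (n + 1), a k * b (n - k)) * w ^ n) =
      fun n => ∑ k ∈ Finset.range (n + 1), a k * w ^ k * (b (n - k) * w ^ (n - k)) := by
    funext n
    rw [Finset.sum_mul]
    refine Finset.sum_congr rfl fun k hk => ?_
    have hk' : k ≤ n := Nat.lt_succ_iff.mp (Finset.mem_range.mp hk)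
    have : w ^ n = w ^ k * w ^ (n - k) := by
      rw [← pow_add, Nat.add_sub_cancel' hk']
    rw [this]
    ring
  rw [e]
  exact h

theorem ai_powC_succ (μ : ℝ) (c : ℕ → ℂ) (n : ℕ) :
    powC μ c (n + 1) = (1 / ((n : ℂ) + 1)) * ∑ j ∈ Finset.range (n + 1),
      ((μ : ℂ) * ((j : ℂ) + 1) - ((n : ℂ) - (j : ℂ))) * c (j + 1) * powC μ c (n - j) := by
  rw [powC]
  rw [Fin.sum_univ_eq_sum_range (fun j => ((μ : ℂ) * ((j : ℂ) + 1) - ((n : ℂ) - (j : ℂ))) *
    c (j + 1) * powC μ c (n - j)) (n + 1)]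

theorem ai_powC_zero (μ : ℝ) (c : ℕ → ℂ) : powC μ c 0 = 1 := by
  rw [powC]

/-- coefficients of the solution of `T Y' = μ T' Y` -/
theorem ai_ode {T Y : ℂ → ℂ} (hT : DifferentiableOn ℂ T (ball 0 1))
    (hY : DifferentiableOn ℂ Y (ball 0 1)) (μ : ℝ)
    (ode : ∀ w ∈ ball (0 : ℂ) 1, T w * deriv Y w = (μ : ℂ) * (deriv T w * Y w))
    (hT0 : T 0 = 1) (hY0 : Y 0 = 1) (n : ℕ) : aiT Y n = powC μ (aiT T) n := by
  have hT' : DifferentiableOn ℂ (deriv T) (ball 0 1) := hT.deriv isOpen_ball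
  have hY' : DifferentiableOn ℂ (deriv Y) (ball 0 1) := hY.deriv isOpen_ball
  have hc0 : aiT T 0 = 1 := by simp [aiT, hT0]
  have ha0 : aiT Y 0 = 1 := by simp [aiT, hY0]
  have hcoef : (fun n => ∑ k ∈ Finset.range (n + 1), aiT T k * aiT (deriv Y) (n - k)) =
      fun n => (μ : ℂ) * ∑ k ∈ Finset.range (n + 1), aiT (deriv T) k * aiT Y (n - k) := by
    refine ai_unique (f := fun w => T w * deriv Y w) ?_ ?_
    · intro w hw
      exact ai_mul (aiT_hasSum hT hw) (aiT_hasSum hY' hw)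
    · intro w hw
      rw [ode w hw]
      have := (ai_mul (aiT_hasSum hT' hw) (aiT_hasSum hY hw)).mul_left (μ : ℂ)
      simpa only [mul_assoc] using this
  have hrec : ∀ n : ℕ, ((n : ℂ) + 1) * aiT Y (n + 1) = ∑ j ∈ Finset.range (n + 1),
      ((μ : ℂ) * ((j : ℂ) + 1) - ((n : ℂ) - (j : ℂ))) * aiT T (j + 1) * aiT Y (n - j) := by
    intro n
    have h := congrFun hcoef n
    simp only [aiT_deriv] at h
    rw [Finset.sum_range_succ'] at h
    simp only [hc0, Nat.sub_zero, one_mul] at h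
    have h2 : ∑ k ∈ Finset.range n, aiT T (k + 1) *
        ((((n - (k + 1) : ℕ) : ℂ) + 1) * aiT Y (n - (k + 1) + 1)) =
        ∑ j ∈ Finset.range (n + 1), ((n : ℂ) - (j : ℂ)) * aiT T (j + 1) * aiT Y (n - j) := by
      rw [Finset.sum_range_succ]
      simp only [sub_self, zero_mul, add_zero]
      refine Finset.sum_congr rfl fun k hk => ?_
      have hk' : k < n := Finset.mem_range.mp hk
      have e1 : n - (k + 1) + 1 = n - k := by omega
      have e2 : (((n - (k + 1) : ℕ) : ℂ) + 1) = (n : ℂ) - k := by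
        rw [Nat.cast_sub (by omega)]
        push_cast
        ring
      rw [e1, e2]
      ring
    rw [h2] at h
    have h3 : ∑ j ∈ Finset.range (n + 1),
        ((μ : ℂ) * ((j : ℂ) + 1) - ((n : ℂ) - (j : ℂ))) * aiT T (j + 1) * aiT Y (n - j) =
        (μ : ℂ) * (∑ k ∈ Finset.range (n + 1), ((k : ℂ) + 1) * aiT T (k + 1) * aiT Y (n - k)) -
        ∑ j ∈ Finset.range (n + 1), ((n : ℂ) - (j : ℂ)) * aiT T (j + 1) * aiT Y (n - j) := by
      rw [Finset.mul_sum, ← Finset.sum_sub_distrib]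
      refine Finset.sum_congr rfl fun k _ => ?_
      ring
    rw [h3, ← h]
    ring
  induction n using Nat.strong_induction_on with
  | _ n ih =>
    rcases n with _ | n
    · rw [ha0, ai_powC_zero]
    · have h1 : ((n : ℂ) + 1) ≠ 0 := Nat.cast_add_one_ne_zero n
      have h2 := hrec n
      rw [ai_powC_succ]
      have h3 : ∑ j ∈ Finset.range (n + 1),
          ((μ : ℂ) * ((j : ℂ) + 1) - ((n : ℂ) - (j : ℂ))) * aiT T (j + 1) * powC μ (aiT T) (n - j) =
          ∑ j ∈ Finset.range (n + 1),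
          ((μ : ℂ) * ((j : ℂ) + 1) - ((n : ℂ) - (j : ℂ))) * aiT T (j + 1) * aiT Y (n - j) := by
        refine Finset.sum_congr rfl fun k _ => ?_
        rw [ih (n - k) (by omega)]
      rw [h3, ← h2]
      field_simp

/-! ### the square root -/

theorem ai_T {Φ : ℂ → ℂ} (h : DifferentiableOn ℂ Φ (ball 0 1)) (hi : InjOn Φ (ball 0 1))
    (c : ℕ → ℂ) (hc : ∀ w ∈ ball (0 : ℂ) 1, HasSum (fun k => c k * w ^ (k + 1)) (Φ w))
    (h0 : c 0 = 1) : ∃ T : ℂ → ℂ, DifferentiableOn ℂ T (ball 0 1) ∧ T 0 = 1 ∧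
      (∀ w, Φ w = w * T w) ∧ (∀ w ∈ ball (0 : ℂ) 1, T w ≠ 0) ∧ aiT T = c := by
  have hz : (0 : ℂ) ∈ ball (0 : ℂ) 1 := mem_ball_self one_pos
  have hΦ0 : Φ 0 = 0 := by
    have := hc 0 hz
    simp only [ne_eq, Nat.add_eq_zero_iff, one_ne_zero, and_false, not_false_eq_true, zero_pow,
      mul_zero] at this
    exact this.unique hasSum_zero
  have hT : DifferentiableOn ℂ (dslope Φ 0) (ball 0 1) :=
    (Complex.differentiableOn_dslope (ball_mem_nhds 0 one_pos)).mpr h
  have hmul : ∀ w, Φ w = w * dslope Φ 0 w := by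
    intro w
    have := sub_smul_dslope Φ 0 w
    rw [smul_eq_mul, sub_zero, hΦ0, sub_zero] at this
    exact this.symm
  have hcT : aiT (dslope Φ 0) = c := by
    have hsh : (fun n : ℕ => if n = 0 then (0 : ℂ) else aiT (dslope Φ 0) (n - 1)) =
        fun n : ℕ => if n = 0 then (0 : ℂ) else c (n - 1) := by
      refine ai_unique (f := Φ) ?_ ?_
      · intro w hw
        have h1 := (aiT_hasSum hT hw).mul_left w
        rw [← hmul] at h1
        have h2 := (hasSum_nat_add_iff (f := fun n : ℕ =>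
          (if n = 0 then (0 : ℂ) else aiT (dslope Φ 0) (n - 1)) * w ^ n) (g := Φ w) 1).mp
        simp only [Nat.add_eq_zero_iff, one_ne_zero, and_false, if_false, Nat.add_sub_cancel,
          Finset.range_one, Finset.sum_singleton, if_true, zero_mul, add_zero] at h2
        refine h2 ?_
        have e : (fun n => aiT (dslope Φ 0) n * w ^ (n + 1)) =
            fun n => w * (aiT (dslope Φ 0) n * w ^ n) := by
          funext n
          ring
        rw [e]
        exact h1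
      · intro w hw
        have h2 := (hasSum_nat_add_iff (f := fun n : ℕ =>
          (if n = 0 then (0 : ℂ) else c (n - 1)) * w ^ n) (g := Φ w) 1).mp
        simp only [Nat.add_eq_zero_iff, one_ne_zero, and_false, if_false, Nat.add_sub_cancel,
          Finset.range_one, Finset.sum_singleton, if_true, zero_mul, add_zero] at h2
        exact h2 (hc w hw)
    funext n
    have := congrFun hsh (n + 1)
    simpa using this
  have hT0 : dslope Φ 0 0 = 1 := by
    have : aiT (dslope Φ 0) 0 = 1 := by rw [hcT, h0]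
    simpa [aiT] using this
  refine ⟨dslope Φ 0, hT, hT0, hmul, ?_, hcT⟩
  intro w hw hTw
  by_cases hw0 : w = 0
  · rw [hw0, hT0] at hTw
    exact one_ne_zero hTw
  · have h1 : Φ w = Φ 0 := by rw [hmul w, hTw, mul_zero, hΦ0]
    exact hw0 (hi hw hz h1)

theorem ai_sqrt {T : ℂ → ℂ} (hT : DifferentiableOn ℂ T (ball 0 1)) (hT0 : T 0 = 1)
    (hne : ∀ w ∈ ball (0 : ℂ) 1, T w ≠ 0) : ∃ q : ℂ → ℂ, DifferentiableOn ℂ q (ball 0 1) ∧
      q 0 = 1 ∧ (∀ w ∈ ball (0 : ℂ) 1, q w ^ 2 * T w = 1) ∧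
      (∀ w ∈ ball (0 : ℂ) 1, T w * deriv q w = ((-1 / 2 : ℝ) : ℂ) * (deriv T w * q w)) := by
  have hT' : DifferentiableOn ℂ (deriv T) (ball 0 1) := hT.deriv isOpen_ball
  have hd : DifferentiableOn ℂ (fun w => deriv T w / T w) (ball 0 1) := hT'.div hT hne
  obtain ⟨L0, hL0⟩ := hd.isExactOn_ball
  obtain ⟨L, hL⟩ : ∃ L : ℂ → ℂ, L = fun w => L0 w - L0 0 := ⟨_, rfl⟩
  have hLz : L 0 = 0 := by rw [hL]; simp
  have hLd : ∀ w ∈ ball (0 : ℂ) 1, HasDerivAt L (deriv T w / T w) w := by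
    intro w hw
    rw [hL]
    exact (hL0 w hw).sub_const _
  have hqd : ∀ w ∈ ball (0 : ℂ) 1, HasDerivAt (fun w => Complex.exp (-(1 / 2) * L w))
      (Complex.exp (-(1 / 2) * L w) * (-(1 / 2) * (deriv T w / T w))) w := by
    intro w hw
    exact ((hLd w hw).const_mul (-(1 / 2))).cexp
  refine ⟨fun w => Complex.exp (-(1 / 2) * L w), ?_, ?_, ?_, ?_⟩
  · intro w hw
    exact (hqd w hw).differentiableAt.differentiableWithinAt
  · simp [hLz]
  · have hz : (0 : ℂ) ∈ ball (0 : ℂ) 1 := mem_ball_self one_pos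
    have hconst : ∀ w ∈ ball (0 : ℂ) 1, HasDerivAt (fun w => Complex.exp (-(1 / 2) * L w) ^ 2 * T w)
        0 w := by
      intro w hw
      have h1 := ((hqd w hw).pow 2).mul ((hT.differentiableAt (isOpen_ball.mem_nhds hw)).hasDerivAt)
      have hTn := hne w hw
      refine HasDerivAt.congr_deriv (f' := _) h1 ?_
      have e : ((fun w => Complex.exp (-(1 / 2) * L w)) ^ 2) w = Complex.exp (-(1 / 2) * L w) ^ 2 :=
        rfl
      rw [e]
      simp only [Nat.cast_ofNat, Nat.add_one_sub_one, pow_one]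
      field_simp
      ring
    intro w hw
    have h2 := (convex_ball (0 : ℂ) 1).is_const_of_fderivWithin_eq_zero (𝕜 := ℂ)
      (f := fun w => Complex.exp (-(1 / 2) * L w) ^ 2 * T w)
      (fun x hx => (hconst x hx).differentiableAt.differentiableWithinAt)
      (fun x hx => by
        have := (hconst x hx).hasFDerivAt.hasFDerivWithinAt (s := ball (0 : ℂ) 1)
        rw [this.fderivWithin (isOpen_ball.uniqueDiffWithinAt hx)]
        ext
        simp) hw hz
    simpa [hLz, hT0] using h2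
  · intro w hw
    have h1 := (hqd w hw).deriv
    rw [h1]
    have hTn := hne w hw
    push_cast
    field_simp

/-! ### A2 -/

theorem ai_sum_even (β : ℕ → ℂ) (B : ℕ → ℂ) (hB : ∀ n, B n = if n % 2 = 0 then β (n / 2) else 0)
    (K : ℕ) : ∑ n ∈ Finset.range (2 * K), ((n : ℝ) + 1) * ‖B (n + 4)‖ ^ 2 =
      ∑ j ∈ Finset.range K, (2 * (j : ℝ) + 1) * ‖β (j + 2)‖ ^ 2 := by
  induction K with
  | zero => simp
  | succ K ih =>
    rw [show 2 * (K + 1) = 2 * K + 1 + 1 by ring, Finset.sum_range_succ, Finset.sum_range_succ, ih,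
      Finset.sum_range_succ]
    have e1 : B (2 * K + 4) = β (K + 2) := by
      rw [hB, if_pos (by omega)]
      congr 1
      omega
    have e2 : B (2 * K + 1 + 4) = 0 := by
      rw [hB, if_neg (by omega)]
    rw [e1, e2]
    push_cast
    simp

/-- A2 (file AreaIneq.lean). -/
theorem area_ineq {Φ : ℂ → ℂ} (h : DifferentiableOn ℂ Φ (ball 0 1)) (hi : InjOn Φ (ball 0 1))
    (c : ℕ → ℂ) (hc : ∀ w ∈ ball (0 : ℂ) 1, HasSum (fun k => c k * w ^ (k + 1)) (Φ w))
    (h0 : c 0 = 1) (g0 g1 : ℂ) (K : ℕ) : areaQ K g0 g1 c ≤ 0 := by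
  obtain ⟨T, hT, hT0, hΦT, hTne, hTc⟩ := ai_T h hi c hc h0
  obtain ⟨q, hq, hq0, hqT, hode⟩ := ai_sqrt hT hT0 hTne
  have hr : ∀ n, aiT q n = powC (-1 / 2) c n := by
    intro n
    rw [← hTc]
    exact ai_ode hT hq (-1 / 2) hode hT0 hq0 n
  have hq3 : DifferentiableOn ℂ (fun w => q w ^ 3) (ball 0 1) := hq.pow 3
  have hs : ∀ n, aiT (fun w => q w ^ 3) n = powC (-3 / 2) c n := by
    intro n
    rw [← hTc]
    refine ai_ode hT hq3 (-3 / 2) ?_ hT0 (by simp [hq0]) n
    intro w hw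
    have hd : deriv (fun w => q w ^ 3) w = 3 * q w ^ 2 * deriv q w := by
      have h3 : deriv (q ^ 3) w = 3 * q w ^ 2 * deriv q w := by
        have := ((hq.differentiableAt (isOpen_ball.mem_nhds hw)).hasDerivAt.pow 3).deriv
        simpa using this
      exact h3
    have h1 := hode w hw
    rw [hd]
    calc T w * (3 * q w ^ 2 * deriv q w) = 3 * q w ^ 2 * (T w * deriv q w) := by ring
      _ = _ := by
        rw [h1]
        push_cast
        ring
  have hqne : ∀ w ∈ ball (0 : ℂ) 1, q w ≠ 0 := by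
    intro w hw hq0'
    have := hqT w hw
    rw [hq0'] at this
    simp at this
  have hsq : ∀ w ∈ ball (0 : ℂ) 1, w ^ 2 ∈ ball (0 : ℂ) 1 := by
    intro w hw
    rw [mem_ball_zero_iff] at hw ⊢
    rw [norm_pow]
    nlinarith [norm_nonneg w]
  obtain ⟨β, hβ⟩ : ∃ β : ℕ → ℂ, β = fun n => if n = 0 then g1 else
      g0 * aiT q (n - 1) + g1 * aiT (fun w => q w ^ 3) n := ⟨_, rfl⟩
  obtain ⟨B, hB⟩ : ∃ B : ℕ → ℂ, B = fun n => if n % 2 = 0 then β (n / 2) else 0 := ⟨_, rfl⟩
  have hβsum : ∀ x ∈ ball (0 : ℂ) 1, HasSum (fun m => β m * x ^ m) (g0 * x * q x + g1 * q x ^ 3) := by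
    intro x hx
    have h1 := (aiT_hasSum hq hx).mul_left (g0 * x)
    have h2 := (aiT_hasSum hq3 hx).mul_left g1
    have h2' := (hasSum_nat_add_iff' (f := fun n => g1 * (aiT (fun w => q w ^ 3) n * x ^ n))
      (g := g1 * q x ^ 3) 1).mpr h2
    have h3 := h1.add h2'
    have h4 := (hasSum_nat_add_iff (f := fun m => β m * x ^ m)
      (g := g0 * x * q x + (g1 * q x ^ 3 - g1)) 1).mp
    have e0 : aiT (fun w => q w ^ 3) 0 = 1 := by simp [aiT, hq0]
    have e1 : (fun n => β (n + 1) * x ^ (n + 1)) = fun n => g0 * x * (aiT q n * x ^ n) +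
        g1 * (aiT (fun w => q w ^ 3) (n + 1) * x ^ (n + 1)) := by
      funext n
      rw [hβ]
      simp only [Nat.add_eq_zero_iff, one_ne_zero, and_false, if_false, Nat.add_sub_cancel]
      ring
    have e2 : β 0 = g1 := by rw [hβ]; simp
    rw [e1] at h4
    simp only [Finset.range_one, Finset.sum_singleton, pow_zero, mul_one, e0, e2] at h3 h4
    have := h4 h3
    have e3 : g0 * x * q x + (g1 * q x ^ 3 - g1) + g1 = g0 * x * q x + g1 * q x ^ 3 := by ring
    rwa [e3] at this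
  obtain ⟨g, hg⟩ : ∃ g : ℂ → ℂ, g = fun w => w / q (w ^ 2) := ⟨_, rfl⟩
  have hgd : DifferentiableOn ℂ g (ball 0 1) := by
    rw [hg]
    refine differentiableOn_id.div ?_ ?_
    · exact hq.comp (differentiableOn_id.pow 2) (fun w hw => hsq w hw)
    · intro w hw
      exact hqne _ (hsq w hw)
  have hg2 : ∀ w ∈ ball (0 : ℂ) 1, g w ^ 2 = Φ (w ^ 2) := by
    intro w hw
    have h1 := hqT _ (hsq w hw)
    have h2 := hqne _ (hsq w hw)
    rw [hg, hΦT]
    simp only [div_pow]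
    rw [div_eq_iff (pow_ne_zero 2 h2)]
    calc w ^ 2 = w ^ 2 * (q (w ^ 2) ^ 2 * T (w ^ 2)) := by rw [h1, mul_one]
      _ = _ := by ring
  have hgi : InjOn g (ball 0 1) := by
    intro x hx y hy hxy
    have h1 : Φ (x ^ 2) = Φ (y ^ 2) := by rw [← hg2 x hx, ← hg2 y hy, hxy]
    have h2 : x ^ 2 = y ^ 2 := hi (hsq x hx) (hsq y hy) h1
    rcases sq_eq_sq_iff_eq_or_eq_neg.mp h2 with h3 | h3
    · exact h3
    · have h4 : g x = - g y := by
        rw [hg]
        simp only [h3, neg_sq, neg_div]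
      have h5 : g y = 0 := by
        have : g y = - g y := by rw [← h4, hxy]
        linear_combination (1 / 2 : ℂ) * this
      have h6 : y = 0 := by
        have h7 := hqne _ (hsq y hy)
        rw [hg] at h5
        simp only [div_eq_zero_iff] at h5
        exact h5.resolve_right h7
      rw [h3, h6, neg_zero]
  have hg0 : g 0 = 0 := by rw [hg]; simp
  have hBsum : ∀ w ∈ ball (0 : ℂ) 1, w ≠ 0 → HasSum (fun n => B n * w ^ n)
      (w ^ 3 * (g0 / g w + g1 / g w ^ 3)) := by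
    intro w hw hw0
    have h1 := hβsum _ (hsq w hw)
    have h2 := hqne _ (hsq w hw)
    have e : w ^ 3 * (g0 / g w + g1 / g w ^ 3) =
        g0 * w ^ 2 * q (w ^ 2) + g1 * q (w ^ 2) ^ 3 := by
      rw [hg]
      simp only
      field_simp
    rw [e]
    have hinj : Function.Injective (fun m : ℕ => 2 * m) := by
      intro a b hab
      simpa using hab
    refine (hinj.hasSum_iff ?_).mp ?_
    · intro n hn
      have : n % 2 ≠ 0 := by
        intro h0
        exact hn ⟨n / 2, by simp only; omega⟩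
      rw [hB]
      simp only [if_neg this, zero_mul]
    · have e2 : (fun n => B n * w ^ n) ∘ (fun m : ℕ => 2 * m) = fun m => β m * (w ^ 2) ^ m := by
        funext m
        simp only [Function.comp, hB]
        rw [if_pos (by omega), ← pow_mul]
        congr 2
        omega
      rw [e2]
      exact h1
  have key := area_laurent hgd hgi hg0 g0 g1 B hBsum (2 * K)
  rw [ai_sum_even β B (fun n => by rw [hB]) K] at key
  have b0 : B 0 = g1 := by rw [hB, hβ]; simp
  have b1 : B 1 = 0 := by rw [hB]; simp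
  have b2 : B 2 = g0 + g1 * powC (-3 / 2) c 1 := by
    rw [hB, hβ]
    simp only [Nat.mod_self, if_true, Nat.div_self (by norm_num : 0 < 2), one_ne_zero, if_false,
      Nat.sub_self, hr, hs, ai_powC_zero, mul_one]
  rw [b0, b1, b2] at key
  have e5 : ∑ j ∈ Finset.range K, (2 * (j : ℝ) + 1) * ‖β (j + 2)‖ ^ 2 =
      2 * ∑ n ∈ Finset.range K, ((n : ℝ) + 1 / 2) *
        ‖g0 * powC (-1 / 2) c (n + 1) + g1 * powC (-3 / 2) c (n + 2)‖ ^ 2 := by
    rw [Finset.mul_sum]
    refine Finset.sum_congr rfl fun j _ => ?_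
    have : β (j + 2) = g0 * powC (-1 / 2) c (j + 1) + g1 * powC (-3 / 2) c (j + 2) := by
      rw [hβ]
      simp only [Nat.add_eq_zero_iff, OfNat.ofNat_ne_zero, and_false, if_false]
      rw [hr, hs]
      rfl
    rw [this]
    ring
  rw [e5] at key
  unfold areaQ
  simp only [norm_zero] at key
  linarith

theorem ai_r_bound {Φ : ℂ → ℂ} (h : DifferentiableOn ℂ Φ (ball 0 1)) (hi : InjOn Φ (ball 0 1))
    (c : ℕ → ℂ) (hc : ∀ w ∈ ball (0 : ℂ) 1, HasSum (fun k => c k * w ^ (k + 1)) (Φ w))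
    (h0 : c 0 = 1) (n : ℕ) : ‖powC (-1 / 2) c n‖ ≤ 1 := by
  rcases n with _ | n
  · rw [ai_powC_zero]; simp
  have key := area_ineq h hi c hc h0 1 0 (n + 1)
  unfold areaQ at key
  simp only [one_mul, zero_mul, add_zero, norm_one, norm_zero] at key
  have h1 : ((n : ℝ) + 1 / 2) * ‖powC (-1 / 2) c (n + 1)‖ ^ 2 ≤
      ∑ m ∈ Finset.range (n + 1), ((m : ℝ) + 1 / 2) * ‖powC (-1 / 2) c (m + 1)‖ ^ 2 :=
    Finset.single_le_sum (f := fun m : ℕ => ((m : ℝ) + 1 / 2) * ‖powC (-1 / 2) c (m + 1)‖ ^ 2)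
      (fun m _ => by positivity) (Finset.mem_range.mpr (Nat.lt_succ_self n))
  have h2 : (1 / 2 : ℝ) * ‖powC (-1 / 2) c (n + 1)‖ ^ 2 ≤
      ((n : ℝ) + 1 / 2) * ‖powC (-1 / 2) c (n + 1)‖ ^ 2 := by
    have : (0 : ℝ) ≤ n := Nat.cast_nonneg n
    nlinarith [sq_nonneg ‖powC (-1 / 2) c (n + 1)‖]
  have h3 : ‖powC (-1 / 2) c (n + 1)‖ ^ 2 ≤ 1 := by
    linarith
  nlinarith [norm_nonneg (powC (-1 / 2) c (n + 1))]

/-- A3' -/
theorem coef_one_bound {Φ : ℂ → ℂ} (h : DifferentiableOn ℂ Φ (ball 0 1))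
    (hi : InjOn Φ (ball 0 1)) (c : ℕ → ℂ)
    (hc : ∀ w ∈ ball (0 : ℂ) 1, HasSum (fun k => c k * w ^ (k + 1)) (Φ w))
    (h0 : c 0 = 1) : ‖c 1‖ ≤ 2 := by
  have h1 := ai_r_bound h hi c hc h0 1
  have h2 := ai_powC_succ (-1 / 2) c 0
  simp only [zero_add, Finset.range_one, Finset.sum_singleton, Nat.cast_zero, Nat.sub_self,
    ai_powC_zero] at h2
  rw [h2] at h1
  have e : (1 / (1 : ℂ)) * ((((-1 / 2 : ℝ) : ℂ) * 1 - (0 - 0)) * c 1 * 1) = (-1 / 2 : ℂ) * c 1 := by
    push_cast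
    ring
  rw [e, norm_mul] at h1
  norm_num at h1
  linarith

/-- A3 (file AreaIneq.lean). bounds on the coefficients -/
theorem coef_bound (n : ℕ) : ∃ C : ℝ, ∀ Φ : ℂ → ℂ, DifferentiableOn ℂ Φ (ball 0 1) →
    InjOn Φ (ball 0 1) → ∀ c : ℕ → ℂ,
    (∀ w ∈ ball (0 : ℂ) 1, HasSum (fun k => c k * w ^ (k + 1)) (Φ w)) → c 0 = 1 →
    ‖c n‖ ≤ C := by
  suffices H : ∃ C : ℝ, 0 ≤ C ∧ ∀ Φ : ℂ → ℂ, DifferentiableOn ℂ Φ (ball 0 1) →
      InjOn Φ (ball 0 1) → ∀ c : ℕ → ℂ,
      (∀ w ∈ ball (0 : ℂ) 1, HasSum (fun k => c k * w ^ (k + 1)) (Φ w)) → c 0 = 1 →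
      ∀ m ≤ n, ‖c m‖ ≤ C by
    obtain ⟨C, _, hC⟩ := H
    exact ⟨C, fun Φ h1 h2 c h3 h4 => hC Φ h1 h2 c h3 h4 n le_rfl⟩
  induction n with
  | zero =>
    refine ⟨1, zero_le_one, ?_⟩
    intro Φ _ _ c _ h4 m hm
    rw [Nat.le_zero.mp hm, h4, norm_one]
  | succ n ih =>
    obtain ⟨C, hC0, hC⟩ := ih
    refine ⟨C + 2 * (1 + ∑ j ∈ Finset.range n, ((j : ℝ) + 1 + n) * C), ?_, ?_⟩
    · positivity
    intro Φ h1 h2 c h3 h4 m hm
    have hsum0 : 0 ≤ ∑ j ∈ Finset.range n, ((j : ℝ) + 1 + n) * C :=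
      Finset.sum_nonneg fun j _ => by positivity
    rcases Nat.lt_or_ge m (n + 1) with hm' | hm'
    · have := hC Φ h1 h2 c h3 h4 m (Nat.lt_succ_iff.mp hm')
      linarith
    · have hmn : m = n + 1 := le_antisymm hm hm'
      subst hmn
      have hr := ai_r_bound h1 h2 c h3 h4
      have hrec := ai_powC_succ (-1 / 2) c n
      have hn1 : ((n : ℂ) + 1) ≠ 0 := Nat.cast_add_one_ne_zero n
      rw [Finset.sum_range_succ] at hrec
      simp only [Nat.sub_self, ai_powC_zero, mul_one, sub_self, sub_zero] at hrec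
      have hrec2 : c (n + 1) = -2 * powC (-1 / 2) c (n + 1) + (2 / ((n : ℂ) + 1)) *
          ∑ x ∈ Finset.range n, (((-1 / 2 : ℝ) : ℂ) * ((x : ℂ) + 1) - ((n : ℂ) - (x : ℂ))) *
            c (x + 1) * powC (-1 / 2) c (n - x) := by
        rw [hrec]
        push_cast
        field_simp
        ring
      rw [hrec2]
      have hS : ‖∑ x ∈ Finset.range n, (((-1 / 2 : ℝ) : ℂ) * ((x : ℂ) + 1) - ((n : ℂ) - (x : ℂ))) *
            c (x + 1) * powC (-1 / 2) c (n - x)‖ ≤
          ∑ j ∈ Finset.range n, ((j : ℝ) + 1 + n) * C := by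
        refine (norm_sum_le _ _).trans (Finset.sum_le_sum fun x hx => ?_)
        have hx' : x < n := Finset.mem_range.mp hx
        rw [norm_mul, norm_mul]
        have e1 : ‖((-1 / 2 : ℝ) : ℂ) * ((x : ℂ) + 1) - ((n : ℂ) - (x : ℂ))‖ ≤ (x : ℝ) + 1 + n := by
          have : ((-1 / 2 : ℝ) : ℂ) * ((x : ℂ) + 1) - ((n : ℂ) - (x : ℂ)) =
              (((-1 / 2) * ((x : ℝ) + 1) - ((n : ℝ) - x) : ℝ) : ℂ) := by
            push_cast
            ring
          rw [this, Complex.norm_real, Real.norm_eq_abs, abs_le]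
          have hxn : (x : ℝ) + 1 ≤ n := by exact_mod_cast hx'
          have hx0 : (0 : ℝ) ≤ x := Nat.cast_nonneg x
          constructor <;> linarith
        have e2 := hC Φ h1 h2 c h3 h4 (x + 1) (by omega)
        have e3 := hr (n - x)
        have e4 : 0 ≤ ‖c (x + 1)‖ := norm_nonneg _
        calc _ ≤ ((x : ℝ) + 1 + n) * C * 1 := by
              apply mul_le_mul _ e3 (norm_nonneg _) (by positivity)
              exact mul_le_mul e1 e2 e4 (by positivity)
          _ = _ := by ring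
      have h5 : ‖(2 / ((n : ℂ) + 1))‖ ≤ 2 := by
        rw [norm_div]
        have : ‖((n : ℂ) + 1)‖ = (n : ℝ) + 1 := by
          rw [show ((n : ℂ) + 1) = (((n : ℝ) + 1 : ℝ) : ℂ) by push_cast; ring, Complex.norm_real,
            Real.norm_of_nonneg (by positivity)]
        rw [this, Complex.norm_ofNat, div_le_iff₀ (by positivity)]
        have : (0 : ℝ) ≤ n := Nat.cast_nonneg n
        linarith
      calc _ ≤ ‖-2 * powC (-1 / 2) c (n + 1)‖ + ‖(2 / ((n : ℂ) + 1)) *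
          ∑ x ∈ Finset.range n, (((-1 / 2 : ℝ) : ℂ) * ((x : ℂ) + 1) - ((n : ℂ) - (x : ℂ))) *
            c (x + 1) * powC (-1 / 2) c (n - x)‖ := norm_add_le _ _
        _ ≤ 2 * 1 + 2 * ∑ j ∈ Finset.range n, ((j : ℝ) + 1 + n) * C := by
          refine add_le_add ?_ ?_
          · rw [norm_mul, norm_neg, Complex.norm_ofNat]
            exact mul_le_mul_of_nonneg_left (hr (n + 1)) (by norm_num)
          · rw [norm_mul]
            exact mul_le_mul h5 hS (norm_nonneg _) (by norm_num)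
        _ ≤ _ := by linarith

end Vale.Agent.P142
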