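import Vale.Agent.P142.D8x

namespace Vale.Agent.P142

set_option maxRecDepth 100000 in
theorem d8x_ok : D8x.chk = true := by decide +kernel

end Vale.Agent.P142
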