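import Vale.Agent.P142.D8r
import Vale.Agent.P142.Chk8x

/-! (the second import only serialises the two memory intensive kernel checks) -/

namespace Vale.Agent.P142

set_option maxRecDepth 100000 in
theorem d8r_ok : D8r.chk = true := by decide +kernel

end Vale.Agent.P142
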