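import Vale.Agent.P142.Defs2

/-!
# P142: the certificate checker (computational part)

Forms are lists of terms `c * Re (mon p u * conj (mon q u))`; the key only steers the merge sort.
-/

namespace Vale.Agent.P142.Ck

/-- a term of a form -/
structure Tm where
  k : ℕ
  c : ℤ
  p : List ℕ
  q : List ℕ

/-- weight-first code of a monomial (ordering only) -/
def kp : List ℕ → ℕ
  | [] => 0
  | x :: l => x * 1099511627776 + 16 ^ x + kp l

def key (p q : List ℕ) : ℕ := kp p * 1267650600228229401496703205376 + kp q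

/-- sorted insertion -/
def ins (k : ℕ) : List ℕ → List ℕ
  | [] => [k]
  | x :: l => bif Nat.ble k x then k :: x :: l else x :: ins k l

/-- product of monomials -/
def mulM : List ℕ → List ℕ → List ℕ
  | [], q => q
  | x :: p, q => ins x (mulM p q)

def eqL : List ℕ → List ℕ → Bool
  | [], [] => true
  | x :: p, y :: q => Nat.beq x y && eqL p q
  | _, _ => false

/-- merge -/
def mrg : ℕ → List Tm → List Tm → List Tm
  | 0, F, G => F ++ G
  | n + 1, F, G => match F, G with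
    | [], G => G
    | F, [] => F
    | x :: F', y :: G' =>
      bif Nat.ble x.k y.k then
        bif Nat.beq x.k y.k && (eqL x.p y.p && eqL x.q y.q) then
          ⟨x.k, x.c + y.c, x.p, x.q⟩ :: mrg n F' G'
        else x :: mrg n F' (y :: G')
      else y :: mrg n (x :: F') G'

def pass (n : ℕ) : List (List Tm) → List (List Tm)
  | x :: y :: l => mrg n x y :: pass n l
  | l => l

/-- merge sort with `m` passes -/
def msort (n : ℕ) : ℕ → List (List Tm) → List Tm
  | 0, L => L.flatten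
  | m + 1, L => match L with
    | [] => []
    | [x] => x
    | L => msort n m (pass n L)

def srt (F : List Tm) : List Tm := msort 100000 20 (F.map fun x => [x])

/-- canonical term -/
def mkT (c : ℤ) (p q : List ℕ) : Tm :=
  bif Nat.ble (kp q) (kp p) then ⟨key p q, c, p, q⟩ else ⟨key q p, c, q, p⟩

def dot : List ℤ → List ℤ → ℤ
  | a :: as, b :: bs => a * b + dot as bs
  | _, _ => 0

/-- generator of a square: vector and the two monomials -/
structure Gt where
  v : List ℤ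
  g : List ℕ
  q : List ℕ

/-- `∑_k |∑_x x_k mon g_x conj (mon q_x)|^2` -/
def gram : List Gt → List Tm
  | [] => []
  | x :: xs => mkT (dot x.v x.v) (mulM x.g x.q) (mulM x.g x.q) ::
      (xs.map (fun y => mkT (2 * dot x.v y.v) (mulM x.g y.q) (mulM y.g x.q)) ++ gram xs)

/-! polynomials: terms with `q = []` -/

def mulP (s : ℤ) (F G : List Tm) : List Tm :=
  F.flatMap fun x => G.map fun y => ⟨kp (mulM x.p y.p), s * x.c * y.c, mulM x.p y.p, []⟩

/-- `shiftC 1 u k` -/
def cPol (k : ℕ) : List Tm :=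
  (List.range (k + 1)).map fun i =>
    ⟨0, (-1) ^ (k - i) * (k.choose i : ℤ), (match i with | 0 => [] | j + 1 => [j + 1]), []⟩

/-- next polynomial in the recursion for `powC (-m/2)` -/
def nxt (m : ℤ) (n : ℕ) : ℕ → List (List Tm) → List Tm
  | _, [] => []
  | j, P :: Ps => mulP ((-m * (j + 1) - 2 * ((n : ℤ) - j)) * 2 * 4 ^ j * (n.descFactorial j : ℤ))
      (cPol (j + 1)) P ++ nxt m n (j + 1) Ps

/-- `[P_n, ..., P_0]`, `P_i = i! 4^i powC (-m/2) c i` -/
def tab (m : ℤ) : ℕ → List (List Tm)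
  | 0 => [[⟨0, 1, [], []⟩]]
  | n + 1 => srt (nxt m n 0 (tab m n)) :: tab m n

/-- `4 (n+1) g0 P_n^{(1)} + g1 P_{n+1}^{(3)}` -/
def bt (p0 p1 p2 : ℤ) (n : ℕ) : List Tm :=
  srt (mulP (4 * (n + 1)) [⟨0, p0, [], []⟩, ⟨0, p1, [1], []⟩] ((tab 1 n).headD []) ++
    mulP p2 [⟨0, 1, [], []⟩] ((tab 3 (n + 1)).headD []))

def scl (s : ℤ) (F : List Tm) : List Tm := F.map fun x => ⟨x.k, s * x.c, x.p, x.q⟩

def toG (F : List Tm) : List Gt := F.map fun x => ⟨[x.c], x.p, []⟩

/-- scale of `bt n` -/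
def sS (n : ℕ) : ℕ := (n + 1).factorial * 4 ^ (n + 1)

/-- `- 2 S_K^2 areaQ` -/
def qForm (p0 p1 p2 : ℤ) (K : ℕ) : List Tm :=
  (List.range K).flatMap (fun n => scl (-(2 * n + 1) * ((sS K / sS (n + 1)) ^ 2 : ℕ))
    (gram (toG (bt p0 p1 p2 (n + 1))))) ++
  (scl ((sS K / sS 0) ^ 2 : ℕ) (gram (toG (bt p0 p1 p2 0))) ++
    [⟨0, 3 * (sS K : ℤ) ^ 2 * p2 ^ 2, [], []⟩])

/-- total form -/
def tot (p0 p1 p2 : ℤ) (K : ℕ) (kap : ℤ) (L : List Gt) : List Tm :=
  srt (gram L ++ (qForm p0 p1 p2 K ++ [⟨0, kap, [], []⟩]))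

/-! lifting -/

def dA (td : ℤ) : List ℕ → List (ℤ × List ℕ)
  | [] => []
  | k :: l => (td * (k + 2), ins (k + 1) l) :: (dA td l).map (fun x => (x.1, ins k x.2))

def dM (tn td : ℤ) (p : List ℕ) : List (ℤ × List ℕ) :=
  (tn - 2 * td * p.length, ins 1 p) :: dA td p

def exT (tn td : ℤ) (x : Tm) : List Tm :=
  (dM tn td x.p).map fun y => ⟨key y.2 x.q, x.c * y.1, y.2, x.q⟩

/-- lift all terms with `p.sum = w` -/
def step (tn td : ℤ) (w : ℕ) (F : List Tm) : List Tm :=
  mrg 100000 (F.filter fun x => !(Nat.beq x.p.sum w))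
    (srt ((F.filter fun x => Nat.beq x.p.sum w).flatMap (exT tn td)))

def steps (tn td : ℤ) (W : ℕ) : ℕ → List Tm → List Tm
  | 0, F => F
  | n + 1, F => steps tn td W n (step tn td (W - (n + 1)) F)

def flp (F : List Tm) : List Tm := srt (F.map fun x => ⟨key x.q x.p, x.c, x.q, x.p⟩)

/-- `ad^(N-n) ∏_{i<n} td (an + i ad)` -/
def fI (an ad td : ℤ) (N n : ℕ) : ℤ :=
  ad ^ (N - n) * ((List.range n).map fun i : ℕ => td * (an + i * ad)).prod

def fac (an ad td : ℤ) (N : ℕ) (F : List Tm) : List Tm :=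
  F.map fun x => ⟨x.k, fI an ad td N (x.p.sum + x.q.sum) * x.c, x.p, x.q⟩

/-- diagonal dominance terms -/
def ddT (x : Tm) : List Tm :=
  bif eqL x.p x.q then [⟨kp x.p, 2 * x.c, x.p, []⟩]
  else [⟨kp x.p, |x.c|, x.p, []⟩, ⟨kp x.q, |x.c|, x.q, []⟩]

def lifted (an ad tn td : ℤ) (W : ℕ) (T : List Tm) : List Tm :=
  steps tn td W W (flp (steps tn td W W (fac an ad td (2 * W) T)))

def canon (F : List Tm) : List Tm := srt (F.map fun x => mkT x.c x.p x.q)

def check (an ad tn td : ℤ) (W : ℕ) (p0 p1 p2 : ℤ) (K : ℕ) (kap : ℤ) (L G : List Gt) : Bool :=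
  let T := tot p0 p1 p2 K kap L
  let R := canon (lifted an ad tn td W T ++ gram G)
  T.all (fun x => Nat.ble (x.p.sum + x.q.sum) (2 * W)) &&
    ((gram G).all (fun x => Nat.beq (x.p.sum + x.q.sum) (2 * W)) &&
      (R.all (fun x => Nat.beq (x.p.sum + x.q.sum) (2 * W)) &&
        (srt (R.flatMap ddT)).all (fun x => decide (x.c ≤ 0))))

end Vale.Agent.P142.Ck
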