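import Vale.Agent.P142.Ck

/-!
# P142: the certificate checker, version with plain recursors (faster in the kernel)

Every function of this file equals the corresponding function of `Ck.lean`.
-/

namespace Vale.Agent.P142.Ck

noncomputable def kpR (l : List ℕ) : ℕ :=
  List.rec (motive := fun _ => ℕ) 0 (fun x _ ih => x * 1099511627776 + 16 ^ x + ih) l

theorem kpR_eq : kpR = kp := by
  funext l
  induction l with
  | nil => rfl
  | cons x l ih =>
    show x * 1099511627776 + 16 ^ x + kpR l = _
    rw [ih]
    rfl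

noncomputable def insR (k : ℕ) (l : List ℕ) : List ℕ :=
  List.rec (motive := fun _ => List ℕ) [k]
    (fun x l ih => cond (Nat.ble k x) (k :: x :: l) (x :: ih)) l

theorem insR_eq : insR = ins := by
  funext k l
  induction l with
  | nil => rfl
  | cons x l ih =>
    show cond (Nat.ble k x) (k :: x :: l) (x :: insR k l) = _
    rw [ih]
    rfl

noncomputable def mulR (p q : List ℕ) : List ℕ :=
  List.rec (motive := fun _ => List ℕ) q (fun x _ ih => insR x ih) p

theorem mulR_eq : mulR = mulM := by
  funext p q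
  induction p with
  | nil => rfl
  | cons x l ih =>
    show insR x (mulR l q) = _
    rw [ih, insR_eq]
    rfl

noncomputable def eqR (p : List ℕ) : List ℕ → Bool :=
  List.rec (motive := fun _ => List ℕ → Bool)
    (fun q => List.rec (motive := fun _ => Bool) true (fun _ _ _ => false) q)
    (fun x _ ih q => List.rec (motive := fun _ => Bool) false
      (fun y q' _ => cond (Nat.beq x y) (ih q') false) q) p

theorem eqR_eq : eqR = eqL := by
  funext p
  induction p with
  | nil =>
    funext q
    cases q <;> rfl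
  | cons x p ih =>
    funext q
    cases q with
    | nil => rfl
    | cons y q =>
      show cond (Nat.beq x y) (eqR p q) false = (Nat.beq x y && eqL p q)
      rw [ih]
      cases Nat.beq x y <;> rfl

noncomputable def mrgR (n : ℕ) : List Tm → List Tm → List Tm :=
  Nat.rec (motive := fun _ => List Tm → List Tm → List Tm) (fun F G => F ++ G) (fun _ ih F G =>
    List.rec (motive := fun _ => List Tm) G (fun x F' _ =>
      List.rec (motive := fun _ => List Tm) F (fun y G' _ =>
        cond (Nat.ble x.k y.k)
          (cond (cond (Nat.beq x.k y.k) (cond (eqR x.p y.p) (eqR x.q y.q) false) false)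
            (⟨x.k, x.c + y.c, x.p, x.q⟩ :: ih F' G')
            (x :: ih F' G))
          (y :: ih F G')) G) F) n

theorem mrgR_eq : mrgR = mrg := by
  funext n
  induction n with
  | zero => rfl
  | succ n ih =>
    funext F G
    cases F with
    | nil => simp only [mrg]; rfl
    | cons x F =>
      cases G with
      | nil => simp only [mrg]; rfl
      | cons y G =>
        simp only [mrg]
        show cond (Nat.ble x.k y.k)
          (cond (cond (Nat.beq x.k y.k) (cond (eqR x.p y.p) (eqR x.q y.q) false) false)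
            (⟨x.k, x.c + y.c, x.p, x.q⟩ :: mrgR n F G)
            (x :: mrgR n F (y :: G)))
          (y :: mrgR n (x :: F) G) = _
        rw [ih, eqR_eq]
        cases Nat.beq x.k y.k <;> cases eqL x.p y.p <;> cases eqL x.q y.q <;> rfl

noncomputable def passR (n : ℕ) (L : List (List Tm)) : List (List Tm) :=
  List.rec (motive := fun _ => Option (List Tm) → List (List Tm))
    (fun o => Option.rec (motive := fun _ => List (List Tm)) [] (fun x => [x]) o)
    (fun x _ ih o => Option.rec (motive := fun _ => List (List Tm)) (ih (some x))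
      (fun y => mrgR n y x :: ih none) o) L none

theorem passR_eq (n : ℕ) : ∀ L, passR n L = pass n L
  | [] => rfl
  | [_] => rfl
  | x :: y :: l => by
    show mrgR n x y :: passR n l = _
    rw [passR_eq n l, mrgR_eq, pass]

noncomputable def msortR (n m : ℕ) : List (List Tm) → List Tm :=
  Nat.rec (motive := fun _ => List (List Tm) → List Tm) (fun L => L.flatten)
    (fun _ ih L => List.rec (motive := fun _ => List Tm) []
      (fun x l _ => List.rec (motive := fun _ => List Tm) x (fun _ _ _ => ih (passR n L)) l) L) m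

theorem msortR_eq (n m : ℕ) (L : List (List Tm)) : msortR n m L = msort n m L := by
  induction m generalizing L with
  | zero => simp only [msort]; rfl
  | succ m ih =>
    cases L with
    | nil => simp only [msort]; rfl
    | cons x l =>
      cases l with
      | nil => simp only [msort]; rfl
      | cons y l =>
        simp only [msort]
        show msortR n m (passR n (x :: y :: l)) = _
        rw [ih, passR_eq]

noncomputable def srtR (F : List Tm) : List Tm :=
  msortR 100000 20 (List.rec (motive := fun _ => List (List Tm)) []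
    (fun x _ ih => [x] :: ih) F)

theorem srtR_eq : srtR = srt := by
  funext F
  unfold srtR srt
  rw [msortR_eq]
  congr 1
  induction F with
  | nil => rfl
  | cons x F ih => exact congrArg (List.cons [x]) ih

noncomputable def keyR (p q : List ℕ) : ℕ := kpR p * 1267650600228229401496703205376 + kpR q

theorem keyR_eq : keyR = key := by
  funext p q
  unfold keyR key
  rw [kpR_eq]

noncomputable def mkTR (c : ℤ) (p q : List ℕ) : Tm :=
  cond (Nat.ble (kpR q) (kpR p)) ⟨keyR p q, c, p, q⟩ ⟨keyR q p, c, q, p⟩

theorem mkTR_eq : mkTR = mkT := by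
  funext c p q
  unfold mkTR mkT
  rw [kpR_eq, keyR_eq]

noncomputable def dotR (a : List ℤ) : List ℤ → ℤ :=
  List.rec (motive := fun _ => List ℤ → ℤ) (fun _ => 0)
    (fun x _ ih b => List.rec (motive := fun _ => ℤ) 0 (fun y b' _ => x * y + ih b') b) a

theorem dotR_eq : dotR = dot := by
  funext a
  induction a with
  | nil =>
    funext b
    cases b <;> rfl
  | cons x a ih =>
    funext b
    cases b with
    | nil => rfl
    | cons y b =>
      show x * y + dotR a b = _
      rw [ih]
      rfl

noncomputable def rowR (x : Gt) (tl : List Tm) (xs : List Gt) : List Tm :=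
  List.rec (motive := fun _ => List Tm) tl
    (fun y _ ih => mkTR (2 * dotR x.v y.v) (mulR x.g y.q) (mulR y.g x.q) :: ih) xs

theorem rowR_eq (x : Gt) (tl : List Tm) (xs : List Gt) : rowR x tl xs =
    xs.map (fun y => mkT (2 * dot x.v y.v) (mulM x.g y.q) (mulM y.g x.q)) ++ tl := by
  induction xs with
  | nil => rfl
  | cons y ys ih =>
    show mkTR (2 * dotR x.v y.v) (mulR x.g y.q) (mulR y.g x.q) :: rowR x tl ys = _
    rw [ih, mkTR_eq, dotR_eq, mulR_eq]
    rfl

noncomputable def gramR (xs : List Gt) : List Tm :=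
  List.rec (motive := fun _ => List Tm) []
    (fun x xs ih => mkTR (dotR x.v x.v) (mulR x.g x.q) (mulR x.g x.q) :: rowR x ih xs) xs

theorem gramR_eq : gramR = gram := by
  funext xs
  induction xs with
  | nil => rfl
  | cons x xs ih =>
    show mkTR (dotR x.v x.v) (mulR x.g x.q) (mulR x.g x.q) :: rowR x (gramR xs) xs = _
    rw [rowR_eq, ih, mkTR_eq, dotR_eq, mulR_eq]
    rfl

noncomputable def mulPR1 (s : ℤ) (x : Tm) (tl : List Tm) (G : List Tm) : List Tm :=
  List.rec (motive := fun _ => List Tm) tl
    (fun y _ ih => ⟨kpR (mulR x.p y.p), s * x.c * y.c, mulR x.p y.p, []⟩ :: ih) G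

noncomputable def mulPR (s : ℤ) (F G : List Tm) : List Tm :=
  List.rec (motive := fun _ => List Tm) [] (fun x _ ih => mulPR1 s x ih G) F

theorem mulPR_eq : mulPR = mulP := by
  funext s F G
  unfold mulP
  induction F with
  | nil => rfl
  | cons x F ih =>
    rw [List.flatMap_cons, ← ih]
    show mulPR1 s x (mulPR s F G) G = _
    generalize mulPR s F G = H
    clear ih
    induction G with
    | nil => rfl
    | cons y G ihG =>
      show _ :: mulPR1 s x H G = _
      rw [ihG, kpR_eq, mulR_eq]
      rfl

noncomputable def nxtR (m : ℤ) (n : ℕ) : ℕ → List (List Tm) → List Tm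
  | _, [] => []
  | j, P :: Ps => mulPR ((-m * (j + 1) - 2 * ((n : ℤ) - j)) * 2 * 4 ^ j * (n.descFactorial j : ℤ))
      (cPol (j + 1)) P ++ nxtR m n (j + 1) Ps

theorem nxtR_eq (m : ℤ) (n : ℕ) (j : ℕ) (Ps : List (List Tm)) : nxtR m n j Ps = nxt m n j Ps := by
  induction Ps generalizing j with
  | nil => rfl
  | cons P Ps ih => rw [nxtR, nxt, ih, mulPR_eq]

noncomputable def tabR (m : ℤ) : ℕ → List (List Tm)
  | 0 => [[⟨0, 1, [], []⟩]]
  | n + 1 => srtR (nxtR m n 0 (tabR m n)) :: tabR m n

theorem tabR_eq : tabR = tab := by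
  funext m n
  induction n with
  | zero => rfl
  | succ n ih => rw [tabR, tab, ih, srtR_eq, nxtR_eq]

noncomputable def btR (p0 p1 p2 : ℤ) (n : ℕ) : List Tm :=
  srtR (mulPR (4 * (n + 1)) [⟨0, p0, [], []⟩, ⟨0, p1, [1], []⟩] ((tabR 1 n).headD []) ++
    mulPR p2 [⟨0, 1, [], []⟩] ((tabR 3 (n + 1)).headD []))

theorem btR_eq : btR = bt := by
  funext p0 p1 p2 n
  unfold btR bt
  rw [srtR_eq, mulPR_eq, tabR_eq]

noncomputable def qFormR (p0 p1 p2 : ℤ) (K : ℕ) : List Tm :=
  (List.range K).flatMap (fun n => scl (-(2 * n + 1) * ((sS K / sS (n + 1)) ^ 2 : ℕ))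
    (gramR (toG (btR p0 p1 p2 (n + 1))))) ++
  (scl ((sS K / sS 0) ^ 2 : ℕ) (gramR (toG (btR p0 p1 p2 0))) ++
    [⟨0, 3 * (sS K : ℤ) ^ 2 * p2 ^ 2, [], []⟩])

theorem qFormR_eq : qFormR = qForm := by
  funext p0 p1 p2 K
  unfold qFormR qForm
  rw [gramR_eq, btR_eq]

noncomputable def totR (p0 p1 p2 : ℤ) (K : ℕ) (kap : ℤ) (L : List Gt) : List Tm :=
  srtR (gramR L ++ (qFormR p0 p1 p2 K ++ [⟨0, kap, [], []⟩]))

theorem totR_eq : totR = tot := by
  funext p0 p1 p2 K kap L
  unfold totR tot
  rw [srtR_eq, gramR_eq, qFormR_eq]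

/-! lifting -/

noncomputable def dAR (td : ℤ) (p : List ℕ) : List (ℤ × List ℕ) :=
  List.rec (motive := fun _ => List (ℤ × List ℕ)) []
    (fun (k : ℕ) l ih => (td * ((k : ℤ) + 2), insR (k + 1) l) :: List.rec (motive := fun _ =>
      List (ℤ × List ℕ)) [] (fun x _ ih' => (x.1, insR k x.2) :: ih') ih) p

theorem dAR_eq : dAR = dA := by
  funext td p
  induction p with
  | nil => rfl
  | cons k l ih =>
    show (td * (k + 2), insR (k + 1) l) :: List.rec (motive := fun _ =>
      List (ℤ × List ℕ)) [] (fun x _ ih' => (x.1, insR k x.2) :: ih') (dAR td l) = _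
    rw [ih, dA, insR_eq]
    congr 1
    generalize dA td l = m
    induction m with
    | nil => rfl
    | cons x m ih => exact congrArg (List.cons (x.1, ins k x.2)) ih

noncomputable def exR (tn td : ℤ) (x : Tm) : List Tm :=
  List.rec (motive := fun _ => List Tm) [] (fun y _ ih => ⟨keyR y.2 x.q, x.c * y.1, y.2, x.q⟩ :: ih)
    ((tn - 2 * td * x.p.length, insR 1 x.p) :: dAR td x.p)

theorem exR_eq : exR = exT := by
  funext tn td x
  unfold exR exT dM
  rw [dAR_eq, insR_eq, keyR_eq]
  generalize ((tn - 2 * td * x.p.length, ins 1 x.p) :: dA td x.p) = m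
  induction m with
  | nil => rfl
  | cons y m ih => exact congrArg (List.cons _) ih

noncomputable def stepR (tn td : ℤ) (w : ℕ) (F : List Tm) : List Tm :=
  mrgR 100000 (F.filter fun x => !(Nat.beq x.p.sum w))
    (srtR ((F.filter fun x => Nat.beq x.p.sum w).flatMap (exR tn td)))

noncomputable def stepsR (tn td : ℤ) (W : ℕ) : ℕ → List Tm → List Tm
  | 0, F => F
  | n + 1, F => stepsR tn td W n (stepR tn td (W - (n + 1)) F)

theorem stepsR_eq (tn td : ℤ) (W n : ℕ) (F : List Tm) :
    stepsR tn td W n F = steps tn td W n F := by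
  induction n generalizing F with
  | zero => rfl
  | succ n ih =>
    rw [stepsR, steps, ih]
    unfold stepR step
    rw [mrgR_eq, srtR_eq, exR_eq]

noncomputable def flpR (F : List Tm) : List Tm :=
  srtR (F.map fun x => ⟨keyR x.q x.p, x.c, x.q, x.p⟩)

theorem flpR_eq : flpR = flp := by
  funext F
  unfold flpR flp
  rw [srtR_eq, keyR_eq]

noncomputable def liftedR (an ad tn td : ℤ) (W : ℕ) (T : List Tm) : List Tm :=
  stepsR tn td W W (flpR (stepsR tn td W W (fac an ad td (2 * W) T)))

theorem liftedR_eq : liftedR = lifted := by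
  funext an ad tn td W T
  unfold liftedR lifted
  rw [stepsR_eq, stepsR_eq, flpR_eq]

noncomputable def canonR (F : List Tm) : List Tm := srtR (F.map fun x => mkTR x.c x.p x.q)

theorem canonR_eq : canonR = canon := by
  funext F
  unfold canonR canon
  rw [srtR_eq, mkTR_eq]

noncomputable def checkR (an ad tn td : ℤ) (W : ℕ) (p0 p1 p2 : ℤ) (K : ℕ) (kap : ℤ)
    (L G : List Gt) : Bool :=
  let T := totR p0 p1 p2 K kap L
  let R := canonR (liftedR an ad tn td W T ++ gramR G)
  T.all (fun x => Nat.ble (x.p.sum + x.q.sum) (2 * W)) &&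
    ((gramR G).all (fun x => Nat.beq (x.p.sum + x.q.sum) (2 * W)) &&
      (R.all (fun x => Nat.beq (x.p.sum + x.q.sum) (2 * W)) &&
        (srtR (R.flatMap ddT)).all (fun x => decide (x.c ≤ 0))))

theorem checkR_eq : checkR = check := by
  funext an ad tn td W p0 p1 p2 K kap L G
  unfold checkR check
  rw [totR_eq, liftedR_eq, canonR_eq, gramR_eq, srtR_eq]

end Vale.Agent.P142.Ck
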