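import Vale.Agent.P142.Sound3

/-!
# P142: the certificate check in pieces
-/

open Complex

namespace Vale.Agent.P142.Ck

/-- the first `n` rows of `gram` -/
def rws : ℕ → List Gt → List Tm
  | 0, _ => []
  | _ + 1, [] => []
  | n + 1, x :: xs => mkT (dot x.v x.v) (mulM x.g x.q) (mulM x.g x.q) ::
      (xs.map (fun y => mkT (2 * dot x.v y.v) (mulM x.g y.q) (mulM y.g x.q)) ++ rws n xs)

theorem gram_rws (n : ℕ) (L : List Gt) : gram L = rws n L ++ gram (L.drop n) := by
  induction n generalizing L with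
  | zero => simp [rws]
  | succ n ih =>
    cases L with
    | nil => simp [rws, gram]
    | cons x xs =>
      rw [gram, rws, List.drop_succ_cons, ih xs, List.cons_append, List.append_assoc]

/-- equality of forms -/
def eqF : List Tm → List Tm → Bool
  | [], [] => true
  | x :: F, y :: G => (decide (x.c = y.c) && (eqL x.p y.p && eqL x.q y.q)) && eqF F G
  | _, _ => false

theorem ev_eqF {V : Type*} [AddCommGroup V] (w : List ℕ → List ℕ → V) :
    ∀ {F G : List Tm}, eqF F G = true → ev w F = ev w G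
  | [], [], _ => rfl
  | x :: F, y :: G, h => by
    rw [eqF, Bool.and_eq_true, Bool.and_eq_true, Bool.and_eq_true] at h
    obtain ⟨⟨h1, h2, h3⟩, h4⟩ := h
    rw [ev_cons, ev_cons, ev_eqF w h4, of_decide_eq_true h1, eqL_eq h2, eqL_eq h3]
  | [], _ :: _, h => by simp [eqF] at h
  | _ :: _, [], h => by simp [eqF] at h

/-- one block of rows -/
def chkR (n m : ℕ) (L : List Gt) (T : List Tm) : Bool := eqF (srt (rws n (L.drop m))) T

/-- the area form -/
def chkQ (p0 p1 p2 : ℤ) (K : ℕ) (kap : ℤ) (T : List Tm) : Bool :=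
  eqF (srt (qForm p0 p1 p2 K ++ [⟨0, kap, [], []⟩])) T

/-- the sum of five sorted forms -/
def chkM (A B C D Q T : List Tm) : Bool :=
  eqF (mrg 100000 (mrg 100000 (mrg 100000 A B) (mrg 100000 C D)) Q) T

/-- the second half of `check` -/
def checkT (an ad tn td : ℤ) (W : ℕ) (T : List Tm) (G : List Gt) : Bool :=
  let R := canon (lifted an ad tn td W T ++ gram G)
  T.all (fun x => Nat.ble (x.p.sum + x.q.sum) (2 * W)) &&
    ((gram G).all (fun x => Nat.beq (x.p.sum + x.q.sum) (2 * W)) &&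
      (R.all (fun x => Nat.beq (x.p.sum + x.q.sum) (2 * W)) &&
        (srt (R.flatMap ddT)).all (fun x => decide (x.c ≤ 0))))

theorem ev_chkR {n m : ℕ} {L : List Gt} {T : List Tm} (h : chkR n m L T = true) (u : ℕ → ℂ) :
    ev (w0 u) (gram (L.drop m)) = ev (w0 u) T + ev (w0 u) (gram (L.drop (m + n))) := by
  rw [gram_rws n (L.drop m), ev_append, ← ev_eqF (w0 u) h, ev_srt, List.drop_drop]

theorem ev_chkQ {p0 p1 p2 : ℤ} {K : ℕ} {kap : ℤ} {T : List Tm}
    (h : chkQ p0 p1 p2 K kap T = true) (u : ℕ → ℂ) :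
    ev (w0 u) T = ev (w0 u) (qForm p0 p1 p2 K) + ev (w0 u) [⟨0, kap, [], []⟩] := by
  rw [← ev_eqF (w0 u) h, ev_srt, ev_append]

theorem ev_chkM {A B C D Q T : List Tm} (h : chkM A B C D Q T = true) (u : ℕ → ℂ) :
    ev (w0 u) T = ev (w0 u) A + ev (w0 u) B + (ev (w0 u) C + ev (w0 u) D) + ev (w0 u) Q := by
  rw [← ev_eqF (w0 u) h, ev_mrg, ev_mrg, ev_mrg, ev_mrg]

/-- soundness of the checker, with a separately computed total form `T` -/
theorem cert_of_pieces {an ad tn td : ℤ} {W : ℕ} {p0 p1 p2 : ℤ} {K : ℕ} {kap : ℤ}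
    {L G : List Gt} {T : List Tm}
    (han : 0 < an) (had : 0 < ad) (htd : 0 < td) (hkap : 0 < kap)
    (hT : ∀ u : ℕ → ℂ, ev (w0 u) T =
      ev (w0 u) (gram L) + (ev (w0 u) (qForm p0 p1 p2 K) + ev (w0 u) [⟨0, kap, [], []⟩]))
    (h : checkT an ad tn td W T G = true) :
    Cert (tn / td) (an / ad) K p0 p1 p2 := by
  have had' : (0 : ℝ) < ad := by exact_mod_cast had
  have htd' : (0 : ℝ) < td := by exact_mod_cast htd
  have han' : (0 : ℝ) < an := by exact_mod_cast han
  have ha : (0 : ℝ) < an / ad := by positivity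
  have ht : (tn : ℝ) = (tn / td : ℝ) * td := by field_simp
  unfold checkT at h
  simp only [Bool.and_eq_true, List.all_eq_true] at h
  obtain ⟨h1, h2, h3, h4⟩ := h
  set R := canon (lifted an ad tn td W T ++ gram G) with hR
  have h1' : ∀ x ∈ T, x.p.sum + x.q.sum ≤ 2 * W := fun x hx => Nat.le_of_ble_eq_true (h1 x hx)
  have h2' : ∀ x ∈ gram G, x.p.sum + x.q.sum = 2 * W := fun x hx => Nat.eq_of_beq_eq_true (h2 x hx)
  have h3' : ∀ x ∈ R, x.p.sum + x.q.sum = 2 * W := fun x hx => Nat.eq_of_beq_eq_true (h3 x hx)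
  have h4' : ∀ x ∈ srt (R.flatMap ddT), x.c ≤ 0 := fun x hx => of_decide_eq_true (h4 x hx)
  -- the element of the span
  have hmem : ev (sf (an / ad) td) (lifted an ad tn td W T) -
      ev (sf (an / ad) td) (fac an ad td (2 * W) T) ∈ Ndiv (tn / td) (an / ad) := by
    unfold lifted
    have s1 := steps_mem ha htd ht W W (flp (steps tn td W W (fac an ad td (2 * W) T)))
    have s2 := steps_mem ha htd ht W W (fac an ad td (2 * W) T)
    rw [ev_flp _ (sf_symm _ _)] at s1
    have := Submodule.add_mem _ s1 s2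
    rwa [sub_add_sub_cancel] at this
  refine ⟨(-(1 / (ad : ℝ) ^ (2 * W))) • (ev (sf (an / ad) td) (lifted an ad tn td W T) -
      ev (sf (an / ad) td) (fac an ad td (2 * W) T)), Submodule.smul_mem _ _ hmem, kap,
      by exact_mod_cast hkap, 2 * (sS K : ℝ) ^ 2, by positivity, fun u h0 => ?_⟩
  have g1 : ev (w0 u) R ≤ 0 := by
    have := dd_le u R
    rw [← ev_srt (fun p _ => ‖mon p u‖ ^ 2) (R.flatMap ddT)] at this
    have := ev_nonpos (fun p _ => ‖mon p u‖ ^ 2) (fun _ _ => by positivity) _ h4'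
    linarith
  have g2 : ev (sf (an / ad) td) R u ≤ 0 := by
    rw [ev_sf_const _ _ (2 * W) R h3']
    exact mul_nonpos_of_nonneg_of_nonpos (sc_pos _ _ ha htd' _).le g1
  have g3 : 0 ≤ ev (sf (an / ad) td) (gram G) u := by
    rw [ev_sf_const _ _ (2 * W) _ h2']
    exact mul_nonneg (sc_pos _ _ ha htd' _).le (ev_gram_nonneg u G)
  have g4 : ev (sf (an / ad) td) R u = ev (sf (an / ad) td) (lifted an ad tn td W T) u +
      ev (sf (an / ad) td) (gram G) u := by
    rw [hR, ev_canon _ (sf_symm _ _), ev_append, Pi.add_apply]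
  have g5 : ev (w0 u) T = ev (w0 u) (gram L) +
      (-(2 * (sS K : ℝ) ^ 2 * areaQ K ((p0 : ℂ) + p1 * u 1) p2 (shiftC 1 u)) + kap) := by
    rw [hT, ev_qForm u h0, ev_cons, ev_nil, zsmul_eq_mul]
    simp [w0, mon_nil']
  have g6 := ev_gram_nonneg u L
  have g7 := ev_fac an ad td had htd han (2 * W) T h1' u
  rw [Pi.smul_apply, Pi.sub_apply, g7, smul_eq_mul]
  have hp : (0 : ℝ) < (ad : ℝ) ^ (2 * W) := by positivity
  have g8 : -(1 / (ad : ℝ) ^ (2 * W)) * (ev (sf (an / ad) td) (lifted an ad tn td W T) u -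
      (ad : ℝ) ^ (2 * W) * ev (w0 u) T) = ev (w0 u) T -
      (1 / (ad : ℝ) ^ (2 * W)) * ev (sf (an / ad) td) (lifted an ad tn td W T) u := by
    field_simp
    ring
  rw [g8, g5]
  have g9 : (1 / (ad : ℝ) ^ (2 * W)) * ev (sf (an / ad) td) (lifted an ad tn td W T) u ≤ 0 :=
    mul_nonpos_of_nonneg_of_nonpos (by positivity) (by linarith)
  have e1 : (((p0 : ℝ) : ℂ)) = (p0 : ℂ) := by push_cast; rfl
  have e2 : (((p1 : ℝ) : ℂ)) = (p1 : ℂ) := by push_cast; rfl
  have e3 : (((p2 : ℝ) : ℂ)) = (p2 : ℂ) := by push_cast; rfl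
  rw [e1, e2, e3]
  linarith

end Vale.Agent.P142.Ck
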