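import Mathlib

/-!
# P142: definitions used by all modules
-/

open Complex MeasureTheory Metric Set

namespace Vale.Agent.P142

/-- analytic and injective on a ball of radius `> 1`, normalised by `f'(0) = 1` -/
structure Good (f : ℂ → ℂ) : Prop where
  ex : ∃ R : ℝ, 1 < R ∧ DifferentiableOn ℂ f (ball 0 R) ∧ InjOn f (ball 0 R)
  d1 : deriv f 0 = 1

/-- `1 - |z|^2` -/
noncomputable def rho (z : ℂ) : ℝ := 1 - ‖z‖ ^ 2

/-- `A_k = f^{(k+1)} / ((k+1)! f')` -/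
noncomputable def jetA (f : ℂ → ℂ) (k : ℕ) (z : ℂ) : ℂ :=
  iteratedDeriv (k + 1) f z / (((k + 1).factorial : ℂ) * deriv f z)

/-- normalised jets `u_k = (z (1-|z|^2))^k A_k` -/
noncomputable def jetU (f : ℂ → ℂ) (z : ℂ) (k : ℕ) : ℂ := (z * (rho z : ℂ)) ^ k * jetA f k z

/-- binomial shift of a sequence -/
noncomputable def shiftC (x : ℝ) (u : ℕ → ℂ) (k : ℕ) : ℂ :=
  ∑ j ∈ Finset.range (k + 1), (k.choose j : ℂ) * (-(x : ℂ)) ^ (k - j) * u j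

/-- coefficients of `(1 + c_1 w + c_2 w^2 + ...) ^ μ` -/
noncomputable def powC (μ : ℝ) (c : ℕ → ℂ) : ℕ → ℂ
  | 0 => 1
  | (n + 1) => (1 / ((n : ℂ) + 1)) * ∑ j : Fin (n + 1),
      ((μ : ℂ) * ((j : ℕ) + 1) - ((n : ℂ) - (j : ℕ))) * c ((j : ℕ) + 1) * powC μ c (n - (j : ℕ))
  decreasing_by exact Nat.lt_succ_of_le (Nat.sub_le _ _)

/-- monomial given by a list of indices -/
noncomputable def mon (l : List ℕ) (u : ℕ → ℂ) : ℂ := (l.map u).prod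

/-- the derivation `u_k ↦ (k+2) u_{k+1} - 2 u_1 u_k` applied to a monomial -/
noncomputable def derL : List ℕ → (ℕ → ℂ) → ℂ
  | [], _ => 0
  | (k :: l), u => (((k : ℂ) + 2) * u (k + 1) - 2 * u 1 * u k) * mon l u + u k * derL l u

/-- the weight of `f` at `z` -/
noncomputable def wt (t b : ℝ) (f : ℂ → ℂ) (z : ℂ) : ℝ := ‖deriv f z‖ ^ t * rho z ^ b

/-- `∫_D |f'|^t (1-|z|^2)^b` -/
noncomputable def In (t b : ℝ) (f : ℂ → ℂ) : ℝ := ∫ z in ball (0 : ℂ) 1, wt t b f z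

/-- the divergence form of a pair of monomials -/
noncomputable def divT (t a : ℝ) (l l' : List ℕ) (u : ℕ → ℂ) : ℝ :=
  (((derL l u + (t : ℂ) * u 1 * mon l u) - ((a : ℂ) + l.sum + l'.sum) * mon l u) *
    (starRingEnd ℂ) (mon l' u)).re

/-- the area form: `∑_{n=1}^K (n-1/2)|b_n|^2 - |b_0|^2/2 - 3|b_{-1}|^2/2` -/
noncomputable def areaQ (K : ℕ) (g0 g1 : ℂ) (c : ℕ → ℂ) : ℝ :=
  ∑ n ∈ Finset.range K, ((n : ℝ) + 1 / 2) *
      ‖g0 * powC (-1 / 2) c (n + 1) + g1 * powC (-3 / 2) c (n + 2)‖ ^ 2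
    - (1 / 2 * ‖g0 + g1 * powC (-3 / 2) c 1‖ ^ 2 + 3 / 2 * ‖g1‖ ^ 2)

end Vale.Agent.P142
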