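import Vale.Agent.P142.Defs

/-!
# P142: definitions for the assembly and the final statement
-/

open Complex MeasureTheory Metric Set Filter Topology

namespace Vale.Agent.P142

/-- span of the divergence forms -/
noncomputable def Ndiv (t a : ℝ) : Submodule ℝ ((ℕ → ℂ) → ℝ) :=
  Submodule.span ℝ {h | ∃ l l' : List ℕ, h = divT t a l l'}

/-- the algebraic certificate (produced by module C of helper21) -/
def Cert (t a : ℝ) (K : ℕ) (p0 p1 p2 : ℝ) : Prop :=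
  ∃ h ∈ Ndiv t a, ∃ κ : ℝ, 0 < κ ∧ ∃ lam : ℝ, 0 ≤ lam ∧ ∀ u : ℕ → ℂ, u 0 = 1 →
    κ - lam * areaQ K ((p0 : ℂ) + (p1 : ℂ) * u 1) (p2 : ℂ) (shiftC 1 u) ≤ h u

/-- the class `S` of normalised univalent functions on the unit disc -/
def ClassS (f : ℂ → ℂ) : Prop :=
  DifferentiableOn ℂ f (ball 0 1) ∧ InjOn f (ball 0 1) ∧ f 0 = 0 ∧ deriv f 0 = 1

/-- `M_t[f'](r)` -/
noncomputable def intMean (t : ℝ) (f : ℂ → ℂ) (r : ℝ) : ℝ :=
  (1 / (2 * Real.pi)) * ∫ θ in (-Real.pi)..Real.pi, ‖deriv f (r * exp (θ * I))‖ ^ t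

/-- `β_f(t)` -/
noncomputable def betaF (t : ℝ) (f : ℂ → ℂ) : EReal :=
  limsup (fun r : ℝ => ((Real.log (intMean t f r) / Real.log (1 / (1 - r)) : ℝ) : EReal)) (𝓝[<] 1)

/-- `B_S(t)` -/
noncomputable def BS (t : ℝ) : EReal := ⨆ f : {f : ℂ → ℂ // ClassS f}, betaF t f.1

end Vale.Agent.P142
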