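import Vale.Agent.P142.Wirt

/-!
# P142: the divergence identity (integration by parts in the disc)
-/

open Complex MeasureTheory Metric Set Filter Topology

namespace Vale.Agent.P142

/-- `∏ z^k A_k` -/
noncomputable def phiL (f : ℂ → ℂ) : List ℕ → ℂ → ℂ
  | [], _ => 1
  | (k :: l), z => (z ^ k * jetA f k z) * phiL f l z

/-- the derivative of `phiL` -/
noncomputable def dphiL (f : ℂ → ℂ) : List ℕ → ℂ → ℂ
  | [], _ => 0
  | (k :: l), z => ((k : ℂ) * z ^ (k - 1) * jetA f k z + z ^ k *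
      (((k : ℂ) + 2) * jetA f (k + 1) z - 2 * jetA f 1 z * jetA f k z)) * phiL f l z +
      (z ^ k * jetA f k z) * dphiL f l z

theorem mon_nil (u : ℕ → ℂ) : mon [] u = 1 := by simp [mon]

theorem mon_cons (k : ℕ) (l : List ℕ) (u : ℕ → ℂ) : mon (k :: l) u = u k * mon l u := by
  simp [mon]

theorem mon_jetU (f : ℂ → ℂ) (l : List ℕ) (z : ℂ) :
    mon l (jetU f z) = (rho z : ℂ) ^ l.sum * phiL f l z := by
  induction l with
  | nil => simp [mon_nil, phiL]
  | cons k l ih =>
    rw [mon_cons, ih, phiL, jetU, List.sum_cons]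
    ring

theorem derL_jetU (f : ℂ → ℂ) (l : List ℕ) (z : ℂ) :
    (rho z : ℂ) ^ (l.sum + 1) * z * dphiL f l z =
      derL l (jetU f z) + (rho z : ℂ) * l.sum * mon l (jetU f z) := by
  induction l with
  | nil => simp [dphiL, derL]
  | cons k l ih =>
    have hk : (k : ℂ) * z ^ (k - 1) * z = (k : ℂ) * z ^ k := by
      rcases Nat.eq_zero_or_pos k with rfl | hk
      · simp
      · obtain ⟨j, rfl⟩ : ∃ j, k = j + 1 := ⟨k - 1, by omega⟩
        simp only [Nat.add_sub_cancel]
        ring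
    rw [derL, mon_cons, dphiL, List.sum_cons]
    have h1 : (rho z : ℂ) ^ (k + l.sum + 1) * z *
        (((k : ℂ) * z ^ (k - 1) * jetA f k z + z ^ k *
          (((k : ℂ) + 2) * jetA f (k + 1) z - 2 * jetA f 1 z * jetA f k z)) * phiL f l z +
          (z ^ k * jetA f k z) * dphiL f l z) =
        ((rho z : ℂ) ^ (k + 1) * ((k : ℂ) * z ^ (k - 1) * z) * jetA f k z +
          (rho z : ℂ) ^ (k + 1) * z ^ (k + 1) *
          (((k : ℂ) + 2) * jetA f (k + 1) z - 2 * jetA f 1 z * jetA f k z)) *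
          ((rho z : ℂ) ^ l.sum * phiL f l z) +
          ((rho z : ℂ) ^ k * z ^ k * jetA f k z) *
          ((rho z : ℂ) ^ (l.sum + 1) * z * dphiL f l z) := by
      ring
    rw [h1, hk, ih, ← mon_jetU]
    simp only [jetU]
    push_cast
    ring

theorem hasDerivAt_phiL {f : ℂ → ℂ} {U : Set ℂ} (hU : IsOpen U)
    (hd : DifferentiableOn ℂ f U) {z : ℂ} (hz : z ∈ U) (h0 : deriv f z ≠ 0) (l : List ℕ) :
    HasDerivAt (phiL f l) (dphiL f l z) z := by
  induction l with
  | nil => exact hasDerivAt_const z 1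
  | cons k l ih =>
    have h1 : HasDerivAt (fun w : ℂ => w ^ k) ((k : ℂ) * z ^ (k - 1)) z := by
      simpa using hasDerivAt_pow k z
    have h2 := (h1.mul (hasDerivAt_jetA hU hd hz h0 k)).mul ih
    exact h2

theorem continuousOn_jetA {f : ℂ → ℂ} {U : Set ℂ} (hU : IsOpen U)
    (hd : DifferentiableOn ℂ f U) (h0 : ∀ z ∈ U, deriv f z ≠ 0) (k : ℕ) :
    ContinuousOn (jetA f k) U :=
  fun z hz => (analyticAt_jetA hU hd hz (h0 z hz) k).continuousAt.continuousWithinAt

theorem continuousOn_phiL {f : ℂ → ℂ} {U : Set ℂ} (hU : IsOpen U)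
    (hd : DifferentiableOn ℂ f U) (h0 : ∀ z ∈ U, deriv f z ≠ 0) (l : List ℕ) :
    ContinuousOn (phiL f l) U :=
  fun z hz => (hasDerivAt_phiL hU hd hz (h0 z hz) l).continuousAt.continuousWithinAt

theorem continuousOn_dphiL {f : ℂ → ℂ} {U : Set ℂ} (hU : IsOpen U)
    (hd : DifferentiableOn ℂ f U) (h0 : ∀ z ∈ U, deriv f z ≠ 0) (l : List ℕ) :
    ContinuousOn (dphiL f l) U := by
  induction l with
  | nil => exact continuousOn_const
  | cons k l ih =>
    have h1 := continuousOn_jetA hU hd h0 k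
    have h2 := continuousOn_jetA hU hd h0 (k + 1)
    have h3 := continuousOn_jetA hU hd h0 1
    have h4 := continuousOn_phiL hU hd h0 l
    have h5 : ContinuousOn (fun z : ℂ => (k : ℂ) * z ^ (k - 1)) U := by fun_prop
    have h6 : ContinuousOn (fun z : ℂ => z ^ k) U := by fun_prop
    exact (((h5.mul h1).add (h6.mul ((continuousOn_const.mul h2).sub
      ((continuousOn_const.mul h3).mul h1)))).mul h4).add ((h6.mul h1).mul ih)

theorem continuousOn_jetU {f : ℂ → ℂ} {U : Set ℂ} (hU : IsOpen U)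
    (hd : DifferentiableOn ℂ f U) (h0 : ∀ z ∈ U, deriv f z ≠ 0) (k : ℕ) :
    ContinuousOn (fun z => jetU f z k) U :=
  fun z hz => (continuousAt_jetU hU hd hz (h0 z hz) k).continuousWithinAt

theorem continuousOn_mon {f : ℂ → ℂ} {U : Set ℂ} (hU : IsOpen U)
    (hd : DifferentiableOn ℂ f U) (h0 : ∀ z ∈ U, deriv f z ≠ 0) (l : List ℕ) :
    ContinuousOn (fun z => mon l (jetU f z)) U := by
  induction l with
  | nil => simp only [mon_nil]; exact continuousOn_const
  | cons k l ih =>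
    simp only [mon_cons]
    exact (continuousOn_jetU hU hd h0 k).mul ih

theorem continuousOn_derL {f : ℂ → ℂ} {U : Set ℂ} (hU : IsOpen U)
    (hd : DifferentiableOn ℂ f U) (h0 : ∀ z ∈ U, deriv f z ≠ 0) (l : List ℕ) :
    ContinuousOn (fun z => derL l (jetU f z)) U := by
  induction l with
  | nil => simp only [derL]; exact continuousOn_const
  | cons k l ih =>
    simp only [derL]
    have h1 := continuousOn_jetU hU hd h0 k
    have h2 := continuousOn_jetU hU hd h0 (k + 1)
    have h3 := continuousOn_jetU hU hd h0 1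
    have h4 := continuousOn_mon hU hd h0 l
    exact (((continuousOn_const.mul h2).sub ((continuousOn_const.mul h3).mul h1)).mul h4).add
      (h1.mul ih)

theorem continuousOn_divT (t a : ℝ) (l l' : List ℕ) {f : ℂ → ℂ} {U : Set ℂ} (hU : IsOpen U)
    (hd : DifferentiableOn ℂ f U) (h0 : ∀ z ∈ U, deriv f z ≠ 0) :
    ContinuousOn (fun z => divT t a l l' (jetU f z)) U := by
  unfold divT
  refine Complex.continuous_re.comp_continuousOn ?_
  have h1 := continuousOn_derL hU hd h0 l
  have h2 := continuousOn_mon hU hd h0 l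
  have h3 := continuousOn_mon hU hd h0 l'
  have h4 := continuousOn_jetU hU hd h0 1
  exact ((h1.add ((continuousOn_const.mul h4).mul h2)).sub (continuousOn_const.mul h2)).mul
    (Complex.continuous_conj.comp_continuousOn h3)

theorem continuousOn_wt (t b : ℝ) {f : ℂ → ℂ} {U : Set ℂ} (hU : IsOpen U)
    (hd : DifferentiableOn ℂ f U) (h0 : ∀ z ∈ U, deriv f z ≠ 0) (h1 : ball (0 : ℂ) 1 ⊆ U) :
    ContinuousOn (wt t b f) (ball 0 1) := by
  unfold wt
  have h2 : ContinuousOn (deriv f) U := fun z hz =>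
    (hd.analyticAt (hU.mem_nhds hz)).deriv.continuousAt.continuousWithinAt
  refine ContinuousOn.mul ?_ ?_
  · exact (h2.mono h1).norm.rpow_const fun z hz => Or.inl (norm_ne_zero_iff.2 (h0 z (h1 hz)))
  · exact continuous_rho.continuousOn.rpow_const fun z hz => Or.inl (rho_pos_ball hz).ne'

theorem wt_nonneg (t b : ℝ) (f : ℂ → ℂ) {z : ℂ} (hz : z ∈ ball (0 : ℂ) 1) : 0 ≤ wt t b f z :=
  mul_nonneg (Real.rpow_nonneg (norm_nonneg _) _) (Real.rpow_nonneg (rho_pos_ball hz).le _)

/-- a continuous function times the weight is integrable over the disc -/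
theorem integrableOn_mul_wt (t b : ℝ) (hb : 0 ≤ b) {f : ℂ → ℂ} {R : ℝ} (hR : 1 < R)
    (hd : DifferentiableOn ℂ f (ball 0 R)) (h0 : ∀ z ∈ ball (0 : ℂ) R, deriv f z ≠ 0)
    {X : ℂ → ℝ} (hX : ContinuousOn X (ball 0 R)) :
    IntegrableOn (fun z => X z * wt t b f z) (ball 0 1) := by
  have : IsFiniteMeasure (volume.restrict (ball (0 : ℂ) 1)) :=
    ⟨by rw [Measure.restrict_apply_univ]; exact measure_ball_lt_top⟩
  have hsub : ball (0 : ℂ) 1 ⊆ ball 0 R := ball_subset_ball hR.le
  have hcb : closedBall (0 : ℂ) 1 ⊆ ball 0 R := closedBall_subset_ball hR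
  have hg : ContinuousOn (fun z => X z * ‖deriv f z‖ ^ t) (closedBall 0 1) := by
    have h2 : ContinuousOn (deriv f) (ball 0 R) := fun z hz =>
      (hd.analyticAt (isOpen_ball.mem_nhds hz)).deriv.continuousAt.continuousWithinAt
    refine (hX.mono hcb).mul ?_
    exact (h2.mono hcb).norm.rpow_const fun z hz => Or.inl (norm_ne_zero_iff.2 (h0 z (hcb hz)))
  obtain ⟨M, hM⟩ := (isCompact_closedBall (0 : ℂ) 1).exists_bound_of_continuousOn hg
  have hc : ContinuousOn (fun z => X z * wt t b f z) (ball 0 1) :=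
    (hX.mono hsub).mul (continuousOn_wt t b isOpen_ball hd h0 hsub)
  refine Integrable.of_bound (hc.aestronglyMeasurable measurableSet_ball) M
    ((ae_restrict_iff' measurableSet_ball).2 (Eventually.of_forall fun z hz => ?_))
  have h1 := hM z (ball_subset_closedBall hz)
  have h2 : rho z ^ b ≤ 1 := Real.rpow_le_one (rho_pos_ball hz).le (rho_le_one z) hb
  have h3 : 0 ≤ rho z ^ b := Real.rpow_nonneg (rho_pos_ball hz).le _
  unfold wt
  rw [← mul_assoc, norm_mul]
  calc ‖X z * ‖deriv f z‖ ^ t‖ * ‖rho z ^ b‖ ≤ M * 1 := by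
        refine mul_le_mul h1 ?_ (norm_nonneg _) ((norm_nonneg _).trans h1)
        rw [Real.norm_eq_abs, abs_of_nonneg h3]
        exact h2
    _ = M := mul_one M

/-- a continuous complex function times the weight is integrable over the disc -/
theorem integrableOn_mul_wtC (t b : ℝ) (hb : 0 ≤ b) {f : ℂ → ℂ} {R : ℝ} (hR : 1 < R)
    (hd : DifferentiableOn ℂ f (ball 0 R)) (h0 : ∀ z ∈ ball (0 : ℂ) R, deriv f z ≠ 0)
    {X : ℂ → ℂ} (hX : ContinuousOn X (ball 0 R)) :
    IntegrableOn (fun z => (wt t b f z : ℂ) * X z) (ball 0 1) := by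
  have h1 := integrableOn_mul_wt t b hb hR hd h0 (Complex.continuous_re.comp_continuousOn hX)
  have h2 := integrableOn_mul_wt t b hb hR hd h0 (Complex.continuous_im.comp_continuousOn hX)
  have h3 : (fun z => (wt t b f z : ℂ) * X z) = fun z =>
      (((X z).re * wt t b f z : ℝ) : ℂ) + (((X z).im * wt t b f z : ℝ) : ℂ) * I := by
    funext z
    conv_lhs => rw [← Complex.re_add_im (X z)]
    push_cast
    ring
  rw [h3]
  exact (h1.ofReal).add (h2.ofReal.mul_const I)

theorem div_integrable (t a : ℝ) (ha : 1 < a) (l l' : List ℕ) {f : ℂ → ℂ} (hf : Good f) :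
    IntegrableOn (fun z => divT t a l l' (jetU f z) * wt t (a - 1) f z) (ball 0 1) := by
  obtain ⟨R, hR, hd, -, h0⟩ := hf.exR
  exact integrableOn_mul_wt t (a - 1) (by linarith) hR hd h0
    (continuousOn_divT t a l l' isOpen_ball hd h0)

/-- the pointwise identity behind the integration by parts -/
theorem div_pointwise (t a : ℝ) (l l' : List ℕ) (f : ℂ → ℂ) {z : ℂ} (hz : z ∈ ball (0 : ℂ) 1)
    (h0 : deriv f z ≠ 0) :
    (((1 * phiL f l z + z * dphiL f l z) * (starRingEnd ℂ) (phiL f l' z) +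
        (z * phiL f l z) * (starRingEnd ℂ) 0) * ((‖deriv f z‖ ^ t : ℝ) : ℂ) +
      ((z * phiL f l z) * (starRingEnd ℂ) (phiL f l' z)) *
        (((t / 2 * ‖deriv f z‖ ^ t : ℝ) : ℂ) * (iteratedDeriv 2 f z / deriv f z))) *
      ((rho z ^ (a + l.sum + l'.sum) : ℝ) : ℂ) +
      ((z * phiL f l z) * (starRingEnd ℂ) (phiL f l' z) * ((‖deriv f z‖ ^ t : ℝ) : ℂ)) *
        ((((a + l.sum + l'.sum) * rho z ^ (a + l.sum + l'.sum - 1) : ℝ) : ℂ) *
          -(starRingEnd ℂ) z) =
    (wt t (a - 1) f z : ℂ) *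
      (((derL l (jetU f z) + (t : ℂ) * jetU f z 1 * mon l (jetU f z)) -
        ((a : ℂ) + l.sum + l'.sum) * mon l (jetU f z)) * (starRingEnd ℂ) (mon l' (jetU f z))) +
      ((1 + 2 * l.sum + l'.sum + a : ℝ) : ℂ) * (wt t a f z : ℂ) *
        (mon l (jetU f z) * (starRingEnd ℂ) (mon l' (jetU f z))) := by
  have hr := rho_pos_ball hz
  set r : ℝ := rho z with hrdef
  set w : ℕ := l.sum with hw
  set w' : ℕ := l'.sum with hw'
  have e1 : r ^ (a + w + w') = r ^ (a - 1) * r ^ (w + w' + 1) := by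
    rw [← Real.rpow_add_natCast hr.ne']
    congr 1
    push_cast
    ring
  have e2 : r ^ (a + w + w' - 1) = r ^ (a - 1) * r ^ (w + w') := by
    rw [← Real.rpow_add_natCast hr.ne']
    congr 1
    push_cast
    ring
  have e3 : r ^ a = r ^ (a - 1) * r := by
    rw [← Real.rpow_add_one hr.ne']
    congr 1
    ring
  have e4 : (starRingEnd ℂ) z * z = 1 - (r : ℂ) := by
    rw [mul_comm, Complex.mul_conj, Complex.normSq_eq_norm_sq, hrdef, rho]
    push_cast
    ring
  have e5 : derL l (jetU f z) = (r : ℂ) ^ (w + 1) * z * dphiL f l z -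
      (r : ℂ) * w * mon l (jetU f z) := by
    rw [derL_jetU f l z]
    ring
  have e6 : mon l (jetU f z) = (r : ℂ) ^ w * phiL f l z := mon_jetU f l z
  have e7 : (starRingEnd ℂ) (mon l' (jetU f z)) =
      (r : ℂ) ^ w' * (starRingEnd ℂ) (phiL f l' z) := by
    rw [mon_jetU f l' z, map_mul, map_pow, Complex.conj_ofReal]
  have e8 : jetU f z 1 = z * r * (iteratedDeriv 2 f z / (2 * deriv f z)) := by
    rw [jetU, jetA, pow_one, ← hrdef]
    norm_num [Nat.factorial]
  unfold wt
  rw [e1, e2, e5, e7, e6, e8, e3]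
  push_cast
  rw [map_zero, mul_zero, add_zero]
  have e9 : ((z * phiL f l z) * (starRingEnd ℂ) (phiL f l' z) * ((‖deriv f z‖ ^ t : ℝ) : ℂ)) *
        ((((a : ℂ) + w + w') * (((r ^ (a - 1) : ℝ) : ℂ) * (r : ℂ) ^ (w + w'))) *
          -(starRingEnd ℂ) z) =
      -(phiL f l z * (starRingEnd ℂ) (phiL f l' z) * ((‖deriv f z‖ ^ t : ℝ) : ℂ) *
        (((a : ℂ) + w + w') * (((r ^ (a - 1) : ℝ) : ℂ) * (r : ℂ) ^ (w + w'))) *
          ((starRingEnd ℂ) z * z)) := by ring
  rw [e9, e4]
  field_simp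
  ring

/-- **The divergence identity.** -/
theorem div_identity (t a : ℝ) (ha : 1 < a) (l l' : List ℕ) {f : ℂ → ℂ} (hf : Good f) :
    ∫ z in ball (0 : ℂ) 1, divT t a l l' (jetU f z) * wt t (a - 1) f z =
      -(1 + 2 * l.sum + l'.sum + a) * ∫ z in ball (0 : ℂ) 1,
        (mon l (jetU f z) * (starRingEnd ℂ) (mon l' (jetU f z))).re * wt t a f z := by
  obtain ⟨R, hR, hd, -, h0⟩ := hf.exR
  have hU : IsOpen (ball (0 : ℂ) R) := isOpen_ball
  have hsub : ball (0 : ℂ) 1 ⊆ ball 0 R := ball_subset_ball hR.le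
  have N1 : NiceOn (fun z => z * phiL f l z) (fun z => 1 * phiL f l z + z * dphiL f l z)
      (fun _ => 0) (ball 0 R) := by
    refine NiceOn.of_hasDerivAt (fun z hz => ?_) ?_
    · exact (hasDerivAt_id z).mul (hasDerivAt_phiL hU hd hz (h0 z hz) l)
    · exact (continuousOn_const.mul (continuousOn_phiL hU hd h0 l)).add
        (continuousOn_id.mul (continuousOn_dphiL hU hd h0 l))
  have N2 : NiceOn (fun z => (starRingEnd ℂ) (phiL f l' z)) (fun _ => (starRingEnd ℂ) 0)
      (fun z => (starRingEnd ℂ) (dphiL f l' z)) (ball 0 R) :=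
    (NiceOn.of_hasDerivAt (fun z hz => hasDerivAt_phiL hU hd hz (h0 z hz) l')
      (continuousOn_dphiL hU hd h0 l')).conj
  have N3 := niceOn_norm_rpow (g := deriv f) (g' := iteratedDeriv 2 f) (U := ball (0 : ℂ) R)
    (fun z hz => by
      have h4 := (hd.analyticAt (hU.mem_nhds hz)).deriv.differentiableAt.hasDerivAt
      rwa [show deriv (deriv f) z = iteratedDeriv 2 f z by
        rw [iteratedDeriv_succ, iteratedDeriv_one]] at h4)
    (fun z hz => (analyticAt_iteratedDeriv hU hd hz 2).continuousAt.continuousWithinAt) h0 t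
  have hsumpos : (0 : ℝ) ≤ l.sum + l'.sum := by positivity
  have key := integral_wirt_eq_zero hR ((N1.mul N2).mul N3) (c := a + l.sum + l'.sum)
    (by have := hsumpos; linarith)
  rw [setIntegral_congr_fun measurableSet_ball
    (fun z hz => div_pointwise t a l l' f hz (h0 z (hsub hz)))] at key
  have hcD : ContinuousOn (fun z => ((derL l (jetU f z) + (t : ℂ) * jetU f z 1 *
      mon l (jetU f z)) - ((a : ℂ) + l.sum + l'.sum) * mon l (jetU f z)) *
        (starRingEnd ℂ) (mon l' (jetU f z))) (ball 0 R) := by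
    have h1 := continuousOn_derL hU hd h0 l
    have h2 := continuousOn_mon hU hd h0 l
    have h3 := continuousOn_mon hU hd h0 l'
    have h4 := continuousOn_jetU hU hd h0 1
    exact ((h1.add ((continuousOn_const.mul h4).mul h2)).sub (continuousOn_const.mul h2)).mul
      (Complex.continuous_conj.comp_continuousOn h3)
  have hcE : ContinuousOn (fun z => mon l (jetU f z) * (starRingEnd ℂ) (mon l' (jetU f z)))
      (ball 0 R) :=
    (continuousOn_mon hU hd h0 l).mul
      (Complex.continuous_conj.comp_continuousOn (continuousOn_mon hU hd h0 l'))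
  have i1 := integrableOn_mul_wtC t (a - 1) (by linarith) hR hd h0 hcD
  have i2 := (integrableOn_mul_wtC t a (by linarith) hR hd h0 hcE).const_mul
    ((1 + 2 * l.sum + l'.sum + a : ℝ) : ℂ)
  have i3 : IntegrableOn (fun z => (wt t (a - 1) f z : ℂ) *
      (((derL l (jetU f z) + (t : ℂ) * jetU f z 1 * mon l (jetU f z)) -
        ((a : ℂ) + l.sum + l'.sum) * mon l (jetU f z)) * (starRingEnd ℂ) (mon l' (jetU f z))) +
      ((1 + 2 * l.sum + l'.sum + a : ℝ) : ℂ) * (wt t a f z : ℂ) *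
        (mon l (jetU f z) * (starRingEnd ℂ) (mon l' (jetU f z)))) (ball 0 1) := by
    refine (i1.add i2).congr_fun (fun z _ => ?_) measurableSet_ball
    simp only [Pi.add_apply]
    ring
  have hre := Complex.reCLM.integral_comp_comm i3
  rw [key] at hre
  simp only [Complex.reCLM_apply, Complex.zero_re] at hre
  have hpt : ∀ z ∈ ball (0 : ℂ) 1, ((wt t (a - 1) f z : ℂ) *
      (((derL l (jetU f z) + (t : ℂ) * jetU f z 1 * mon l (jetU f z)) -
        ((a : ℂ) + l.sum + l'.sum) * mon l (jetU f z)) * (starRingEnd ℂ) (mon l' (jetU f z))) +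
      ((1 + 2 * l.sum + l'.sum + a : ℝ) : ℂ) * (wt t a f z : ℂ) *
        (mon l (jetU f z) * (starRingEnd ℂ) (mon l' (jetU f z)))).re =
      divT t a l l' (jetU f z) * wt t (a - 1) f z + (1 + 2 * l.sum + l'.sum + a) *
        ((mon l (jetU f z) * (starRingEnd ℂ) (mon l' (jetU f z))).re * wt t a f z) := by
    intro z _
    rw [Complex.add_re, Complex.re_ofReal_mul, mul_assoc ((1 + 2 * l.sum + l'.sum + a : ℝ) : ℂ),
      Complex.re_ofReal_mul, Complex.re_ofReal_mul, divT]
    ring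
  rw [setIntegral_congr_fun measurableSet_ball hpt] at hre
  have i4 := div_integrable t a ha l l' hf
  have i5 : IntegrableOn (fun z => (mon l (jetU f z) *
      (starRingEnd ℂ) (mon l' (jetU f z))).re * wt t a f z) (ball 0 1) :=
    integrableOn_mul_wt t a (by linarith) hR hd h0
      (Complex.continuous_re.comp_continuousOn hcE)
  rw [integral_add i4 (i5.const_mul _), integral_const_mul] at hre
  linarith

/-- The bound, given that the jets are bounded. -/
theorem div_bound_of (hK : ∀ n : ℕ, ∃ C : ℝ, ∀ f, Good f → ∀ z : ℂ, ‖z‖ < 1 →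
    ‖jetU f z n‖ ≤ C) (t a : ℝ) (ha : 1 < a) (l l' : List ℕ) : ∃ C : ℝ, ∀ f, Good f →
    |∫ z in ball (0 : ℂ) 1, divT t a l l' (jetU f z) * wt t (a - 1) f z| ≤ C * In t a f := by
  have hmon : ∀ l : List ℕ, ∃ C : ℝ, 0 ≤ C ∧ ∀ f, Good f → ∀ z : ℂ, ‖z‖ < 1 →
      ‖mon l (jetU f z)‖ ≤ C := by
    intro l
    induction l with
    | nil => exact ⟨1, zero_le_one, fun f _ z _ => by simp [mon_nil]⟩
    | cons k l ih =>
      obtain ⟨C, hC0, hC⟩ := ih
      obtain ⟨D, hD⟩ := hK k
      refine ⟨max D 0 * C, by positivity, fun f hf z hz => ?_⟩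
      rw [mon_cons, norm_mul]
      exact mul_le_mul ((hD f hf z hz).trans (le_max_left _ _)) (hC f hf z hz) (norm_nonneg _)
        (le_max_right _ _)
  obtain ⟨C, hC0, hC⟩ := hmon l
  obtain ⟨D, hD0, hD⟩ := hmon l'
  refine ⟨(1 + 2 * l.sum + l'.sum + a) * (C * D), fun f hf => ?_⟩
  obtain ⟨R, hR, hd, -, h0⟩ := hf.exR
  have hpos : (0 : ℝ) ≤ 1 + 2 * l.sum + l'.sum + a := by positivity
  rw [div_identity t a ha l l' hf, abs_mul, abs_neg, abs_of_nonneg hpos, mul_assoc]
  refine mul_le_mul_of_nonneg_left ?_ hpos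
  have i1 : IntegrableOn (fun z => (C * D) * wt t a f z) (ball 0 1) :=
    integrableOn_mul_wt t a (by linarith) hR hd h0 (X := fun _ => C * D) continuousOn_const
  rw [In, ← integral_const_mul, ← Real.norm_eq_abs]
  refine norm_integral_le_of_norm_le i1 ?_
  refine (ae_restrict_iff' measurableSet_ball).2 (Eventually.of_forall fun z hz => ?_)
  have hz' : ‖z‖ < 1 := mem_ball_zero_iff.1 hz
  rw [norm_mul, Real.norm_eq_abs (wt t a f z), abs_of_nonneg (wt_nonneg t a f hz)]
  refine mul_le_mul_of_nonneg_right ?_ (wt_nonneg t a f hz)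
  rw [Real.norm_eq_abs]
  refine (Complex.abs_re_le_norm _).trans ?_
  rw [norm_mul, RCLike.norm_conj]
  exact mul_le_mul (hC f hf z hz') (hD f hf z hz') (norm_nonneg _) hC0

end Vale.Agent.P142
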