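import Vale.Agent.P142.Koebe
import Vale.Agent.P142.AreaIneq

/-!
# P142, module K2, K3: bounds for the jets and distortion, from the area theorem
-/

open Complex MeasureTheory Metric Set Filter Topology

namespace Vale.Agent.P142

/-- K2: jets are bounded -/
theorem jetU_bound (n : ℕ) : ∃ C : ℝ, ∀ f, Good f → ∀ z : ℂ, ‖z‖ < 1 → ‖jetU f z n‖ ≤ C :=
  jetU_bound_of coef_bound n

/-- K3: distortion -/
theorem distortion {f : ℂ → ℂ} (hf : Good f) {z : ℂ} (hz : ‖z‖ < 1) :
    Real.exp (-3) * (1 - ‖z‖) ≤ ‖deriv f z‖ :=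
  distortion_of (fun _ h hi c hc h0 => coef_one_bound h hi c hc h0) hf hz

end Vale.Agent.P142
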