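import Vale.Agent.P142.DivCore
import Vale.Agent.P142.Koebe2

/-!
# P142: module D, the divergence bound
-/

open Complex MeasureTheory Metric Set Filter Topology

namespace Vale.Agent.P142

/-- D1: the divergence bound (integration by parts in the disc) -/
theorem div_bound (t a : ℝ) (ha : 1 < a) (l l' : List ℕ) : ∃ C : ℝ, ∀ f, Good f →
    |∫ z in ball (0 : ℂ) 1, divT t a l l' (jetU f z) * wt t (a - 1) f z| ≤ C * In t a f :=
  div_bound_of jetU_bound t a ha l l'

end Vale.Agent.P142
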