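import Vale.Agent.P142.E8r1
import Vale.Agent.P142.E8r2
import Vale.Agent.P142.E8r3
import Vale.Agent.P142.E8r4
import Vale.Agent.P142.E8rq
import Vale.Agent.P142.E8rd

/-!
# P142: the total form for `D8r`
-/

namespace Vale.Agent.P142.D8r

open Ck

set_option maxRecDepth 100000 in
theorem tm_ok : chkM T1 T2 T3 T4 TQ TT = true := by decide +kernel

end Vale.Agent.P142.D8r
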