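import Vale.Agent.P142.E8rd
import Vale.Agent.P142.E8rm

/-!
# P142: certificate check for `D8r` (lifting and diagonal dominance)
-/

namespace Vale.Agent.P142.D8r

open Ck

set_option maxRecDepth 100000 in
theorem tt_ok : checkT 10001 10000 (-19031) 10000 8 TT dG = true := by decide +kernel

end Vale.Agent.P142.D8r
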