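import Vale.Agent.P142.E8x1
import Vale.Agent.P142.E8x2
import Vale.Agent.P142.E8x3
import Vale.Agent.P142.E8x4
import Vale.Agent.P142.E8xq
import Vale.Agent.P142.E8xd

/-!
# P142: the total form for `D8x`
-/

namespace Vale.Agent.P142.D8x

open Ck

set_option maxRecDepth 100000 in
theorem tm_ok : chkM T1 T2 T3 T4 TQ TT = true := by decide +kernel

end Vale.Agent.P142.D8x
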