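import Vale.Agent.P142.E8xd
import Vale.Agent.P142.E8xm

/-!
# P142: certificate check for `D8x` (lifting and diagonal dominance)
-/

namespace Vale.Agent.P142.D8x

open Ck

set_option maxRecDepth 100000 in
theorem tt_ok : checkT 1083 1000 (-2) 1 8 TT dG = true := by decide +kernel

end Vale.Agent.P142.D8x
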