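import Vale.Agent.P142.Main
import Vale.Agent.P142.Chk7
import Vale.Agent.P142.Chk7r

/-!
# P142: the bounds from level 7
-/

open Complex MeasureTheory Metric Set Filter Topology

namespace Vale.Agent.P142

theorem BS_le7 : BS (-2) ≤ ((11 / 10 : ℝ) : EReal) := by
  have h := Ck.cert_of_check (by norm_num) (by norm_num) (by norm_num) (by norm_num) d7_ok
  refine BS_le_of_cert (K := 6) (p0 := 100) (p1 := 794) (p2 := -103) (by norm_num) ?_
  convert h using 1 <;> norm_num

theorem range7 {W : Set ℂ} (hW : IsOpen W) {φ : ℂ → ℂ} (hφ : DifferentiableOn ℂ φ W)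
    (hb : BijOn φ W (ball 0 1)) {s : ℝ} (h2 : 2 ≤ s) (hs : s < 3.88) :
    ∫⁻ z in W, ENNReal.ofReal (‖deriv φ z‖ ^ s) < ⊤ := by
  have h := Ck.cert_of_check (by norm_num) (by norm_num) (by norm_num) (by norm_num) d7r_ok
  refine range_of_cert (τ := 9401 / 5000) (η := 1 / 10000) (K := 6) (p0 := 500) (p1 := 3900)
    (p2 := -663) (by norm_num) (by norm_num) (by norm_num) ?_ hW hφ hb h2 ?_
  · convert h using 1 <;> norm_num
  · norm_num at hs ⊢
    linarith

end Vale.Agent.P142
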