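import Vale.Agent.P142.Main
import Vale.Agent.P142.E8xm
import Vale.Agent.P142.E8xt
import Vale.Agent.P142.E8rm
import Vale.Agent.P142.E8rt

/-!
# P142: the bounds from level 8
-/

open Complex MeasureTheory Metric Set Filter Topology

namespace Vale.Agent.P142

theorem d8x_len : D8x.dL.length = 144 := by decide +kernel

theorem d8r_len : D8r.dL.length = 144 := by decide +kernel

theorem d8x_tot (u : ℕ → ℂ) : Ck.ev (Ck.w0 u) D8x.TT = Ck.ev (Ck.w0 u) (Ck.gram D8x.dL) +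
    (Ck.ev (Ck.w0 u) (Ck.qForm 1000 7807 (-881) 7) +
      Ck.ev (Ck.w0 u) [⟨0, 139646772820574208000000, [], []⟩]) := by
  have a1 := Ck.ev_chkR D8x.t1_ok u
  have a2 := Ck.ev_chkR D8x.t2_ok u
  have a3 := Ck.ev_chkR D8x.t3_ok u
  have a4 := Ck.ev_chkR D8x.t4_ok u
  have q := Ck.ev_chkQ D8x.tq_ok u
  have m := Ck.ev_chkM D8x.tm_ok u
  rw [List.drop_zero, show (0 + 19 : ℕ) = 19 from rfl] at a1
  rw [show (19 + 23 : ℕ) = 42 from rfl] at a2
  rw [show (42 + 30 : ℕ) = 72 from rfl] at a3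
  rw [List.drop_eq_nil_of_le (i := 72 + 72) (by rw [d8x_len]), Ck.gram, Ck.ev_nil] at a4
  linarith

theorem d8r_tot (u : ℕ → ℂ) : Ck.ev (Ck.w0 u) D8r.TT = Ck.ev (Ck.w0 u) (Ck.gram D8r.dL) +
    (Ck.ev (Ck.w0 u) (Ck.qForm 10000 79200 (-11634) 7) +
      Ck.ev (Ck.w0 u) [⟨0, 27929354564114841600000000, [], []⟩]) := by
  have a1 := Ck.ev_chkR D8r.t1_ok u
  have a2 := Ck.ev_chkR D8r.t2_ok u
  have a3 := Ck.ev_chkR D8r.t3_ok u
  have a4 := Ck.ev_chkR D8r.t4_ok u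
  have q := Ck.ev_chkQ D8r.tq_ok u
  have m := Ck.ev_chkM D8r.tm_ok u
  rw [List.drop_zero, show (0 + 19 : ℕ) = 19 from rfl] at a1
  rw [show (19 + 23 : ℕ) = 42 from rfl] at a2
  rw [show (42 + 30 : ℕ) = 72 from rfl] at a3
  rw [List.drop_eq_nil_of_le (i := 72 + 72) (by rw [d8r_len]), Ck.gram, Ck.ev_nil] at a4
  linarith

theorem BS_le8 : BS (-2) ≤ ((1083 / 1000 : ℝ) : EReal) := by
  have h := Ck.cert_of_pieces (by norm_num) (by norm_num) (by norm_num) (by norm_num) d8x_tot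
    D8x.tt_ok
  refine BS_le_of_cert (K := 7) (p0 := 1000) (p1 := 7807) (p2 := -881) (by norm_num) ?_
  convert h using 1 <;> norm_num

theorem range8 {W : Set ℂ} (hW : IsOpen W) {φ : ℂ → ℂ} (hφ : DifferentiableOn ℂ φ W)
    (hb : BijOn φ W (ball 0 1)) {s : ℝ} (h2 : 2 ≤ s) (hs : s < 3.9029) :
    ∫⁻ z in W, ENNReal.ofReal (‖deriv φ z‖ ^ s) < ⊤ := by
  have h := Ck.cert_of_pieces (by norm_num) (by norm_num) (by norm_num) (by norm_num) d8r_tot
    D8r.tt_ok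
  refine range_of_cert (τ := 19031 / 10000) (η := 1 / 10000) (K := 7) (p0 := 10000) (p1 := 79200)
    (p2 := -11634) (by norm_num) (by norm_num) (by norm_num) ?_ hW hφ hb h2 ?_
  · convert h using 1 <;> norm_num
  · norm_num at hs ⊢
    linarith

end Vale.Agent.P142
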