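import Vale.Agent.P142.Inj

/-!
Module F1: circle means of `|f'|^{-2}`.
-/

open Complex MeasureTheory Metric Set Filter Topology

namespace Vale.Agent.P142

namespace F1

theorem int_exp (k : ℤ) : ∫ θ in (-Real.pi)..Real.pi, exp (k * (θ * I)) =
    if k = 0 then (2 * Real.pi : ℂ) else 0 := by
  split_ifs with h
  · subst h
    simp
    ring
  · have h1 : (k : ℂ) * I ≠ 0 := mul_ne_zero (by exact_mod_cast h) I_ne_zero
    have h2 : (fun θ : ℝ => exp (k * (θ * I))) = fun θ : ℝ => exp ((k * I) * θ) := by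
      funext θ
      congr 1
      ring
    rw [h2, integral_exp_mul_complex h1]
    have h3 : exp ((k * I) * (Real.pi : ℝ)) = exp ((k * I) * ((-Real.pi : ℝ) : ℂ)) := by
      rw [exp_eq_exp_iff_exists_int]
      exact ⟨k, by push_cast; ring⟩
    rw [h3, sub_self, zero_div]

/-- coefficients by integration over a circle -/
theorem coef_int {h : ℂ → ℂ} {b : ℕ → ℂ} (hb : ∀ z ∈ ball (0 : ℂ) 1, HasSum (fun n => b n * z ^ n) (h z))
    {s : ℝ} (h0 : 0 ≤ s) (h1 : s < 1) (n : ℕ) :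
    ∫ θ in (-Real.pi)..Real.pi, exp (-(n * (θ * I))) * h (s * exp (θ * I)) =
      2 * Real.pi * (b n * s ^ n) := by
  have hz : ∀ θ : ℝ, (s : ℂ) * exp (θ * I) ∈ ball (0 : ℂ) 1 := by
    intro θ
    rw [mem_ball_zero_iff, norm_mul, norm_exp_ofReal_mul_I, mul_one, norm_real, Real.norm_eq_abs,
      abs_of_nonneg h0]
    exact h1
  have hsum : Summable (fun m => ‖b m * (s : ℂ) ^ m‖) := by
    have := (hb (s : ℂ) (by simpa using hz 0)).summable
    exact summable_norm_iff.2 this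
  have h2 : HasSum (fun m : ℕ => ∫ θ in (-Real.pi)..Real.pi,
      exp (-(n * (θ * I))) * (b m * (s * exp (θ * I)) ^ m))
      (∫ θ in (-Real.pi)..Real.pi, exp (-(n * (θ * I))) * h (s * exp (θ * I))) := by
    refine intervalIntegral.hasSum_integral_of_dominated_convergence
      (fun m _ => ‖b m * (s : ℂ) ^ m‖) ?_ ?_ ?_ ?_ ?_
    · intro m
      exact (by fun_prop : Continuous fun θ : ℝ =>
        exp (-(n * (θ * I))) * (b m * (s * exp (θ * I)) ^ m)).aestronglyMeasurable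
    · intro m
      refine Eventually.of_forall fun θ _ => le_of_eq ?_
      have e1 : exp (-(n * ((θ : ℂ) * I))) = exp (((-(n * θ) : ℝ) : ℂ) * I) := by
        congr 1
        push_cast
        ring
      rw [norm_mul, e1, norm_exp_ofReal_mul_I, one_mul, norm_mul, norm_mul, norm_pow, norm_mul,
        norm_exp_ofReal_mul_I, mul_one, norm_pow]
    · exact Eventually.of_forall fun θ _ => hsum
    · exact intervalIntegrable_const
    · exact Eventually.of_forall fun θ _ => (hb _ (hz θ)).mul_left _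
  have h3 : ∀ m : ℕ, ∫ θ in (-Real.pi)..Real.pi,
      exp (-(n * (θ * I))) * (b m * (s * exp (θ * I)) ^ m) =
      if m = n then 2 * Real.pi * (b n * s ^ n) else 0 := by
    intro m
    have e1 : (fun θ : ℝ => exp (-(n * (θ * I))) * (b m * (s * exp (θ * I)) ^ m)) =
        fun θ : ℝ => (b m * s ^ m) * exp (((m : ℤ) - (n : ℤ) : ℤ) * (θ * I)) := by
      funext θ
      rw [mul_pow, ← exp_nat_mul]
      have : exp ((((m : ℤ) - (n : ℤ) : ℤ) : ℂ) * (θ * I)) =
          exp (-(n * (θ * I))) * exp (m * (θ * I)) := by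
        rw [← exp_add]
        congr 1
        push_cast
        ring
      rw [this]
      ring
    rw [e1, intervalIntegral.integral_const_mul, int_exp]
    by_cases hmn : m = n
    · subst hmn
      simp
      ring
    · rw [if_neg hmn, if_neg (by omega), mul_zero]
  simp only [h3] at h2
  exact h2.unique (hasSum_ite_eq n _)

/-- circle mean of `|h|^2` -/
noncomputable def cm (h : ℂ → ℂ) (s : ℝ) : ℝ :=
  ∫ θ in (-Real.pi)..Real.pi, ‖h (s * exp (θ * I))‖ ^ 2

theorem cm_hasSum {h : ℂ → ℂ} {b : ℕ → ℂ} (hh : ContinuousOn h (ball 0 1))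
    (hb : ∀ z ∈ ball (0 : ℂ) 1, HasSum (fun n => b n * z ^ n) (h z))
    {s : ℝ} (h0 : 0 ≤ s) (h1 : s < 1) :
    HasSum (fun n => 2 * Real.pi * (‖b n‖ ^ 2 * s ^ (2 * n))) (cm h s) := by
  have hz : ∀ θ : ℝ, (s : ℂ) * exp (θ * I) ∈ ball (0 : ℂ) 1 := by
    intro θ
    rw [mem_ball_zero_iff, norm_mul, norm_exp_ofReal_mul_I, mul_one, norm_real, Real.norm_eq_abs,
      abs_of_nonneg h0]
    exact h1
  have hsum : Summable (fun m => ‖b m * (s : ℂ) ^ m‖) := by
    have := (hb (s : ℂ) (by simpa using hz 0)).summable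
    exact summable_norm_iff.2 this
  set M := ∑' m, ‖b m * (s : ℂ) ^ m‖ with hM
  have e1 : ∀ (θ : ℝ) (m : ℕ), ‖b m * (s * exp (θ * I)) ^ m‖ = ‖b m * (s : ℂ) ^ m‖ := by
    intro θ m
    rw [norm_mul, norm_mul, norm_pow, norm_mul, norm_exp_ofReal_mul_I, mul_one, norm_pow]
  have hbd : ∀ θ : ℝ, ‖h (s * exp (θ * I))‖ ≤ M := by
    intro θ
    rw [← (hb _ (hz θ)).tsum_eq, hM, ← tsum_congr (e1 θ)]
    exact norm_tsum_le_tsum_norm (by simpa only [e1] using hsum)
  have hM0 : 0 ≤ M := (norm_nonneg _).trans (hbd 0)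
  have hcont : Continuous (fun θ : ℝ => h (s * exp (θ * I))) :=
    hh.comp_continuous (by fun_prop) hz
  have hconj : Continuous (fun θ : ℝ => (starRingEnd ℂ) (h (s * exp (θ * I)))) :=
    Complex.continuous_conj.comp hcont
  have h2 : HasSum (fun m : ℕ => ∫ θ in (-Real.pi)..Real.pi,
      (b m * (s * exp (θ * I)) ^ m) * (starRingEnd ℂ) (h (s * exp (θ * I))))
      (∫ θ in (-Real.pi)..Real.pi, h (s * exp (θ * I)) *
        (starRingEnd ℂ) (h (s * exp (θ * I)))) := by
    refine intervalIntegral.hasSum_integral_of_dominated_convergence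
      (fun m _ => ‖b m * (s : ℂ) ^ m‖ * M) ?_ ?_ ?_ ?_ ?_
    · intro m
      exact ((by fun_prop : Continuous fun θ : ℝ =>
        b m * (s * exp (θ * I)) ^ m).mul hconj).aestronglyMeasurable
    · intro m
      refine Eventually.of_forall fun θ _ => ?_
      rw [norm_mul, e1, RCLike.norm_conj]
      exact mul_le_mul_of_nonneg_left (hbd θ) (norm_nonneg _)
    · exact Eventually.of_forall fun θ _ => hsum.mul_right _
    · exact intervalIntegrable_const
    · exact Eventually.of_forall fun θ _ => (hb _ (hz θ)).mul_right _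
  have h3 : ∀ m : ℕ, ∫ θ in (-Real.pi)..Real.pi,
      (b m * (s * exp (θ * I)) ^ m) * (starRingEnd ℂ) (h (s * exp (θ * I))) =
      ((2 * Real.pi * (‖b m‖ ^ 2 * s ^ (2 * m)) : ℝ) : ℂ) := by
    intro m
    have e2 : ∀ θ : ℝ, (b m * (s * exp (θ * I)) ^ m) * (starRingEnd ℂ) (h (s * exp (θ * I))) =
        (b m * s ^ m) * (starRingEnd ℂ) (exp (-(m * (θ * I))) * h (s * exp (θ * I))) := by
      intro θ
      rw [map_mul, ← exp_conj, mul_pow, ← exp_nat_mul]
      have : (starRingEnd ℂ) (-(m * ((θ : ℂ) * I))) = m * (θ * I) := by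
        simp
      rw [this]
      ring
    simp only [e2]
    rw [intervalIntegral.integral_const_mul]
    have e3 : ∫ θ in (-Real.pi)..Real.pi,
        (starRingEnd ℂ) (exp (-(m * (θ * I))) * h (s * exp (θ * I))) =
        (starRingEnd ℂ) (∫ θ in (-Real.pi)..Real.pi, exp (-(m * (θ * I))) * h (s * exp (θ * I))) := by
      rw [intervalIntegral.integral_of_le (by linarith [Real.pi_pos]),
        intervalIntegral.integral_of_le (by linarith [Real.pi_pos]), integral_conj]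
    rw [e3, coef_int hb h0 h1]
    simp only [map_mul, map_pow, conj_ofReal]
    have h5 : (starRingEnd ℂ) 2 = 2 := map_ofNat _ 2
    rw [h5]
    have h4 : b m * (starRingEnd ℂ) (b m) = ((‖b m‖ ^ 2 : ℝ) : ℂ) := by
      rw [mul_conj, normSq_eq_norm_sq]
    calc b m * (s : ℂ) ^ m * (2 * Real.pi * ((starRingEnd ℂ) (b m) * (s : ℂ) ^ m)) =
        2 * Real.pi * ((b m * (starRingEnd ℂ) (b m)) * ((s : ℂ) ^ (2 * m))) := by
          rw [mul_comm 2 m, pow_mul]
          ring
      _ = _ := by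
          rw [h4]
          push_cast
          ring
  simp only [h3] at h2
  have h6 : ∫ θ in (-Real.pi)..Real.pi, h (s * exp (θ * I)) *
        (starRingEnd ℂ) (h (s * exp (θ * I))) = ((cm h s : ℝ) : ℂ) := by
    unfold cm
    rw [← intervalIntegral.integral_ofReal]
    congr 1
    funext θ
    rw [mul_conj, normSq_eq_norm_sq]
  rw [h6] at h2
  exact Complex.hasSum_ofReal.1 h2

theorem cm_mono {h : ℂ → ℂ} (hh : DifferentiableOn ℂ h (ball 0 1)) {s t : ℝ} (h0 : 0 ≤ s)
    (hst : s ≤ t) (ht : t < 1) : cm h s ≤ cm h t := by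
  have hb : ∀ z ∈ ball (0 : ℂ) 1,
      HasSum (fun n => ((n.factorial : ℂ)⁻¹ * iteratedDeriv n h 0) * z ^ n) (h z) := by
    intro z hz
    have := Complex.hasSum_taylorSeries_on_ball hh hz
    simp only [sub_zero, smul_eq_mul] at this
    have e : (fun n : ℕ => ((n.factorial : ℂ)⁻¹ * iteratedDeriv n h 0) * z ^ n) =
        fun n => (n.factorial : ℂ)⁻¹ * (z ^ n * iteratedDeriv n h 0) := by
      funext n
      ring
    rw [e]
    exact this
  have e1 := cm_hasSum hh.continuousOn hb h0 (hst.trans_lt ht)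
  have e2 := cm_hasSum hh.continuousOn hb (h0.trans hst) ht
  refine hasSum_le (fun n => ?_) e1 e2
  gcongr

theorem cm_nonneg (h : ℂ → ℂ) (s : ℝ) : 0 ≤ cm h s :=
  intervalIntegral.integral_nonneg (by linarith [Real.pi_pos]) fun θ _ => by positivity

/-- lower bound for the area integral by circle means, polar coordinates -/
theorem polar_lower {h : ℂ → ℂ} (hh : DifferentiableOn ℂ h (ball 0 1)) {a R ρ : ℝ} (ha : 1 < a)
    (hR0 : 0 < R) (hR1 : R < 1) (hρ0 : 0 ≤ ρ) (hρ1 : ρ < 1) :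
    cm h (R * ρ) * ((1 - ρ ^ 2) ^ a / (2 * a)) ≤
      ∫ z in ball (0 : ℂ) 1, ‖h (R * z)‖ ^ 2 * rho z ^ (a - 1) := by
  set G : ℂ → ℝ := fun z => ‖h (R * z)‖ ^ 2 * rho z ^ (a - 1) with hG
  have hmap : MapsTo (fun z : ℂ => (R : ℂ) * z) (closedBall 0 1) (ball 0 1) := by
    intro z hz
    rw [mem_closedBall_zero_iff] at hz
    rw [mem_ball_zero_iff, norm_mul, norm_real, Real.norm_eq_abs, abs_of_pos hR0]
    nlinarith [norm_nonneg z]
  have hGc : ContinuousOn G (closedBall 0 1) := by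
    refine ContinuousOn.mul ((hh.continuousOn.comp (by fun_prop) hmap).norm.pow 2) ?_
    refine ContinuousOn.rpow_const (by unfold rho; fun_prop) fun z hz => Or.inr (by linarith)
  have hG0 : ∀ z ∈ closedBall (0 : ℂ) 1, 0 ≤ G z := by
    intro z hz
    rw [mem_closedBall_zero_iff] at hz
    have : 0 ≤ rho z := by
      unfold rho
      nlinarith [norm_nonneg z]
    have := Real.rpow_nonneg this (a - 1)
    positivity
  set B : Set (ℝ × ℝ) := Ioo 0 1 ×ˢ Ioo (-Real.pi) Real.pi with hB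
  set B' : Set (ℝ × ℝ) := Ioo ρ 1 ×ˢ Ioo (-Real.pi) Real.pi with hB'
  have hBm : MeasurableSet B := measurableSet_Ioo.prod measurableSet_Ioo
  have hBm' : MeasurableSet B' := measurableSet_Ioo.prod measurableSet_Ioo
  have hmem : ∀ p ∈ Icc (0 : ℝ) 1 ×ˢ Icc (-Real.pi) Real.pi,
      (p.1 : ℂ) * exp (p.2 * I) ∈ closedBall (0 : ℂ) 1 := by
    intro p hp
    rw [mem_closedBall_zero_iff, norm_mul, norm_exp_ofReal_mul_I, mul_one, norm_real,
      Real.norm_eq_abs, abs_of_nonneg hp.1.1]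
    exact hp.1.2
  have hF : ContinuousOn (fun p : ℝ × ℝ => p.1 * G (p.1 * exp (p.2 * I)))
      (Icc (0 : ℝ) 1 ×ˢ Icc (-Real.pi) Real.pi) := by
    refine ContinuousOn.mul (by fun_prop) (hGc.comp (by fun_prop) hmem)
  have hFi : IntegrableOn (fun p : ℝ × ℝ => p.1 * G (p.1 * exp (p.2 * I)))
      (Icc (0 : ℝ) 1 ×ˢ Icc (-Real.pi) Real.pi) :=
    hF.integrableOn_compact (isCompact_Icc.prod isCompact_Icc)
  have hFB : IntegrableOn (fun p : ℝ × ℝ => p.1 * G (p.1 * exp (p.2 * I))) B :=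
    hFi.mono_set (prod_mono Ioo_subset_Icc_self Ioo_subset_Icc_self)
  have hsub : B' ⊆ B := prod_mono (Ioo_subset_Ioo_left hρ0) le_rfl
  have e1 : ∫ z in ball (0 : ℂ) 1, G z = ∫ p in B, p.1 * G (p.1 * exp (p.2 * I)) := by
    rw [← integral_indicator measurableSet_ball, ← Complex.integral_comp_polarCoord_symm]
    have h1 : B = polarCoord.target ∩ B := by
      rw [inter_eq_right.2]
      rintro ⟨r, θ⟩ ⟨h1, h2⟩
      exact ⟨h1.1, h2⟩
    rw [h1, ← setIntegral_indicator hBm]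
    refine setIntegral_congr_fun polarCoord.open_target.measurableSet fun p hp => ?_
    have hp1 : 0 < p.1 := hp.1
    have h3 : (Complex.polarCoord.symm p : ℂ) = p.1 * exp (p.2 * I) := by
      rw [Complex.polarCoord_symm_apply, exp_mul_I]
      push_cast
      rfl
    simp only [h3, smul_eq_mul]
    have h4 : ((p.1 : ℂ) * exp (p.2 * I) ∈ ball (0 : ℂ) 1) ↔ p ∈ B := by
      rw [mem_ball_zero_iff, norm_mul, norm_exp_ofReal_mul_I, mul_one, norm_real,
        Real.norm_eq_abs, abs_of_pos hp1]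
      exact ⟨fun h => ⟨⟨hp1, h⟩, hp.2⟩, fun h => h.1.2⟩
    by_cases h5 : p ∈ B
    · rw [indicator_of_mem h5, indicator_of_mem (h4.2 h5)]
    · rw [indicator_of_notMem h5, indicator_of_notMem (fun h => h5 (h4.1 h)), mul_zero]
  have e2 : ∫ p in B', p.1 * G (p.1 * exp (p.2 * I)) ≤ ∫ p in B, p.1 * G (p.1 * exp (p.2 * I)) := by
    refine setIntegral_mono_set hFB ?_ hsub.eventuallyLE
    refine (ae_restrict_iff' hBm).2 (Eventually.of_forall fun p hp => ?_)
    exact mul_nonneg hp.1.1.le (hG0 _ (hmem p ⟨Ioo_subset_Icc_self hp.1, Ioo_subset_Icc_self hp.2⟩))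
  rw [e1]
  refine le_trans ?_ e2
  have hFB' := hFB.mono_set hsub
  have e3 : ∫ p in B', p.1 * G (p.1 * exp (p.2 * I)) =
      ∫ s in Ioo ρ 1, ∫ θ in Ioo (-Real.pi) Real.pi, s * G (s * exp (θ * I)) := by
    have := setIntegral_prod (μ := (volume : Measure ℝ)) (ν := (volume : Measure ℝ))
      (fun p : ℝ × ℝ => p.1 * G (p.1 * exp (p.2 * I))) hFB'
    exact this
  have e4 : ∀ s ∈ Ioo ρ 1, ∫ θ in Ioo (-Real.pi) Real.pi, s * G (s * exp (θ * I)) =
      s * (1 - s ^ 2) ^ (a - 1) * cm h (R * s) := by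
    intro s hs
    unfold cm
    rw [intervalIntegral.integral_of_le (by linarith [Real.pi_pos]), integral_Ioc_eq_integral_Ioo,
      ← integral_const_mul]
    congr 1
    funext θ
    have h1 : rho (s * exp (θ * I)) = 1 - s ^ 2 := by
      unfold rho
      rw [norm_mul, norm_exp_ofReal_mul_I, mul_one, norm_real, Real.norm_eq_abs, sq_abs]
    have h2 : (R : ℂ) * (s * exp (θ * I)) = ((R * s : ℝ) : ℂ) * exp (θ * I) := by
      push_cast
      ring
    rw [hG]
    simp only [h1, h2]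
    ring
  have e5 : IntegrableOn (fun s : ℝ => ∫ θ in Ioo (-Real.pi) Real.pi, s * G (s * exp (θ * I)))
      (Ioo ρ 1) := by
    have h1 : Integrable (fun p : ℝ × ℝ => p.1 * G (p.1 * exp (p.2 * I)))
        ((volume.restrict (Ioo ρ 1)).prod (volume.restrict (Ioo (-Real.pi) Real.pi))) := by
      rw [Measure.prod_restrict]
      exact hFB'
    exact h1.integral_prod_left
  have e6 : IntegrableOn (fun s : ℝ => s * (1 - s ^ 2) ^ (a - 1) * cm h (R * s)) (Ioo ρ 1) :=
    e5.congr_fun e4 measurableSet_Ioo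
  rw [e3, setIntegral_congr_fun measurableSet_Ioo e4]
  have e7 : ∫ s in Ioo ρ 1, s * (1 - s ^ 2) ^ (a - 1) = (1 - ρ ^ 2) ^ a / (2 * a) := by
    rw [← integral_Ioc_eq_integral_Ioo, ← intervalIntegral.integral_of_le hρ1.le]
    have hd : ∀ s ∈ uIcc ρ 1, HasDerivAt (fun s : ℝ => -((1 - s ^ 2) ^ a / (2 * a)))
        (s * (1 - s ^ 2) ^ (a - 1)) s := by
      intro s _
      have h1 : HasDerivAt (fun s : ℝ => 1 - s ^ 2) (-(2 * s)) s := by
        have := (hasDerivAt_pow 2 s).const_sub 1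
        simpa using this
      have h2 := ((h1.rpow_const (p := a) (Or.inr ha.le)).div_const (2 * a)).neg
      have h3 : -(-(2 * s) * a * (1 - s ^ 2) ^ (a - 1) / (2 * a)) = s * (1 - s ^ 2) ^ (a - 1) := by
        have : a ≠ 0 := by linarith
        field_simp
      rw [h3] at h2
      exact h2
    have hi : IntervalIntegrable (fun s : ℝ => s * (1 - s ^ 2) ^ (a - 1)) volume ρ 1 := by
      refine Continuous.intervalIntegrable ?_ _ _
      exact continuous_id.mul ((by fun_prop : Continuous fun s : ℝ => 1 - s ^ 2).rpow_const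
        fun s => Or.inr (by linarith))
    rw [intervalIntegral.integral_eq_sub_of_hasDerivAt hd hi]
    simp
    rw [Real.zero_rpow (by linarith)]
    simp
  have e8 : IntegrableOn (fun s : ℝ => s * (1 - s ^ 2) ^ (a - 1) * cm h (R * ρ)) (Ioo ρ 1) := by
    have hc : Continuous (fun s : ℝ => s * (1 - s ^ 2) ^ (a - 1) * cm h (R * ρ)) :=
      (continuous_id.mul ((by fun_prop : Continuous fun s : ℝ => 1 - s ^ 2).rpow_const
        fun s => Or.inr (by linarith))).mul continuous_const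
    exact (hc.continuousOn.integrableOn_Icc).mono_set Ioo_subset_Icc_self
  rw [← e7, mul_comm, ← integral_mul_const]
  refine setIntegral_mono_on e8 e6 measurableSet_Ioo fun s hs => ?_
  have h1 : 0 ≤ s * (1 - s ^ 2) ^ (a - 1) := by
    have h2 : 0 ≤ s := hρ0.trans hs.1.le
    have h3 : 0 ≤ 1 - s ^ 2 := by nlinarith [hs.2]
    exact mul_nonneg h2 (Real.rpow_nonneg h3 _)
  refine mul_le_mul_of_nonneg_left ?_ h1
  refine cm_mono hh (by positivity) ?_ ?_
  · exact mul_le_mul_of_nonneg_left hs.1.le hR0.le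
  · nlinarith [hs.2, hs.1]

theorem good_scale {f : ℂ → ℂ} (hf : DifferentiableOn ℂ f (ball 0 1)) (hi : InjOn f (ball 0 1))
    (h1 : deriv f 0 = 1) {R : ℝ} (hR0 : 0 < R) (hR1 : R < 1) :
    Good (fun z => f (R * z) / R) := by
  have hRc : (R : ℂ) ≠ 0 := by exact_mod_cast hR0.ne'
  have hmap : MapsTo (fun z : ℂ => (R : ℂ) * z) (ball 0 R⁻¹) (ball 0 1) := by
    intro z hz
    rw [mem_ball_zero_iff] at hz ⊢
    rw [norm_mul, norm_real, Real.norm_eq_abs, abs_of_pos hR0]
    calc R * ‖z‖ < R * R⁻¹ := by gcongr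
      _ = 1 := mul_inv_cancel₀ hR0.ne'
  constructor
  · refine ⟨R⁻¹, (one_lt_inv₀ hR0).2 hR1, ?_, ?_⟩
    · exact (hf.comp (by fun_prop) hmap).div_const _
    · intro x hx y hy hxy
      have h2 : f (R * x) = f (R * y) := by
        have h3 : f (R * x) / R = f (R * y) / R := hxy
        field_simp at h3
        exact h3
      exact mul_left_cancel₀ hRc (hi (hmap hx) (hmap hy) h2)
  · have hd : HasDerivAt f 1 ((R : ℂ) * 0) := by
      rw [mul_zero, ← h1]
      exact (hf.differentiableAt (isOpen_ball.mem_nhds (by simp))).hasDerivAt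
    have h2 : HasDerivAt (fun z : ℂ => (R : ℂ) * z) R 0 := by
      simpa using (hasDerivAt_id (0 : ℂ)).const_mul (R : ℂ)
    have h3 := (hd.comp (0 : ℂ) h2).div_const (R : ℂ)
    have h4 := h3.deriv
    rw [one_mul, div_self hRc] at h4
    exact h4

theorem deriv_scale {f : ℂ → ℂ} (hf : DifferentiableOn ℂ f (ball 0 1)) {R : ℝ} (hR0 : 0 < R)
    {z : ℂ} (hz : (R : ℂ) * z ∈ ball (0 : ℂ) 1) :
    deriv (fun z => f (R * z) / R) z = deriv f (R * z) := by
  have hRc : (R : ℂ) ≠ 0 := by exact_mod_cast hR0.ne'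
  have hd : HasDerivAt f (deriv f (R * z)) ((R : ℂ) * z) :=
    (hf.differentiableAt (isOpen_ball.mem_nhds hz)).hasDerivAt
  have h2 : HasDerivAt (fun z : ℂ => (R : ℂ) * z) R z := by
    simpa using (hasDerivAt_id z).const_mul (R : ℂ)
  have h3 := (hd.comp z h2).div_const (R : ℂ)
  have h4 := h3.deriv
  rw [mul_div_assoc, div_self hRc, mul_one] at h4
  exact h4

theorem deriv_ne {f : ℂ → ℂ} (hf : DifferentiableOn ℂ f (ball 0 1)) (hi : InjOn f (ball 0 1))
    {z : ℂ} (hz : z ∈ ball (0 : ℂ) 1) : deriv f z ≠ 0 :=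
  deriv_ne_zero_of_injOn isOpen_ball hf hi hz

end F1

open F1 in
/-- F1 (file Final.lean) -/
theorem mean_bound (a : ℝ) (ha : 1 < a) (C : ℝ) (hC : ∀ f, Good f → In (-2) (a - 1) f ≤ C)
    {f : ℂ → ℂ} (hf : DifferentiableOn ℂ f (ball 0 1)) (hi : InjOn f (ball 0 1))
    (h1 : deriv f 0 = 1) {r : ℝ} (h0 : 0 ≤ r) (hr : r < 1) :
    (1 / (2 * Real.pi)) * ∫ θ in (-Real.pi)..Real.pi, ‖deriv f (r * exp (θ * I))‖ ^ (-2 : ℝ) ≤
      C * a * (1 - r) ^ (-a) := by
  set h : ℂ → ℂ := fun z => (deriv f z)⁻¹ with hh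
  have hd : DifferentiableOn ℂ h (ball 0 1) :=
    (hf.deriv isOpen_ball).inv fun z hz => deriv_ne hf hi hz
  have hpw : ∀ z : ℂ, ‖deriv f z‖ ^ (-2 : ℝ) = ‖h z‖ ^ 2 := by
    intro z
    rw [hh]
    simp only [norm_inv, inv_pow]
    rw [Real.rpow_neg (norm_nonneg _)]
    norm_num
  have hcm : ∫ θ in (-Real.pi)..Real.pi, ‖deriv f (r * exp (θ * I))‖ ^ (-2 : ℝ) = cm h r := by
    unfold cm
    simp only [hpw]
  rw [hcm]
  obtain ⟨R, ρ, hR0, hR1, hρ0, hρ1, hRρ, hρr⟩ : ∃ R ρ : ℝ, 0 < R ∧ R < 1 ∧ 0 ≤ ρ ∧ ρ < 1 ∧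
      R * ρ = r ∧ ρ ^ 2 ≤ r := by
    rcases h0.eq_or_lt with h | h
    · exact ⟨1 / 2, 0, by norm_num, by norm_num, le_rfl, by norm_num, by rw [← h]; ring,
        by rw [← h]; norm_num⟩
    · have h2 : 0 < √r := Real.sqrt_pos.2 h
      have h3 : √r < 1 := by
        rw [Real.sqrt_lt' one_pos]
        simpa using hr
      exact ⟨√r, √r, h2, h3, h2.le, h3, Real.mul_self_sqrt h0, (Real.sq_sqrt h0).le⟩
  have hg := good_scale hf hi h1 hR0 hR1
  have hIn : In (-2) (a - 1) (fun z => f (R * z) / R) =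
      ∫ z in ball (0 : ℂ) 1, ‖h (R * z)‖ ^ 2 * rho z ^ (a - 1) := by
    unfold In wt
    refine setIntegral_congr_fun measurableSet_ball fun z hz => ?_
    have hz' : (R : ℂ) * z ∈ ball (0 : ℂ) 1 := by
      rw [mem_ball_zero_iff] at hz ⊢
      rw [norm_mul, norm_real, Real.norm_eq_abs, abs_of_pos hR0]
      nlinarith [norm_nonneg z]
    simp only [deriv_scale hf hR0 hz', hpw]
  have hlow := polar_lower hd ha hR0 hR1 hρ0 hρ1
  rw [hRρ, ← hIn] at hlow
  have hCle := hlow.trans (hC _ hg)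
  have hcm0 := cm_nonneg h r
  have h1r : 0 < 1 - r := by linarith
  have hpos : 0 < (1 - r) ^ a := Real.rpow_pos_of_pos h1r a
  have hge : (1 - r) ^ a ≤ (1 - ρ ^ 2) ^ a :=
    Real.rpow_le_rpow h1r.le (by linarith) (by linarith)
  have h5 : cm h r * ((1 - r) ^ a / (2 * a)) ≤ C := by
    refine le_trans ?_ hCle
    exact mul_le_mul_of_nonneg_left (div_le_div_of_nonneg_right hge (by linarith)) hcm0
  have h6 : cm h r * (1 - r) ^ a ≤ C * (2 * a) := by
    rw [← mul_div_assoc, div_le_iff₀ (by linarith)] at h5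
    exact h5
  have hC0 : 0 ≤ C * (2 * a) := (mul_nonneg hcm0 hpos.le).trans h6
  rw [Real.rpow_neg h1r.le, ← div_eq_mul_inv, le_div_iff₀ hpos]
  have hpi : (1 : ℝ) / (2 * Real.pi) ≤ 1 / 2 := by
    apply div_le_div_of_nonneg_left <;> linarith [Real.pi_gt_three]
  calc 1 / (2 * Real.pi) * cm h r * (1 - r) ^ a = 1 / (2 * Real.pi) * (cm h r * (1 - r) ^ a) := by
        ring
    _ ≤ 1 / 2 * (C * (2 * a)) :=
        mul_le_mul hpi h6 (mul_nonneg hcm0 hpos.le) (by norm_num)
    _ = C * a := by ring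

end Vale.Agent.P142
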