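import Vale.Agent.P142.Defs

/-!
# P142: an injective analytic function has nonvanishing derivative; regularity of the jets
-/

open Complex MeasureTheory Metric Set Filter Topology

namespace Vale.Agent.P142

theorem nhds_le_map_of_injOn {f : ℂ → ℂ} {U : Set ℂ} (hU : IsOpen U)
    (hf : DifferentiableOn ℂ f U) (hi : InjOn f U) {z : ℂ} (hz : z ∈ U) :
    𝓝 (f z) ≤ map f (𝓝 z) := by
  have hUz : U ∈ 𝓝 z := hU.mem_nhds hz
  rcases (hf.analyticAt hUz).eventually_constant_or_nhds_le_map_nhds with h | h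
  · exfalso
    have h1 : ∀ᶠ w in 𝓝 z, w = z := by
      filter_upwards [h, hUz] with w hw hwU
      exact hi hwU hz hw
    have h2 : ∀ᶠ w in 𝓝[≠] z, w = z := h1.filter_mono nhdsWithin_le_nhds
    have h3 : ∀ᶠ w in 𝓝[≠] z, w ≠ z := eventually_mem_nhdsWithin
    obtain ⟨w, hw1, hw2⟩ := (h2.and h3).exists
    exact hw2 hw1
  · exact h

/-- An injective analytic function on an open set has nonvanishing derivative. -/
theorem deriv_ne_zero_of_injOn {f : ℂ → ℂ} {U : Set ℂ} (hU : IsOpen U)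
    (hf : DifferentiableOn ℂ f U) (hi : InjOn f U) {z : ℂ} (hz : z ∈ U) : deriv f z ≠ 0 := by
  classical
  set g : ℂ → ℂ := Function.invFunOn f U with hgdef
  have hg : ∀ w ∈ U, g (f w) = w := fun w hw => hi.leftInvOn_invFunOn hw
  have hmap : ∀ w ∈ U, 𝓝 (f w) ≤ map f (𝓝 w) := fun w hw => nhds_le_map_of_injOn hU hf hi hw
  have hcont : ∀ w ∈ U, ContinuousAt g (f w) := by
    intro w hw
    have h1 : Tendsto (g ∘ f) (𝓝 w) (𝓝 w) := by
      refine Tendsto.congr' ?_ tendsto_id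
      filter_upwards [hU.mem_nhds hw] with x hx
      exact (hg x hx).symm
    have h2 : Tendsto g (map f (𝓝 w)) (𝓝 w) := h1
    rw [ContinuousAt, hg w hw]
    exact h2.mono_left (hmap w hw)
  have hUz : U ∈ 𝓝 z := hU.mem_nhds hz
  have hfa : AnalyticAt ℂ f z := hf.analyticAt hUz
  have hdiff : ∀ w ∈ U, deriv f w ≠ 0 → DifferentiableAt ℂ g (f w) := by
    intro w hw hw0
    have h1 : HasDerivAt f (deriv f w) (g (f w)) := by
      rw [hg w hw]
      exact ((hf w hw).differentiableAt (hU.mem_nhds hw)).hasDerivAt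
    refine (HasDerivAt.of_local_left_inverse (hcont w hw) h1 hw0 ?_).differentiableAt
    have : ∀ᶠ x in 𝓝 w, f (g (f x)) = f x := by
      filter_upwards [hU.mem_nhds hw] with x hx
      rw [hg x hx]
    exact (hmap w hw) this
  -- the derivative does not vanish in a punctured neighbourhood
  have hpunct : ∀ᶠ w in 𝓝[≠] z, deriv f w ≠ 0 := by
    rcases hfa.deriv.eventually_eq_zero_or_eventually_ne_zero with h | h
    · exfalso
      obtain ⟨r, hr, hrU⟩ := Metric.mem_nhds_iff.1 (Filter.inter_mem h hUz)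
      obtain ⟨a, ha⟩ := (isOpen_ball : IsOpen (ball z r)).exists_is_const_of_deriv_eq_zero
        (convex_ball z r).isPreconnected
        (hf.mono fun x hx => (hrU hx).2) (fun x hx => (hrU hx).1)
      have h1 : ∀ᶠ w in 𝓝 z, w = z := by
        filter_upwards [Metric.ball_mem_nhds z hr] with w hw
        exact hi (hrU hw).2 hz (by rw [ha w hw, ha z (Metric.mem_ball_self hr)])
      have h2 : ∀ᶠ w in 𝓝[≠] z, w = z := h1.filter_mono nhdsWithin_le_nhds
      have h3 : ∀ᶠ w in 𝓝[≠] z, w ≠ z := eventually_mem_nhdsWithin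
      obtain ⟨w, hw1, hw2⟩ := (h2.and h3).exists
      exact hw2 hw1
    · exact h
  have hgd : ∀ᶠ y in 𝓝[≠] (f z), DifferentiableAt ℂ g y := by
    rw [eventually_nhdsWithin_iff]
    apply hmap z hz
    show ∀ᶠ x in 𝓝 z, f x ∈ ({f z}ᶜ : Set ℂ) → DifferentiableAt ℂ g (f x)
    rw [eventually_nhdsWithin_iff] at hpunct
    filter_upwards [hpunct, hUz] with x hx hxU hne
    refine hdiff x hxU (hx ?_)
    rintro rfl
    exact hne rfl
  have hga : AnalyticAt ℂ g (f z) :=
    Complex.analyticAt_of_differentiable_on_punctured_nhds_of_continuousAt hgd (hcont z hz)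
  have hcomp : HasDerivAt (g ∘ f) (deriv g (f z) * deriv f z) z :=
    hga.differentiableAt.hasDerivAt.comp z hfa.differentiableAt.hasDerivAt
  have hid : HasDerivAt (g ∘ f) 1 z := by
    refine (hasDerivAt_id z).congr_of_eventuallyEq ?_
    filter_upwards [hUz] with x hx
    exact hg x hx
  have h1 := hcomp.unique hid
  intro h0
  rw [h0, mul_zero] at h1
  exact zero_ne_one h1

/-- A `Good` function is analytic and injective with nonvanishing derivative on a ball of radius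
`> 1`. -/
theorem Good.exR {f : ℂ → ℂ} (hf : Good f) : ∃ R : ℝ, 1 < R ∧ DifferentiableOn ℂ f (ball 0 R) ∧
    InjOn f (ball 0 R) ∧ ∀ z ∈ ball (0 : ℂ) R, deriv f z ≠ 0 := by
  obtain ⟨R, hR, hd, hi⟩ := hf.ex
  exact ⟨R, hR, hd, hi, fun z hz => deriv_ne_zero_of_injOn isOpen_ball hd hi hz⟩

theorem analyticAt_iteratedDeriv {f : ℂ → ℂ} {U : Set ℂ} (hU : IsOpen U)
    (hd : DifferentiableOn ℂ f U) {z : ℂ} (hz : z ∈ U) (k : ℕ) :
    AnalyticAt ℂ (iteratedDeriv k f) z := by
  have h : AnalyticAt ℂ f z := hd.analyticAt (hU.mem_nhds hz)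
  rw [iteratedDeriv_eq_iterate]
  exact h.iterated_deriv k

theorem analyticAt_jetA {f : ℂ → ℂ} {U : Set ℂ} (hU : IsOpen U)
    (hd : DifferentiableOn ℂ f U) {z : ℂ} (hz : z ∈ U) (h0 : deriv f z ≠ 0) (k : ℕ) :
    AnalyticAt ℂ (jetA f k) z := by
  have h1 := analyticAt_iteratedDeriv hU hd hz (k + 1)
  have h2 : AnalyticAt ℂ (deriv f) z := (hd.analyticAt (hU.mem_nhds hz)).deriv
  unfold jetA
  refine h1.div (analyticAt_const.mul h2) ?_
  exact mul_ne_zero (by exact_mod_cast (Nat.factorial_ne_zero _)) h0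

/-- `A_k' = (k+2) A_{k+1} - 2 A_1 A_k` -/
theorem hasDerivAt_jetA {f : ℂ → ℂ} {U : Set ℂ} (hU : IsOpen U)
    (hd : DifferentiableOn ℂ f U) {z : ℂ} (hz : z ∈ U) (h0 : deriv f z ≠ 0) (k : ℕ) :
    HasDerivAt (jetA f k)
      (((k : ℂ) + 2) * jetA f (k + 1) z - 2 * jetA f 1 z * jetA f k z) z := by
  have h1 := (analyticAt_iteratedDeriv hU hd hz (k + 1)).differentiableAt.hasDerivAt
  have h2 : HasDerivAt (deriv f) (iteratedDeriv 2 f z) z := by
    have h3 : AnalyticAt ℂ (deriv f) z := (hd.analyticAt (hU.mem_nhds hz)).deriv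
    have h4 := h3.differentiableAt.hasDerivAt
    rw [show deriv (deriv f) z = iteratedDeriv 2 f z by
      rw [iteratedDeriv_succ, iteratedDeriv_one]] at h4
    exact h4
  have hk : (((k + 1).factorial : ℕ) : ℂ) ≠ 0 := by exact_mod_cast (Nat.factorial_ne_zero _)
  have h5 : deriv (iteratedDeriv (k + 1) f) z = iteratedDeriv (k + 2) f z := by
    rw [← iteratedDeriv_succ]
  rw [h5] at h1
  have h6 := h1.div (h2.const_mul ((k + 1).factorial : ℂ)) (mul_ne_zero hk h0)
  have h7 : (((k + 2).factorial : ℕ) : ℂ) = ((k : ℂ) + 2) * ((k + 1).factorial : ℂ) := by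
    rw [Nat.factorial_succ (k + 1)]
    push_cast
    ring
  have h8 : (((1 + 1 : ℕ).factorial : ℕ) : ℂ) = 2 := by norm_num [Nat.factorial]
  refine h6.congr_deriv ?_
  unfold jetA
  rw [show k + 1 + 1 = k + 2 by ring, h7, h8]
  have hk2 : ((k : ℂ) + 2) ≠ 0 := by
    have : ((k : ℂ) + 2) = (((k + 2 : ℕ)) : ℂ) := by push_cast; ring
    rw [this]
    exact Nat.cast_ne_zero.2 (by omega)
  field_simp
  try ring

theorem continuousAt_jetU {f : ℂ → ℂ} {U : Set ℂ} (hU : IsOpen U)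
    (hd : DifferentiableOn ℂ f U) {z : ℂ} (hz : z ∈ U) (h0 : deriv f z ≠ 0) (k : ℕ) :
    ContinuousAt (fun z => jetU f z k) z := by
  have h1 := (analyticAt_jetA hU hd hz h0 k).continuousAt
  unfold jetU rho
  refine ContinuousAt.mul (ContinuousAt.pow ?_ _) h1
  have : Continuous fun z : ℂ => z * ((1 - ‖z‖ ^ 2 : ℝ) : ℂ) := by fun_prop
  exact this.continuousAt

end Vale.Agent.P142
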