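import Vale.Agent.P142.Inj

/-!
# P142: see `Inj.lean` for `deriv_ne_zero_of_injOn`
-/
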