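import Vale.Agent.P142.Koebe2

/-!
# P142, module S5, part A: upper distortion and growth
-/

open Complex MeasureTheory Metric Set Filter Topology

namespace Vale.Agent.P142

/-- the upper bound for the logarithmic derivative -/
theorem low_log_deriv {f : ℂ → ℂ} (hf : Good f) {e : ℂ} (he : ‖e‖ = 1) {r : ℝ} (h0 : 0 ≤ r)
    (h1 : r < 1) :
    (e * (iteratedDeriv 2 f ((r : ℂ) * e) / deriv f ((r : ℂ) * e))).re ≤ 3 * (1 / (1 - r)) + 1 := by
  have he0 : e ≠ 0 := by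
    rintro rfl
    rw [norm_zero] at he
    exact zero_ne_one he
  have hz : ‖(r : ℂ) * e‖ < 1 := by
    rw [norm_mul, he, mul_one, Complex.norm_real, Real.norm_of_nonneg h0]
    exact h1
  have hzn : ‖(r : ℂ) * e‖ = r := by
    rw [norm_mul, he, mul_one, Complex.norm_real, Real.norm_of_nonneg h0]
  have hy : (r : ℂ) = (starRingEnd ℂ) ((r : ℂ) * e) * e := by
    have h2 : (starRingEnd ℂ) e * e = 1 := by
      rw [mul_comm, Complex.mul_conj, Complex.normSq_eq_norm_sq, he]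
      norm_num
    rw [map_mul, Complex.conj_ofReal, mul_assoc, h2, mul_one]
  obtain ⟨Φ, g1, g2, g3⟩ := koebe_gen hf hy hz he.le he0
  have g4 := coef_one_bound g1 g2 _ g3 (by rw [shiftC_zero, pow_zero, one_mul, jetA_zero hf hz])
  rw [shiftC_one, pow_one, pow_zero, one_mul, jetA_zero hf hz, mul_one] at g4
  have hrho : rho ((r : ℂ) * e) = 1 - r ^ 2 := by rw [rho, hzn]
  have hpos : 0 < 1 - r ^ 2 := by
    have := pow_lt_one₀ h0 h1 (two_ne_zero)
    linarith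
  set D : ℂ := iteratedDeriv 2 f ((r : ℂ) * e) / deriv f ((r : ℂ) * e) with hD
  have e1 : e * (rho ((r : ℂ) * e) : ℂ) * jetA f 1 ((r : ℂ) * e) =
      (((1 - r ^ 2) / 2 : ℝ) : ℂ) * (e * D) := by
    rw [hrho, jetA, hD]
    have h8 : (((1 + 1 : ℕ).factorial : ℕ) : ℂ) = 2 := by norm_num [Nat.factorial]
    rw [h8]
    push_cast
    ring
  rw [e1] at g4
  have g5 : ‖((((1 - r ^ 2) / 2 : ℝ) : ℂ) * (e * D) - (r : ℂ)).re‖ ≤ 2 :=
    (Complex.abs_re_le_norm _).trans g4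
  rw [Complex.sub_re, Complex.re_ofReal_mul, Complex.ofReal_re, Real.norm_eq_abs] at g5
  have g6 := (abs_le.1 g5).2
  have g7 : (1 - r ^ 2) * (e * D).re ≤ 4 + 2 * r := by linarith
  have g8 : 4 + 2 * r ≤ (3 * (1 / (1 - r)) + 1) * (1 - r ^ 2) := by
    have h9 : 0 < 1 - r := by linarith
    have h10 : (3 * (1 / (1 - r)) + 1) * (1 - r ^ 2) = 3 * (1 + r) + (1 - r ^ 2) := by
      field_simp
      ring
    rw [h10]
    nlinarith
  have g9 : (e * D).re * (1 - r ^ 2) ≤ (3 * (1 / (1 - r)) + 1) * (1 - r ^ 2) := by linarith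
  exact le_of_mul_le_mul_right g9 hpos

/-- upper distortion along a ray -/
theorem low_ray {f : ℂ → ℂ} (hf : Good f) {e : ℂ} (he : ‖e‖ = 1) {ρ : ℝ} (h0ρ : 0 ≤ ρ)
    (h1ρ : ρ < 1) : ‖deriv f ((ρ : ℂ) * e)‖ ≤ Real.exp 1 * ((1 - ρ) ^ 3)⁻¹ := by
  obtain ⟨R, hR, hd, hi, hne⟩ := hf.exR
  have hmem : ∀ r : ℝ, 0 ≤ r → r < 1 → (r : ℂ) * e ∈ ball (0 : ℂ) R := by
    intro r h0 h1
    rw [mem_ball_zero_iff, norm_mul, he, mul_one, Complex.norm_real, Real.norm_of_nonneg h0]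
    linarith
  have hF : ∀ r : ℝ, 0 ≤ r → r < 1 →
      HasDerivAt (fun r : ℝ => deriv f ((r : ℂ) * e)) (iteratedDeriv 2 f ((r : ℂ) * e) * e) r := by
    intro r h0 h1
    have h2 : HasDerivAt (deriv f) (iteratedDeriv 2 f ((r : ℂ) * e)) ((r : ℂ) * e) := by
      have h3 : AnalyticAt ℂ (deriv f) ((r : ℂ) * e) :=
        (hd.analyticAt (isOpen_ball.mem_nhds (hmem r h0 h1))).deriv
      have h4 := h3.differentiableAt.hasDerivAt
      rw [show deriv (deriv f) ((r : ℂ) * e) = iteratedDeriv 2 f ((r : ℂ) * e) by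
        rw [iteratedDeriv_succ, iteratedDeriv_one]] at h4
      exact h4
    have h5 : HasDerivAt (fun r : ℝ => (r : ℂ) * e) e r := by
      have := (Complex.ofRealCLM.hasDerivAt (x := r)).mul_const e
      simpa using this
    exact h2.comp r h5
  have hFne : ∀ r : ℝ, 0 ≤ r → r < 1 → deriv f ((r : ℂ) * e) ≠ 0 :=
    fun r h0 h1 => hne _ (hmem r h0 h1)
  have hh : ∀ r : ℝ, 0 ≤ r → r < 1 → HasDerivAt
      (fun r : ℝ => 1 / 2 * Real.log (‖deriv f ((r : ℂ) * e)‖ ^ 2) + 3 * Real.log (1 - r) - r)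
      ((e * (iteratedDeriv 2 f ((r : ℂ) * e) / deriv f ((r : ℂ) * e))).re
        - (3 * (1 / (1 - r)) + 1)) r := by
    intro r h0 h1
    have hn : ‖deriv f ((r : ℂ) * e)‖ ^ 2 ≠ 0 := pow_ne_zero _ (norm_ne_zero_iff.2 (hFne r h0 h1))
    have h2 := ((hF r h0 h1).norm_sq.log hn).const_mul (1 / 2)
    have h1r : (1 : ℝ) - id r ≠ 0 := by
      rw [id]
      linarith
    have h3 : HasDerivAt (fun r : ℝ => Real.log (1 - r)) (-1 / (1 - r)) r :=
      ((hasDerivAt_id r).const_sub 1).log h1r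
    have h5 := (h2.add (h3.const_mul 3)).sub (hasDerivAt_id r)
    refine h5.congr_deriv ?_
    rw [kb_inner _ _ _ (hFne r h0 h1)]
    have h8 := hFne r h0 h1
    generalize (e * (iteratedDeriv 2 f ((r : ℂ) * e) / deriv f ((r : ℂ) * e))).re = X
    generalize ‖deriv f ((r : ℂ) * e)‖ ^ 2 = Y at hn
    have h9 : 1 / 2 * (2 * (Y * X) / Y) = X := by
      field_simp
    rw [h9, neg_div]
    ring
  have hanti : AntitoneOn
      (fun r : ℝ => 1 / 2 * Real.log (‖deriv f ((r : ℂ) * e)‖ ^ 2) + 3 * Real.log (1 - r) - r)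
      (Icc 0 ρ) := by
    refine antitoneOn_of_deriv_nonpos (convex_Icc 0 ρ) ?_ ?_ ?_
    · intro r hr
      exact (hh r hr.1 (hr.2.trans_lt h1ρ)).continuousAt.continuousWithinAt
    · intro r hr
      rw [interior_Icc] at hr
      exact (hh r hr.1.le (hr.2.trans h1ρ)).differentiableAt.differentiableWithinAt
    · intro r hr
      rw [interior_Icc] at hr
      rw [(hh r hr.1.le (hr.2.trans h1ρ)).deriv]
      have := low_log_deriv hf he hr.1.le (hr.2.trans h1ρ)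
      linarith
  have h10 := hanti (left_mem_Icc.2 h0ρ) (right_mem_Icc.2 h0ρ) h0ρ
  simp only [Complex.ofReal_zero, zero_mul, hf.d1, norm_one, one_pow, Real.log_one, mul_zero,
    sub_zero, add_zero] at h10
  rw [Real.log_pow] at h10
  push_cast at h10
  have h12 : 0 < 1 - ρ := by linarith
  have h13 : 0 < ‖deriv f ((ρ : ℂ) * e)‖ := norm_pos_iff.2 (hFne ρ h0ρ h1ρ)
  have h11 : Real.log ‖deriv f ((ρ : ℂ) * e)‖ ≤ 1 - 3 * Real.log (1 - ρ) := by
    linarith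
  have h14 : Real.log ‖deriv f ((ρ : ℂ) * e)‖ ≤ Real.log (Real.exp 1 * ((1 - ρ) ^ 3)⁻¹) := by
    rw [Real.log_mul (Real.exp_pos _).ne' (by positivity), Real.log_exp, Real.log_inv,
      Real.log_pow]
    push_cast
    linarith
  exact (Real.log_le_log_iff h13 (by positivity)).1 h14

/-- growth along a ray -/
theorem low_growth_ray {f : ℂ → ℂ} (hf : Good f) {e : ℂ} (he : ‖e‖ = 1) {ρ : ℝ} (h0ρ : 0 ≤ ρ)
    (h1ρ : ρ < 1) : ‖f ((ρ : ℂ) * e) - f 0‖ ≤ Real.exp 1 / 2 * ((1 - ρ) ^ 2)⁻¹ := by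
  obtain ⟨R, hR, hd, hi, hne⟩ := hf.exR
  have hmem : ∀ r : ℝ, 0 ≤ r → r < 1 → (r : ℂ) * e ∈ ball (0 : ℂ) R := by
    intro r h0 h1
    rw [mem_ball_zero_iff, norm_mul, he, mul_one, Complex.norm_real, Real.norm_of_nonneg h0]
    linarith
  have hF : ∀ r : ℝ, 0 ≤ r → r < 1 →
      HasDerivAt (fun r : ℝ => f ((r : ℂ) * e) - f 0) (deriv f ((r : ℂ) * e) * e) r := by
    intro r h0 h1
    have h2 : HasDerivAt f (deriv f ((r : ℂ) * e)) ((r : ℂ) * e) :=
      (hd.differentiableAt (isOpen_ball.mem_nhds (hmem r h0 h1))).hasDerivAt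
    have h5 : HasDerivAt (fun r : ℝ => (r : ℂ) * e) e r := by
      have := (Complex.ofRealCLM.hasDerivAt (x := r)).mul_const e
      simpa using this
    exact (h2.comp r h5).sub_const _
  have hB : ∀ r : ℝ, r < 1 → HasDerivAt (fun r : ℝ => Real.exp 1 / 2 * ((1 - r) ^ 2)⁻¹)
      (Real.exp 1 * ((1 - r) ^ 3)⁻¹) r := by
    intro r hr
    have h9 : (1 : ℝ) - r ≠ 0 := by linarith
    have h1 : HasDerivAt (fun r : ℝ => (1 - r) ^ 2) (2 * (1 - r) * (-1)) r := by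
      have h := ((hasDerivAt_id r).const_sub 1).fun_pow 2
      refine h.congr_deriv ?_
      simp
    have h2 := (h1.inv (pow_ne_zero 2 h9)).const_mul (Real.exp 1 / 2)
    refine h2.congr_deriv ?_
    field_simp
  have key := image_norm_le_of_norm_deriv_right_le_deriv_boundary' (a := 0) (b := ρ)
    (f := fun r : ℝ => f ((r : ℂ) * e) - f 0) (f' := fun r => deriv f ((r : ℂ) * e) * e)
    (B := fun r : ℝ => Real.exp 1 / 2 * ((1 - r) ^ 2)⁻¹)
    (B' := fun r : ℝ => Real.exp 1 * ((1 - r) ^ 3)⁻¹)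
    (fun r hr => (hF r hr.1 (hr.2.trans_lt h1ρ)).continuousAt.continuousWithinAt)
    (fun r hr => (hF r hr.1 (hr.2.trans h1ρ)).hasDerivWithinAt)
    (by
      simp only [Complex.ofReal_zero, zero_mul, sub_self, norm_zero]
      positivity)
    (fun r hr => (hB r (hr.2.trans_lt h1ρ)).continuousAt.continuousWithinAt)
    (fun r hr => (hB r (hr.2.trans h1ρ)).hasDerivWithinAt)
    (fun r hr => by
      rw [norm_mul, he, mul_one]
      exact low_ray hf he hr.1 (hr.2.trans h1ρ))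
  exact key (right_mem_Icc.2 h0ρ)

/-- the growth bound in the form used below -/
theorem low_growth {f : ℂ → ℂ} (hf : Good f) {z : ℂ} (hz : ‖z‖ < 1) :
    (1 + ‖f z - f 0‖ ^ 2) * rho z ^ 4 ≤ 1 + 4 * Real.exp 1 ^ 2 := by
  obtain ⟨e, he, hze⟩ : ∃ e : ℂ, ‖e‖ = 1 ∧ z = (‖z‖ : ℂ) * e := by
    by_cases hz0 : z = 0
    · exact ⟨1, norm_one, by rw [hz0]; simp⟩
    · refine ⟨z / (‖z‖ : ℂ), ?_, ?_⟩
      · rw [norm_div, Complex.norm_real, norm_norm, div_self (norm_ne_zero_iff.2 hz0)]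
      · rw [mul_div_cancel₀]
        exact Complex.ofReal_ne_zero.2 (norm_ne_zero_iff.2 hz0)
  have h1 := low_growth_ray hf he (norm_nonneg z) hz
  rw [← hze] at h1
  have h2 : 0 < 1 - ‖z‖ := by linarith
  have h3 : ‖f z - f 0‖ * (1 - ‖z‖) ^ 2 ≤ Real.exp 1 / 2 := by
    have h4 := mul_le_mul_of_nonneg_right h1 (sq_nonneg (1 - ‖z‖))
    rwa [mul_assoc, inv_mul_cancel₀ (pow_ne_zero 2 h2.ne'), mul_one] at h4
  have h5 : 0 < rho z := rho_pos hz
  have h6 : rho z ≤ 2 * (1 - ‖z‖) := by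
    unfold rho
    nlinarith [norm_nonneg z]
  have h7 : rho z ≤ 1 := by
    unfold rho
    nlinarith [norm_nonneg z]
  have h8 : ‖f z - f 0‖ * rho z ^ 2 ≤ 2 * Real.exp 1 := by
    calc ‖f z - f 0‖ * rho z ^ 2 ≤ ‖f z - f 0‖ * (2 * (1 - ‖z‖)) ^ 2 := by gcongr
      _ = 4 * (‖f z - f 0‖ * (1 - ‖z‖) ^ 2) := by ring
      _ ≤ 4 * (Real.exp 1 / 2) := by linarith
      _ = 2 * Real.exp 1 := by ring
  have h9 : 0 ≤ ‖f z - f 0‖ * rho z ^ 2 := by positivity
  have h10 : rho z ^ 4 ≤ 1 := pow_le_one₀ h5.le h7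
  calc (1 + ‖f z - f 0‖ ^ 2) * rho z ^ 4 = rho z ^ 4 + (‖f z - f 0‖ * rho z ^ 2) ^ 2 := by ring
    _ ≤ 1 + (2 * Real.exp 1) ^ 2 := by
        have := pow_le_pow_left₀ h9 h8 2
        linarith
    _ = _ := by ring

end Vale.Agent.P142
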