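import Vale.Agent.P142.Defs2
import Vale.Agent.P142.DivCore
import Vale.Agent.P142.Koebe2

/-!
# P142: module S3, the absolute bound from the inequality `(*)`
-/

open Complex MeasureTheory Metric Set Filter Topology

namespace Vale.Agent.P142

theorem one_sub_norm_rpow_int {b : ℝ} (hb : -1 < b) :
    IntegrableOn (fun z : ℂ => (1 - ‖z‖) ^ b) (ball (0 : ℂ) 1) := by
  rw [integrableOn_fun_norm_addHaar (μ := (volume : Measure ℂ)) (f := fun r => (1 - r) ^ b)]
  have h2 : IntegrableOn (fun r : ℝ => (1 - r) ^ b) (Ioo 0 1) := by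
    have h3 : IntervalIntegrable (fun r : ℝ => r ^ b) volume 0 1 :=
      intervalIntegral.intervalIntegrable_rpow' hb
    have h4 := (h3.comp_sub_left 1)
    simp only [sub_zero, sub_self] at h4
    have h5 := h4.symm
    rw [intervalIntegrable_iff_integrableOn_Ioo_of_le zero_le_one] at h5
    exact h5
  apply h2.mono'
  · apply Measurable.aestronglyMeasurable
    fun_prop
  · rw [ae_restrict_iff' measurableSet_Ioo]
    refine Eventually.of_forall fun r hr => ?_
    have hr1 : 0 ≤ 1 - r := by linarith [hr.2]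
    rw [norm_smul, norm_pow, Real.norm_of_nonneg (Real.rpow_nonneg hr1 _),
      Real.norm_of_nonneg hr.1.le]
    apply mul_le_of_le_one_left (Real.rpow_nonneg hr1 _)
    exact pow_le_one₀ hr.1.le hr.2.le

/-- the trivial bound of the weight from the distortion theorem -/
theorem wt_le_dist {t a : ℝ} (ha : 0 ≤ a) (ht : t < 0) {f : ℂ → ℂ} (hf : Good f) {z : ℂ}
    (hz : ‖z‖ < 1) :
    wt t a f z ≤ (Real.exp (-3)) ^ t * 2 ^ a * (1 - ‖z‖) ^ (a + t) := by
  have h1 : 0 < 1 - ‖z‖ := by linarith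
  have h2 := distortion hf hz
  have h3 : 0 < Real.exp (-3) * (1 - ‖z‖) := mul_pos (Real.exp_pos _) h1
  have h4 : ‖deriv f z‖ ^ t ≤ (Real.exp (-3) * (1 - ‖z‖)) ^ t :=
    Real.rpow_le_rpow_of_nonpos h3 h2 ht.le
  have h5 : rho z ≤ 2 * (1 - ‖z‖) := by
    unfold rho
    nlinarith [norm_nonneg z]
  have h6 : rho z ^ a ≤ (2 * (1 - ‖z‖)) ^ a := Real.rpow_le_rpow (rho_pos hz).le h5 ha
  rw [Real.mul_rpow (Real.exp_pos _).le h1.le] at h4
  rw [Real.mul_rpow (by norm_num) h1.le] at h6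
  unfold wt
  calc ‖deriv f z‖ ^ t * rho z ^ a
      ≤ (Real.exp (-3) ^ t * (1 - ‖z‖) ^ t) * (2 ^ a * (1 - ‖z‖) ^ a) := by
        refine mul_le_mul h4 h6 (Real.rpow_nonneg (rho_pos hz).le _) ?_
        exact mul_nonneg (Real.rpow_nonneg (Real.exp_pos _).le _) (Real.rpow_nonneg h1.le _)
    _ = _ := by
        rw [Real.rpow_add h1]
        ring

/-- S3 -/
theorem bound_of_star {t a : ℝ} (ha : 1 < a) (ht : t < 0) (hat : -1 < a + t)
    (h : ∃ C : ℝ, ∀ f, Good f → In t (a - 1) f ≤ C * In t a f) :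
    ∃ C : ℝ, ∀ f, Good f → In t (a - 1) f ≤ C := by
  obtain ⟨C, hC⟩ := h
  have hint := one_sub_norm_rpow_int hat
  refine ⟨|C| * ∫ z in ball (0 : ℂ) 1,
    (Real.exp (-3)) ^ t * 2 ^ a * (1 - ‖z‖) ^ (a + t), fun f hf => ?_⟩
  obtain ⟨R, hR, hd, -, h0⟩ := hf.exR
  have hi2 : IntegrableOn (fun z => wt t a f z) (ball 0 1) := by
    have := integrableOn_mul_wt t a (by linarith) hR hd h0
      (X := fun _ => 1) continuousOn_const
    simpa using this
  have h1 : 0 ≤ In t a f := by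
    unfold In
    exact setIntegral_nonneg measurableSet_ball fun z hz => wt_nonneg t a f hz
  have h2 : In t a f ≤ ∫ z in ball (0 : ℂ) 1,
      (Real.exp (-3)) ^ t * 2 ^ a * (1 - ‖z‖) ^ (a + t) := by
    unfold In
    refine setIntegral_mono_on hi2 (hint.const_mul _) measurableSet_ball fun z hz => ?_
    exact wt_le_dist (by linarith) ht hf (by simpa using hz)
  calc In t (a - 1) f ≤ C * In t a f := hC f hf
    _ ≤ |C| * In t a f := mul_le_mul_of_nonneg_right (le_abs_self C) h1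
    _ ≤ _ := mul_le_mul_of_nonneg_left h2 (abs_nonneg C)

end Vale.Agent.P142
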