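import Vale.Agent.P142.Inj

/-!
# P142: Wirtinger calculus and the integral of a derivative over the disc
-/

open Complex MeasureTheory Metric Set Filter Topology

namespace Vale.Agent.P142

/-- the real-linear map `h ↦ p h + q conj h` -/
noncomputable def wl (p q : ℂ) : ℂ →L[ℝ] ℂ :=
  ContinuousLinearMap.mul ℝ ℂ p + (ContinuousLinearMap.mul ℝ ℂ q).comp (conjCLE : ℂ →L[ℝ] ℂ)

theorem wl_apply (p q h : ℂ) : wl p q h = p * h + q * (starRingEnd ℂ) h := by
  simp [wl]

/-- `G` has Wirtinger derivatives `p`, `q` at every point of `U`, all continuous on `U` -/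
structure NiceOn (G p q : ℂ → ℂ) (U : Set ℂ) : Prop where
  der : ∀ z ∈ U, HasFDerivAt G (wl (p z) (q z)) z
  cp : ContinuousOn p U
  cq : ContinuousOn q U

theorem NiceOn.cont {G p q : ℂ → ℂ} {U : Set ℂ} (h : NiceOn G p q U) : ContinuousOn G U :=
  fun z hz => (h.der z hz).continuousAt.continuousWithinAt

theorem NiceOn.mono {G p q : ℂ → ℂ} {U V : Set ℂ} (h : NiceOn G p q U) (hV : V ⊆ U) :
    NiceOn G p q V :=
  ⟨fun z hz => h.der z (hV hz), h.cp.mono hV, h.cq.mono hV⟩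

theorem NiceOn.mul {G₁ p₁ q₁ G₂ p₂ q₂ : ℂ → ℂ} {U : Set ℂ} (h₁ : NiceOn G₁ p₁ q₁ U)
    (h₂ : NiceOn G₂ p₂ q₂ U) :
    NiceOn (fun z => G₁ z * G₂ z) (fun z => p₁ z * G₂ z + G₁ z * p₂ z)
      (fun z => q₁ z * G₂ z + G₁ z * q₂ z) U := by
  refine ⟨fun z hz => ?_, ?_, ?_⟩
  · have h := (h₁.der z hz).mul (h₂.der z hz)
    refine h.congr_fderiv ?_
    ext1 v
    simp only [_root_.add_apply, _root_.smul_apply, wl_apply,
      smul_eq_mul]
    ring
  · exact (h₁.cp.mul h₂.cont).add (h₁.cont.mul h₂.cp)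
  · exact (h₁.cq.mul h₂.cont).add (h₁.cont.mul h₂.cq)

theorem NiceOn.of_hasDerivAt {G G' : ℂ → ℂ} {U : Set ℂ} (h : ∀ z ∈ U, HasDerivAt G (G' z) z)
    (hc : ContinuousOn G' U) : NiceOn G G' (fun _ => 0) U := by
  refine ⟨fun z hz => ?_, hc, continuousOn_const⟩
  have h1 := (h z hz).hasFDerivAt.restrictScalars ℝ
  refine h1.congr_fderiv ?_
  ext1 v
  simp [wl_apply, mul_comm]

theorem NiceOn.conj {G p q : ℂ → ℂ} {U : Set ℂ} (h : NiceOn G p q U) :
    NiceOn (fun z => (starRingEnd ℂ) (G z)) (fun z => (starRingEnd ℂ) (q z))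
      (fun z => (starRingEnd ℂ) (p z)) U := by
  refine ⟨fun z hz => ?_, ?_, ?_⟩
  · have h1 := (conjCLE : ℂ →L[ℝ] ℂ).hasFDerivAt.comp z (h.der z hz)
    refine h1.congr_fderiv ?_
    ext1 v
    simp only [ContinuousLinearMap.comp_apply, wl_apply]
    simp
    ring
  · exact Complex.continuous_conj.comp_continuousOn h.cq
  · exact Complex.continuous_conj.comp_continuousOn h.cp

/-- a real function with real derivative `2 Re (p h)` -/
def HasR (v : ℂ → ℝ) (p z : ℂ) : Prop :=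
  ∃ L : ℂ →L[ℝ] ℝ, HasFDerivAt v L z ∧ ∀ h, L h = 2 * (p * h).re

theorem HasR.rpow {v : ℂ → ℝ} {p z : ℂ} (h : HasR v p z) (b : ℝ) (hv : v z ≠ 0) :
    HasR (fun w => v w ^ b) ((b * v z ^ (b - 1) : ℝ) * p) z := by
  obtain ⟨L, hL, hp⟩ := h
  refine ⟨_, hL.rpow_const (Or.inl hv), fun h => ?_⟩
  rw [_root_.smul_apply, hp, smul_eq_mul, mul_assoc (((b * v z ^ (b - 1) : ℝ)) : ℂ),
    Complex.re_ofReal_mul]
  ring

theorem HasR.cast {v : ℂ → ℝ} {p z : ℂ} (h : HasR v p z) :
    HasFDerivAt (fun w => (v w : ℂ)) (wl p ((starRingEnd ℂ) p)) z := by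
  obtain ⟨L, hL, hp⟩ := h
  have h1 := (ofRealCLM : ℝ →L[ℝ] ℂ).hasFDerivAt.comp z hL
  refine h1.congr_fderiv ?_
  ext1 v
  rw [ContinuousLinearMap.comp_apply, wl_apply, hp, ofRealCLM_apply, ← map_mul, add_conj]

theorem hasR_rho (z : ℂ) : HasR rho (-(starRingEnd ℂ) z) z := by
  have h1 : HasFDerivAt (fun w : ℂ => ‖w‖ ^ 2) _ z := (hasFDerivAt_id z).norm_sq
  have h2 := h1.const_sub 1
  refine ⟨_, h2, fun h => ?_⟩
  simp only [_root_.neg_apply, _root_.smul_apply,
    ContinuousLinearMap.comp_apply, innerSL_apply_apply, ContinuousLinearMap.id_apply, id]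
  rw [Complex.inner]
  simp
  ring

theorem hasR_normSq {g : ℂ → ℂ} {g' z : ℂ} (h : HasDerivAt g g' z) :
    HasR (fun w => ‖g w‖ ^ 2) ((starRingEnd ℂ) (g z) * g') z := by
  have h1 := (h.hasFDerivAt.restrictScalars ℝ).norm_sq
  refine ⟨_, h1, fun v => ?_⟩
  simp only [_root_.smul_apply, ContinuousLinearMap.comp_apply, innerSL_apply_apply]
  rw [Complex.inner]
  simp
  ring

theorem rho_pos_ball {z : ℂ} (hz : z ∈ ball (0 : ℂ) 1) : 0 < rho z := by
  rw [mem_ball_zero_iff] at hz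
  have h0 := norm_nonneg z
  unfold rho
  nlinarith

theorem rho_le_one (z : ℂ) : rho z ≤ 1 := by
  unfold rho
  have := sq_nonneg ‖z‖
  linarith

theorem continuous_rho : Continuous rho := by
  unfold rho
  fun_prop

/-- the function `rho ^ c` is nice on the open disc -/
theorem niceOn_rho (c : ℝ) : NiceOn (fun z => ((rho z ^ c : ℝ) : ℂ))
    (fun z => ((c * rho z ^ (c - 1) : ℝ) : ℂ) * -(starRingEnd ℂ) z)
    (fun z => (starRingEnd ℂ) (((c * rho z ^ (c - 1) : ℝ) : ℂ) * -(starRingEnd ℂ) z))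
    (ball 0 1) := by
  have hc : ContinuousOn (fun z => ((c * rho z ^ (c - 1) : ℝ) : ℂ) * -(starRingEnd ℂ) z)
      (ball 0 1) := by
    refine ContinuousOn.mul ?_ (Complex.continuous_conj.neg).continuousOn
    refine Complex.continuous_ofReal.comp_continuousOn ?_
    refine continuousOn_const.mul ?_
    exact continuous_rho.continuousOn.rpow_const fun z hz => Or.inl (rho_pos_ball hz).ne'
  refine ⟨fun z hz => ?_, hc, Complex.continuous_conj.comp_continuousOn hc⟩
  exact ((hasR_rho z).rpow c (rho_pos_ball hz).ne').cast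

/-- the function `‖g‖ ^ t` for analytic nonvanishing `g` -/
theorem niceOn_norm_rpow {g g' : ℂ → ℂ} {U : Set ℂ} (hg : ∀ z ∈ U, HasDerivAt g (g' z) z)
    (hg' : ContinuousOn g' U) (h0 : ∀ z ∈ U, g z ≠ 0) (t : ℝ) :
    NiceOn (fun z => ((‖g z‖ ^ t : ℝ) : ℂ))
      (fun z => ((t / 2 * ‖g z‖ ^ t : ℝ) : ℂ) * (g' z / g z))
      (fun z => (starRingEnd ℂ) (((t / 2 * ‖g z‖ ^ t : ℝ) : ℂ) * (g' z / g z))) U := by
  have hgc : ContinuousOn g U := fun z hz => (hg z hz).continuousAt.continuousWithinAt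
  have hc : ContinuousOn (fun z => ((t / 2 * ‖g z‖ ^ t : ℝ) : ℂ) * (g' z / g z)) U := by
    refine ContinuousOn.mul ?_ (hg'.div hgc h0)
    refine Complex.continuous_ofReal.comp_continuousOn ?_
    refine continuousOn_const.mul ?_
    exact hgc.norm.rpow_const fun z hz => Or.inl (norm_ne_zero_iff.2 (h0 z hz))
  refine ⟨fun z hz => ?_, hc, Complex.continuous_conj.comp_continuousOn hc⟩
  have hn : 0 < ‖g z‖ := norm_pos_iff.2 (h0 z hz)
  have h1 := (hasR_normSq (hg z hz)).rpow (t / 2) (by positivity)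
  have h2 : (fun w => (‖g w‖ ^ 2) ^ (t / 2)) = fun w => ‖g w‖ ^ t := by
    funext w
    rw [← Real.rpow_natCast, ← Real.rpow_mul (norm_nonneg _)]
    congr 1
    push_cast
    ring
  rw [h2] at h1
  have h3 : (((t / 2 * (‖g z‖ ^ 2) ^ (t / 2 - 1) : ℝ)) : ℂ) * ((starRingEnd ℂ) (g z) * g' z) =
      ((t / 2 * ‖g z‖ ^ t : ℝ) : ℂ) * (g' z / g z) := by
    have h4 : (‖g z‖ ^ 2) ^ (t / 2 - 1) = ‖g z‖ ^ t / ‖g z‖ ^ 2 := by
      rw [Real.rpow_sub_one (by positivity), ← Real.rpow_natCast ‖g z‖ 2,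
        ← Real.rpow_mul (norm_nonneg _)]
      congr 2
      push_cast
      ring
    have h5 : ((‖g z‖ ^ 2 : ℝ) : ℂ) = (starRingEnd ℂ) (g z) * g z := by
      rw [mul_comm, Complex.mul_conj, Complex.normSq_eq_norm_sq]
    rw [h4, ← mul_div_assoc, Complex.ofReal_div, h5]
    have h6 : (starRingEnd ℂ) (g z) ≠ 0 := by
      rw [Ne, map_eq_zero]
      exact h0 z hz
    have h7 := h0 z hz
    field_simp
  rw [h3] at h1
  exact h1.cast

theorem norm_wl_apply_le (p q v : ℂ) : ‖wl p q v‖ ≤ (‖p‖ + ‖q‖) * ‖v‖ := by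
  rw [wl_apply]
  calc ‖p * v + q * (starRingEnd ℂ) v‖ ≤ ‖p * v‖ + ‖q * (starRingEnd ℂ) v‖ := norm_add_le _ _
    _ = (‖p‖ + ‖q‖) * ‖v‖ := by rw [norm_mul, norm_mul, RCLike.norm_conj]; ring

/-- extension by zero of `H rho^c` has derivative zero at the points of the complement of the
disc -/
theorem hasFDerivAt_zero_of_bound {G : ℂ → ℂ} {M c : ℝ} (hM : 0 ≤ M) (hc : 1 < c)
    (hb : ∀ y ∈ ball (0 : ℂ) 1, ‖G y‖ ≤ M * rho y ^ c) {z : ℂ} (hz : z ∉ ball (0 : ℂ) 1) :
    HasFDerivAt ((ball (0 : ℂ) 1).indicator G) (0 : ℂ →L[ℝ] ℂ) z := by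
  have hz1 : 1 ≤ ‖z‖ := by
    rw [mem_ball_zero_iff, not_lt] at hz
    exact hz
  have hG : ∀ y, ‖(ball (0 : ℂ) 1).indicator G y‖ ≤ M * (2 * ‖y - z‖) ^ c := by
    intro y
    by_cases hy : y ∈ ball (0 : ℂ) 1
    · rw [indicator_of_mem hy]
      refine (hb y hy).trans ?_
      refine mul_le_mul_of_nonneg_left ?_ hM
      refine Real.rpow_le_rpow (rho_pos_ball hy).le ?_ (by linarith)
      have h1 : ‖y‖ < 1 := mem_ball_zero_iff.1 hy
      have h2 : ‖z‖ - ‖y‖ ≤ ‖y - z‖ := by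
        rw [norm_sub_rev]
        exact norm_sub_norm_le z y
      have h3 := norm_nonneg y
      unfold rho
      nlinarith
    · rw [indicator_of_notMem hy, norm_zero]
      positivity
  rw [hasFDerivAt_iff_isLittleO_nhds_zero]
  rw [indicator_of_notMem hz]
  rw [Asymptotics.isLittleO_iff]
  intro ε hε
  have hcont : Continuous fun h : ℂ => M * 2 ^ c * ‖h‖ ^ (c - 1) := by
    refine continuous_const.mul ?_
    exact continuous_norm.rpow_const fun x => Or.inr (by linarith)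
  have h0 : M * 2 ^ c * ‖(0 : ℂ)‖ ^ (c - 1) < ε := by
    rw [norm_zero, Real.zero_rpow (by linarith), mul_zero]
    exact hε
  have hev := hcont.continuousAt.eventually_lt (continuousAt_const (y := ε)) h0
  filter_upwards [hev] with h hh
  simp only [_root_.zero_apply, sub_zero]
  have h1 := hG (z + h)
  rw [add_sub_cancel_left] at h1
  refine h1.trans ?_
  rw [Real.mul_rpow (by norm_num) (norm_nonneg _)]
  have h2 : ‖h‖ ^ c = ‖h‖ ^ (c - 1) * ‖h‖ := by
    have := Real.rpow_add_one' (norm_nonneg h) (y := c - 1) (by linarith)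
    rwa [sub_add_cancel] at this
  rw [h2]
  have h3 := norm_nonneg h
  calc M * (2 ^ c * (‖h‖ ^ (c - 1) * ‖h‖)) = (M * 2 ^ c * ‖h‖ ^ (c - 1)) * ‖h‖ := by ring
    _ ≤ ε * ‖h‖ := mul_le_mul_of_nonneg_right hh.le h3

theorem integrableOn_ball_of_bound {G : ℂ → ℂ} (hG : ContinuousOn G (ball 0 1)) {M : ℝ}
    (hb : ∀ z ∈ ball (0 : ℂ) 1, ‖G z‖ ≤ M) : IntegrableOn G (ball 0 1) := by
  have : IsFiniteMeasure (volume.restrict (ball (0 : ℂ) 1)) :=
    ⟨by rw [Measure.restrict_apply_univ]; exact measure_ball_lt_top⟩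
  exact Integrable.of_bound (hG.aestronglyMeasurable measurableSet_ball) M
    ((ae_restrict_iff' measurableSet_ball).2 (Eventually.of_forall hb))

/-- the integral of a Wirtinger derivative of a function that vanishes on the circle -/
theorem integral_wirt_eq_zero {H pH qH : ℂ → ℂ} {R : ℝ} (hR : 1 < R)
    (hH : NiceOn H pH qH (ball 0 R)) {c : ℝ} (hc : 1 < c) :
    ∫ z in ball (0 : ℂ) 1, (pH z * ((rho z ^ c : ℝ) : ℂ) +
      H z * (((c * rho z ^ (c - 1) : ℝ) : ℂ) * -(starRingEnd ℂ) z)) = 0 := by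
  classical
  have hsub : ball (0 : ℂ) 1 ⊆ ball 0 R := ball_subset_ball hR.le
  have hcb : closedBall (0 : ℂ) 1 ⊆ ball 0 R := closedBall_subset_ball hR
  have hG := (hH.mono hsub).mul (niceOn_rho c)
  set G : ℂ → ℂ := fun z => H z * ((rho z ^ c : ℝ) : ℂ) with hGdef
  set p : ℂ → ℂ := fun z => pH z * ((rho z ^ c : ℝ) : ℂ) +
      H z * (((c * rho z ^ (c - 1) : ℝ) : ℂ) * -(starRingEnd ℂ) z) with hpdef
  set q : ℂ → ℂ := fun z => qH z * ((rho z ^ c : ℝ) : ℂ) +
      H z * (starRingEnd ℂ) (((c * rho z ^ (c - 1) : ℝ) : ℂ) * -(starRingEnd ℂ) z) with hqdef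
  obtain ⟨M₁, hM₁⟩ := (isCompact_closedBall (0 : ℂ) 1).exists_bound_of_continuousOn
    (hH.cont.mono hcb)
  obtain ⟨M₂, hM₂⟩ := (isCompact_closedBall (0 : ℂ) 1).exists_bound_of_continuousOn
    (hH.cp.mono hcb)
  obtain ⟨M₃, hM₃⟩ := (isCompact_closedBall (0 : ℂ) 1).exists_bound_of_continuousOn
    (hH.cq.mono hcb)
  have h0mem : (0 : ℂ) ∈ closedBall (0 : ℂ) 1 := mem_closedBall_self zero_le_one
  have hM₁0 : 0 ≤ M₁ := (norm_nonneg _).trans (hM₁ 0 h0mem)
  have hM₂0 : 0 ≤ M₂ := (norm_nonneg _).trans (hM₂ 0 h0mem)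
  have hM₃0 : 0 ≤ M₃ := (norm_nonneg _).trans (hM₃ 0 h0mem)
  have hbase : ∀ z ∈ ball (0 : ℂ) 1, ∀ b : ℝ, 0 ≤ b → ‖((rho z ^ b : ℝ) : ℂ)‖ ≤ 1 := by
    intro z hz b hb
    rw [Complex.norm_real, Real.norm_eq_abs, abs_of_nonneg (Real.rpow_nonneg (rho_pos_ball hz).le _)]
    exact Real.rpow_le_one (rho_pos_ball hz).le (rho_le_one z) hb
  have hsecond : ∀ z ∈ ball (0 : ℂ) 1,
      ‖((c * rho z ^ (c - 1) : ℝ) : ℂ) * -(starRingEnd ℂ) z‖ ≤ c := by
    intro z hz
    rw [Complex.ofReal_mul, norm_mul, norm_mul, norm_neg, RCLike.norm_conj, Complex.norm_real,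
      Real.norm_eq_abs, abs_of_pos (by linarith : 0 < c)]
    have h1 := hbase z hz (c - 1) (by linarith)
    have h2 : ‖z‖ ≤ 1 := (mem_ball_zero_iff.1 hz).le
    calc c * ‖((rho z ^ (c - 1) : ℝ) : ℂ)‖ * ‖z‖ ≤ c * 1 * 1 := by gcongr
      _ = c := by ring
  have hGb : ∀ z ∈ ball (0 : ℂ) 1, ‖G z‖ ≤ M₁ := by
    intro z hz
    rw [hGdef]
    simp only [norm_mul]
    calc ‖H z‖ * ‖((rho z ^ c : ℝ) : ℂ)‖ ≤ M₁ * 1 := by
          gcongr
          · exact hM₁ z (ball_subset_closedBall hz)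
          · exact hbase z hz c (by linarith)
      _ = M₁ := by ring
  have hpb : ∀ z ∈ ball (0 : ℂ) 1, ‖p z‖ ≤ M₂ + M₁ * c := by
    intro z hz
    rw [hpdef]
    refine (norm_add_le _ _).trans ?_
    rw [norm_mul, norm_mul]
    calc ‖pH z‖ * ‖((rho z ^ c : ℝ) : ℂ)‖ +
          ‖H z‖ * ‖((c * rho z ^ (c - 1) : ℝ) : ℂ) * -(starRingEnd ℂ) z‖
        ≤ M₂ * 1 + M₁ * c := by
          gcongr
          · exact hM₂ z (ball_subset_closedBall hz)
          · exact hbase z hz c (by linarith)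
          · exact hM₁ z (ball_subset_closedBall hz)
          · exact hsecond z hz
      _ = M₂ + M₁ * c := by ring
  have hqb : ∀ z ∈ ball (0 : ℂ) 1, ‖q z‖ ≤ M₃ + M₁ * c := by
    intro z hz
    rw [hqdef]
    refine (norm_add_le _ _).trans ?_
    rw [norm_mul, norm_mul, RCLike.norm_conj]
    calc ‖qH z‖ * ‖((rho z ^ c : ℝ) : ℂ)‖ +
          ‖H z‖ * ‖((c * rho z ^ (c - 1) : ℝ) : ℂ) * -(starRingEnd ℂ) z‖
        ≤ M₃ * 1 + M₁ * c := by
          gcongr
          · exact hM₃ z (ball_subset_closedBall hz)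
          · exact hbase z hz c (by linarith)
          · exact hM₁ z (ball_subset_closedBall hz)
          · exact hsecond z hz
      _ = M₃ + M₁ * c := by ring
  have hintG : IntegrableOn G (ball 0 1) := integrableOn_ball_of_bound hG.cont hGb
  have hintp : IntegrableOn p (ball 0 1) := integrableOn_ball_of_bound hG.cp hpb
  have hintq : IntegrableOn q (ball 0 1) := integrableOn_ball_of_bound hG.cq hqb
  -- the global function
  have hder : ∀ z, HasFDerivAt ((ball (0 : ℂ) 1).indicator G)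
      ((ball (0 : ℂ) 1).indicator (fun z => wl (p z) (q z)) z) z := by
    intro z
    by_cases hz : z ∈ ball (0 : ℂ) 1
    · rw [indicator_of_mem hz]
      refine (hG.der z hz).congr_of_eventuallyEq ?_
      filter_upwards [isOpen_ball.mem_nhds hz] with w hw
      rw [indicator_of_mem hw]
    · rw [indicator_of_notMem hz]
      refine hasFDerivAt_zero_of_bound hM₁0 hc (fun y hy => ?_) hz
      rw [hGdef]
      simp only [norm_mul]
      rw [Complex.norm_real, Real.norm_eq_abs,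
        abs_of_nonneg (Real.rpow_nonneg (rho_pos_ball hy).le _)]
      refine mul_le_mul_of_nonneg_right (hM₁ y (ball_subset_closedBall hy)) ?_
      exact Real.rpow_nonneg (rho_pos_ball hy).le _
  have key : ∀ v : ℂ, ∫ z in ball (0 : ℂ) 1, wl (p z) (q z) v = 0 := by
    intro v
    have hval : ∀ z, (ball (0 : ℂ) 1).indicator (fun z => wl (p z) (q z)) z v =
        (ball (0 : ℂ) 1).indicator (fun z => wl (p z) (q z) v) z := by
      intro z
      by_cases hz : z ∈ ball (0 : ℂ) 1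
      · rw [indicator_of_mem hz, indicator_of_mem hz]
      · rw [indicator_of_notMem hz, indicator_of_notMem hz]
        rfl
    have hint : Integrable (fun z => (ball (0 : ℂ) 1).indicator
        (fun z => wl (p z) (q z) v) z) := by
      rw [integrable_indicator_iff measurableSet_ball]
      simp only [wl_apply]
      exact (hintp.mul_const v).add (hintq.mul_const _)
    have h1 := integral_bilinear_hasFDerivAt_right_eq_neg_left_of_integrable
      (μ := (volume : Measure ℂ)) (f := (ball (0 : ℂ) 1).indicator G)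
      (f' := fun z => (ball (0 : ℂ) 1).indicator (fun z => wl (p z) (q z)) z)
      (g := fun _ : ℂ => (1 : ℂ)) (g' := fun _ => (0 : ℂ →L[ℝ] ℂ)) (v := v)
      (B := ContinuousLinearMap.mul ℝ ℂ)
      (by simpa only [hval, ContinuousLinearMap.mul_apply', mul_one] using hint)
      (by simp)
      (by
        simp only [ContinuousLinearMap.mul_apply', mul_one]
        exact (integrable_indicator_iff measurableSet_ball).2 hintG)
      (fun z _ => hder z)
      (fun z _ => hasFDerivAt_const _ _)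
    simp only [ContinuousLinearMap.mul_apply', mul_one, hval, _root_.zero_apply,
      mul_zero, integral_zero] at h1
    rw [integral_indicator measurableSet_ball] at h1
    exact (neg_eq_zero.1 h1.symm)
  have k1 := key 1
  have k2 := key I
  simp only [wl_apply, map_one, mul_one, Complex.conj_I] at k1 k2
  have k3 : ∫ z in ball (0 : ℂ) 1, (p z - q z) = 0 := by
    have h1 : ∀ z, p z * I + q z * -I = I * (p z - q z) := fun z => by ring
    simp only [h1] at k2
    rw [integral_const_mul] at k2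
    exact (mul_eq_zero.1 k2).resolve_left Complex.I_ne_zero
  rw [integral_add hintp hintq] at k1
  rw [integral_sub hintp hintq] at k3
  have h2 : (2 : ℂ) * ∫ z in ball (0 : ℂ) 1, p z = 0 := by linear_combination k1 + k3
  exact (mul_eq_zero.1 h2).resolve_left two_ne_zero

end Vale.Agent.P142
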