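import Vale.Agent.P142.LowA
import Vale.Agent.P142.Star2
import Vale.Agent.P142.Wirt

/-!
# P142, module S5, part B: `∫ |f|^q rho^η` is bounded for `q < 1`
-/

open Complex MeasureTheory Metric Set Filter Topology

namespace Vale.Agent.P142

/-- `1 + |f - f(0)|^2` -/
noncomputable def lowY (f : ℂ → ℂ) (z : ℂ) : ℝ := 1 + ‖f z - f 0‖ ^ 2

theorem lowY_one_le (f : ℂ → ℂ) (z : ℂ) : 1 ≤ lowY f z := by
  unfold lowY
  have := sq_nonneg ‖f z - f 0‖
  linarith

theorem lowY_pos (f : ℂ → ℂ) (z : ℂ) : 0 < lowY f z := by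
  have := lowY_one_le f z
  linarith

theorem low_Ypow {Y M r : ℝ} (hY : 0 ≤ Y) (hr : 0 < r) (hM : Y * r ^ 4 ≤ M) {s : ℝ}
    (hs : 0 ≤ s) : Y ^ s ≤ M ^ s * r ^ (-(4 * s)) := by
  have h1 : (Y * r ^ 4) ^ s ≤ M ^ s := Real.rpow_le_rpow (by positivity) hM hs
  have h2 : (Y * r ^ 4) ^ s = Y ^ s * r ^ (4 * s) := by
    rw [Real.mul_rpow hY (by positivity), ← Real.rpow_natCast, ← Real.rpow_mul hr.le]
    norm_num
  rw [h2] at h1
  have h3 : 0 < r ^ (-(4 * s)) := Real.rpow_pos_of_pos hr _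
  have h4 := mul_le_mul_of_nonneg_right h1 h3.le
  rw [mul_assoc, ← Real.rpow_add hr, add_neg_cancel, Real.rpow_zero, mul_one] at h4
  exact h4

theorem low_young {Y M r X c q b T : ℝ} (hY : 1 ≤ Y) (hr0 : 0 < r) (hr1 : r ≤ 1)
    (hM : Y * r ^ 4 ≤ M) (hc : 1 < c) (hq0 : 0 < q) (hq1 : q < 1) (hb1 : 1 < b)
    (hb2 : b ≤ (3 - q) / 2) (_hX : 0 ≤ X) (hT : T ≤ q / 2 * Y ^ (q / 2 - 1 / 2) * X) :
    T * r ^ c ≤ M ^ (q / 2 - 1 + b) * (X ^ 2 * Y ^ (-b)) + c / 2 * (r ^ (c - 1) * Y ^ (q / 2)) := by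
  have hY0 : 0 < Y := by linarith
  have hM0 : 0 < M := lt_of_lt_of_le (by positivity) hM
  set K : ℝ := M ^ (q / 2 - 1 + b) with hK
  have hK0 : 0 < K := Real.rpow_pos_of_pos hM0 _
  set u : ℝ := X * Y ^ (-(b / 2)) with hu
  set v : ℝ := q / 2 * Y ^ ((q - 1) / 2 + b / 2) * r ^ c with hv
  have huv : T * r ^ c ≤ u * v := by
    have h1 : Y ^ (-(b / 2)) * Y ^ ((q - 1) / 2 + b / 2) = Y ^ (q / 2 - 1 / 2) := by
      rw [← Real.rpow_add hY0]
      congr 1
      ring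
    calc T * r ^ c ≤ q / 2 * Y ^ (q / 2 - 1 / 2) * X * r ^ c :=
          mul_le_mul_of_nonneg_right hT (by positivity)
      _ = u * v := by
        rw [hu, hv, ← h1]
        ring
  have hu2 : u ^ 2 = X ^ 2 * Y ^ (-b) := by
    rw [hu, mul_pow, ← Real.rpow_natCast (Y ^ (-(b / 2))), ← Real.rpow_mul hY0.le]
    congr 2
    push_cast
    ring
  have hv2 : v ^ 2 = q ^ 2 / 4 * (Y ^ (q / 2) * Y ^ (q / 2 - 1 + b)) * r ^ (2 * c) := by
    rw [hv, mul_pow, mul_pow, ← Real.rpow_natCast (Y ^ _), ← Real.rpow_mul hY0.le,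
      ← Real.rpow_natCast (r ^ c), ← Real.rpow_mul hr0.le, ← Real.rpow_add hY0]
    have e1 : ((q - 1) / 2 + b / 2) * ((2 : ℕ) : ℝ) = q / 2 + (q / 2 - 1 + b) := by
      push_cast
      ring
    have e2 : c * ((2 : ℕ) : ℝ) = 2 * c := by
      push_cast
      ring
    rw [e1, e2]
    ring
  have hYp := low_Ypow hY0.le hr0 hM (s := q / 2 - 1 + b) (by linarith)
  have hr2 : r ^ (-(4 * (q / 2 - 1 + b))) * r ^ (2 * c) ≤ r ^ (c - 1) := by
    rw [← Real.rpow_add hr0]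
    exact Real.rpow_le_rpow_of_exponent_ge hr0 hr1 (by linarith)
  have hW : v ^ 2 ≤ K * (q ^ 2 / 4 * (r ^ (c - 1) * Y ^ (q / 2))) := by
    rw [hv2]
    calc q ^ 2 / 4 * (Y ^ (q / 2) * Y ^ (q / 2 - 1 + b)) * r ^ (2 * c)
        ≤ q ^ 2 / 4 * (Y ^ (q / 2) * (K * r ^ (-(4 * (q / 2 - 1 + b))))) * r ^ (2 * c) := by
          gcongr
      _ = q ^ 2 / 4 * Y ^ (q / 2) * K * (r ^ (-(4 * (q / 2 - 1 + b))) * r ^ (2 * c)) := by ring
      _ ≤ q ^ 2 / 4 * Y ^ (q / 2) * K * r ^ (c - 1) := by gcongr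
      _ = _ := by ring
  have hP : 0 ≤ r ^ (c - 1) * Y ^ (q / 2) := by positivity
  have hW2 : K * (q ^ 2 / 4 * (r ^ (c - 1) * Y ^ (q / 2))) ≤
      K * (2 * c * (r ^ (c - 1) * Y ^ (q / 2))) := by
    refine mul_le_mul_of_nonneg_left ?_ hK0.le
    refine mul_le_mul_of_nonneg_right ?_ hP
    nlinarith
  have h5 : 4 * K * (u * v) ≤ 4 * K * (K * u ^ 2 + c / 2 * (r ^ (c - 1) * Y ^ (q / 2))) := by
    nlinarith [sq_nonneg (2 * K * u - v)]
  have h6 := le_of_mul_le_mul_left h5 (by positivity)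
  rw [← hu2]
  linarith

/-- the Wirtinger derivative of `(1+|g|^2)^s` -/
theorem niceOn_low {g g' : ℂ → ℂ} {U : Set ℂ} (hg : ∀ z ∈ U, HasDerivAt g (g' z) z)
    (hg' : ContinuousOn g' U) (s : ℝ) :
    NiceOn (fun z => (((1 + ‖g z‖ ^ 2) ^ s : ℝ) : ℂ))
      (fun z => ((s * (1 + ‖g z‖ ^ 2) ^ (s - 1) : ℝ) : ℂ) * ((starRingEnd ℂ) (g z) * g' z))
      (fun z => (starRingEnd ℂ)
        (((s * (1 + ‖g z‖ ^ 2) ^ (s - 1) : ℝ) : ℂ) * ((starRingEnd ℂ) (g z) * g' z))) U := by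
  have hgc : ContinuousOn g U := fun z hz => (hg z hz).continuousAt.continuousWithinAt
  have hpos : ∀ z : ℂ, 1 + ‖g z‖ ^ 2 ≠ 0 := fun z => by positivity
  have hc : ContinuousOn (fun z => ((s * (1 + ‖g z‖ ^ 2) ^ (s - 1) : ℝ) : ℂ) *
      ((starRingEnd ℂ) (g z) * g' z)) U := by
    refine ContinuousOn.mul ?_ ((Complex.continuous_conj.comp_continuousOn hgc).mul hg')
    refine Complex.continuous_ofReal.comp_continuousOn ?_
    refine continuousOn_const.mul ?_
    exact (continuousOn_const.add (hgc.norm.pow 2)).rpow_const fun z _ => Or.inl (hpos z)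
  refine ⟨fun z hz => ?_, hc, Complex.continuous_conj.comp_continuousOn hc⟩
  have h0 : HasR (fun w => 1 + ‖g w‖ ^ 2) ((starRingEnd ℂ) (g z) * g' z) z := by
    obtain ⟨L, hL, hp⟩ := hasR_normSq (hg z hz)
    exact ⟨L, hL.const_add 1, hp⟩
  exact (h0.rpow s (hpos z)).cast

theorem low_det (c : ℂ) :
    (((ContinuousLinearMap.toSpanSingleton ℂ c : ℂ →L[ℂ] ℂ)).restrictScalars ℝ).det
      = ‖c‖ ^ 2 := by
  simp [ContinuousLinearMap.det, LinearMap.det_restrictScalars,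
      Algebra.norm_complex_eq, Complex.normSq_eq_norm_sq]

/-- the area integral of the image -/
theorem low_image {b : ℝ} (hb : 1 < b) : ∃ A : ℝ, ∀ f, Good f →
    IntegrableOn (fun z => ‖deriv f z‖ ^ 2 * lowY f z ^ (-b)) (ball (0 : ℂ) 1) ∧
    ∫ z in ball (0 : ℂ) 1, ‖deriv f z‖ ^ 2 * lowY f z ^ (-b) ≤ A := by
  refine ⟨∫ w : ℂ, (1 + ‖w‖ ^ 2) ^ (-b), fun f hf => ?_⟩
  obtain ⟨R, hR, hd, hi, hne⟩ := hf.exR
  have hsub : ball (0 : ℂ) 1 ⊆ ball 0 R := ball_subset_ball hR.le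
  have hcb : closedBall (0 : ℂ) 1 ⊆ ball 0 R := closedBall_subset_ball hR
  have hcd : ContinuousOn (deriv f) (ball 0 R) := (hd.deriv isOpen_ball).continuousOn
  have hint : Integrable (fun w : ℂ => (1 + ‖w‖ ^ 2) ^ (-b)) := by
    have h := integrable_rpow_neg_one_add_norm_sq (E := ℂ) (μ := volume) (r := 2 * b) (by
      rw [Complex.finrank_real_complex]
      push_cast
      linarith)
    have e : -(2 * b) / 2 = -b := by ring
    rw [e] at h
    exact h
  constructor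
  · have hc : ContinuousOn (fun z => ‖deriv f z‖ ^ 2 * lowY f z ^ (-b)) (closedBall 0 1) := by
      refine ContinuousOn.mul ((hcd.mono hcb).norm.pow 2) ?_
      refine ContinuousOn.rpow_const ?_ fun z _ => Or.inl (lowY_pos f z).ne'
      unfold lowY
      exact continuousOn_const.add (((hd.continuousOn.mono hcb).sub continuousOn_const).norm.pow 2)
    exact (hc.integrableOn_compact (isCompact_closedBall 0 1)).mono_set ball_subset_closedBall
  · have hder : ∀ z ∈ ball (0 : ℂ) 1, HasFDerivWithinAt (fun z => f z - f 0)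
        ((ContinuousLinearMap.toSpanSingleton ℂ (deriv f z) : ℂ →L[ℂ] ℂ).restrictScalars ℝ)
        (ball 0 1) z := by
      intro z hz
      have h := ((hd.differentiableAt (isOpen_ball.mem_nhds (hsub hz))).hasDerivAt).sub_const (f 0)
      exact (h.hasFDerivAt.restrictScalars ℝ).hasFDerivWithinAt
    have hinj : InjOn (fun z => f z - f 0) (ball 0 1) := by
      intro z hz w hw h
      exact hi (hsub hz) (hsub hw) (sub_left_inj.1 h)
    have hcv := integral_image_eq_integral_abs_det_fderiv_smul volume measurableSet_ball hder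
      hinj (fun w : ℂ => (1 + ‖w‖ ^ 2) ^ (-b))
    have h2 : ∫ z in ball (0 : ℂ) 1, ‖deriv f z‖ ^ 2 * lowY f z ^ (-b) =
        ∫ w in (fun z => f z - f 0) '' ball 0 1, (1 + ‖w‖ ^ 2) ^ (-b) := by
      rw [hcv]
      apply setIntegral_congr_fun measurableSet_ball
      intro z _
      simp only
      rw [low_det, abs_of_nonneg (by positivity), smul_eq_mul]
      rfl
    rw [h2]
    exact setIntegral_le_integral hint (Eventually.of_forall fun w => by positivity)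

/-- the main bound of part B -/
theorem low_main {q c : ℝ} (hq0 : 0 < q) (hq1 : q < 1) (hc : 1 < c) : ∃ C : ℝ, ∀ f, Good f →
    IntegrableOn (fun z => rho z ^ (c - 1) * lowY f z ^ (q / 2)) (ball (0 : ℂ) 1) ∧
    ∫ z in ball (0 : ℂ) 1, rho z ^ (c - 1) * lowY f z ^ (q / 2) ≤ C := by
  obtain ⟨b, hb1, hb2⟩ : ∃ b : ℝ, 1 < b ∧ b ≤ (3 - q) / 2 := ⟨(3 - q) / 2, by linarith, le_refl _⟩
  obtain ⟨A, hA⟩ := low_image hb1
  set M : ℝ := 1 + 4 * Real.exp 1 ^ 2 with hM
  have hM0 : 0 < M := by positivity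
  have hi1 := one_sub_norm_rpow_int (b := -q) (by linarith)
  refine ⟨2 / c * ((1 + c) * M ^ (q / 2) * ∫ z in ball (0 : ℂ) 1, (1 - ‖z‖) ^ (-q)) +
    2 / c * (M ^ (q / 2 - 1 + b) * A), fun f hf => ?_⟩
  obtain ⟨hAi, hAb⟩ := hA f hf
  obtain ⟨R, hR, hd, hi, hne⟩ := hf.exR
  have hsub : ball (0 : ℂ) 1 ⊆ ball 0 R := ball_subset_ball hR.le
  have hcb : closedBall (0 : ℂ) 1 ⊆ ball 0 R := closedBall_subset_ball hR
  have hcd : ContinuousOn (deriv f) (ball 0 R) := (hd.deriv isOpen_ball).continuousOn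
  have hYc : ContinuousOn (lowY f) (ball 0 R) := by
    unfold lowY
    exact continuousOn_const.add ((hd.continuousOn.sub continuousOn_const).norm.pow 2)
  have hYpc : ∀ s : ℝ, ContinuousOn (fun z => lowY f z ^ s) (ball 0 R) := fun s =>
    hYc.rpow_const fun z _ => Or.inl (lowY_pos f z).ne'
  have hrc : ∀ s : ℝ, 0 ≤ s → Continuous (fun z : ℂ => rho z ^ s) := fun s hs =>
    continuous_rho.rpow_const fun z => Or.inr hs
  have hders : ∀ z ∈ ball (0 : ℂ) R, HasDerivAt (fun z => f z - f 0) (deriv f z) z :=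
    fun z hz => ((hd.differentiableAt (isOpen_ball.mem_nhds hz)).hasDerivAt).sub_const (f 0)
  have hG := niceOn_low hders hcd (q / 2)
  have hz : NiceOn (fun z : ℂ => z) (fun _ => 1) (fun _ => 0) (ball 0 R) :=
    NiceOn.of_hasDerivAt (fun z _ => hasDerivAt_id z) continuousOn_const
  have hH := hz.mul hG
  have hid := integral_wirt_eq_zero hR hH hc
  -- the real part
  set T : ℂ → ℝ := fun z => (z * (((q / 2 * lowY f z ^ (q / 2 - 1) : ℝ) : ℂ) *
    ((starRingEnd ℂ) (f z - f 0) * deriv f z))).re with hT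
  have hTc : ContinuousOn T (ball 0 R) := by
    refine Complex.continuous_re.comp_continuousOn ?_
    refine continuousOn_id.mul ?_
    refine ContinuousOn.mul ?_ ?_
    · exact Complex.continuous_ofReal.comp_continuousOn (continuousOn_const.mul (hYpc _))
    · exact (Complex.continuous_conj.comp_continuousOn (hd.continuousOn.sub continuousOn_const)).mul
        hcd
  set E : ℂ → ℝ := fun z => lowY f z ^ (q / 2) * rho z ^ c + T z * rho z ^ c -
    c * ‖z‖ ^ 2 * rho z ^ (c - 1) * lowY f z ^ (q / 2) with hE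
  have hEint : ∫ z in ball (0 : ℂ) 1, E z = 0 := by
    have h1 : ∀ z : ℂ, ((1 * (((1 + ‖f z - f 0‖ ^ 2) ^ (q / 2) : ℝ) : ℂ) +
          z * (((q / 2 * (1 + ‖f z - f 0‖ ^ 2) ^ (q / 2 - 1) : ℝ) : ℂ) *
            ((starRingEnd ℂ) (f z - f 0) * deriv f z))) * ((rho z ^ c : ℝ) : ℂ) +
        z * (((1 + ‖f z - f 0‖ ^ 2) ^ (q / 2) : ℝ) : ℂ) *
          (((c * rho z ^ (c - 1) : ℝ) : ℂ) * -(starRingEnd ℂ) z)).re = E z := by
      intro z
      rw [Complex.add_re, mul_comm (_ + _) ((rho z ^ c : ℝ) : ℂ), Complex.re_ofReal_mul,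
        Complex.add_re, one_mul, Complex.ofReal_re]
      have e2 : z * (((1 + ‖f z - f 0‖ ^ 2) ^ (q / 2) : ℝ) : ℂ) *
          (((c * rho z ^ (c - 1) : ℝ) : ℂ) * -(starRingEnd ℂ) z) =
          ((-((1 + ‖f z - f 0‖ ^ 2) ^ (q / 2) * (c * rho z ^ (c - 1)) * ‖z‖ ^ 2) : ℝ) : ℂ) := by
        have h7 : ((‖z‖ ^ 2 : ℝ) : ℂ) = z * (starRingEnd ℂ) z := by
          rw [Complex.mul_conj, Complex.normSq_eq_norm_sq]
        rw [Complex.ofReal_neg]
        simp only [Complex.ofReal_mul, h7]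
        ring
      rw [e2, Complex.ofReal_re, hE, hT]
      simp only [lowY]
      ring
    have h2 : IntegrableOn (fun z : ℂ => ((1 * (((1 + ‖f z - f 0‖ ^ 2) ^ (q / 2) : ℝ) : ℂ) +
          z * (((q / 2 * (1 + ‖f z - f 0‖ ^ 2) ^ (q / 2 - 1) : ℝ) : ℂ) *
            ((starRingEnd ℂ) (f z - f 0) * deriv f z))) * ((rho z ^ c : ℝ) : ℂ) +
        z * (((1 + ‖f z - f 0‖ ^ 2) ^ (q / 2) : ℝ) : ℂ) *
          (((c * rho z ^ (c - 1) : ℝ) : ℂ) * -(starRingEnd ℂ) z))) (ball 0 1) := by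
      have h3 : ContinuousOn (fun z : ℂ => ((1 * (((1 + ‖f z - f 0‖ ^ 2) ^ (q / 2) : ℝ) : ℂ) +
          z * (((q / 2 * (1 + ‖f z - f 0‖ ^ 2) ^ (q / 2 - 1) : ℝ) : ℂ) *
            ((starRingEnd ℂ) (f z - f 0) * deriv f z))) * ((rho z ^ c : ℝ) : ℂ) +
        z * (((1 + ‖f z - f 0‖ ^ 2) ^ (q / 2) : ℝ) : ℂ) *
          (((c * rho z ^ (c - 1) : ℝ) : ℂ) * -(starRingEnd ℂ) z))) (closedBall 0 1) := by
        refine ContinuousOn.add (ContinuousOn.mul (hH.cp.mono hcb) ?_)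
          (ContinuousOn.mul (hH.cont.mono hcb) ?_)
        · exact (Complex.continuous_ofReal.comp (hrc c (by linarith))).continuousOn
        · refine ContinuousOn.mul ?_ (Complex.continuous_conj.neg).continuousOn
          exact (Complex.continuous_ofReal.comp
            (continuous_const.mul (hrc (c - 1) (by linarith)))).continuousOn
      exact (h3.integrableOn_compact (isCompact_closedBall 0 1)).mono_set ball_subset_closedBall
    have h4 := integral_re (𝕜 := ℂ) h2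
    simp only [RCLike.re_eq_complex_re] at h4
    rw [hid] at h4
    simp only [h1] at h4
    rw [h4]
    rfl
  have hEc : ContinuousOn E (closedBall 0 1) := by
    refine ContinuousOn.sub (ContinuousOn.add ?_ ?_) ?_
    · exact ((hYpc _).mono hcb).mul (hrc c (by linarith)).continuousOn
    · exact (hTc.mono hcb).mul (hrc c (by linarith)).continuousOn
    · refine ContinuousOn.mul (ContinuousOn.mul ?_ ?_) ((hYpc _).mono hcb)
      · exact (continuous_const.mul (continuous_norm.pow 2)).continuousOn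
      · exact (hrc (c - 1) (by linarith)).continuousOn
  have hEi : IntegrableOn E (ball 0 1) :=
    (hEc.integrableOn_compact (isCompact_closedBall 0 1)).mono_set ball_subset_closedBall
  have hXi : IntegrableOn (fun z => rho z ^ (c - 1) * lowY f z ^ (q / 2)) (ball 0 1) := by
    have h3 : ContinuousOn (fun z => rho z ^ (c - 1) * lowY f z ^ (q / 2)) (closedBall 0 1) :=
      (hrc (c - 1) (by linarith)).continuousOn.mul ((hYpc _).mono hcb)
    exact (h3.integrableOn_compact (isCompact_closedBall 0 1)).mono_set ball_subset_closedBall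
  have hpt : ∀ z ∈ ball (0 : ℂ) 1, rho z ^ (c - 1) * lowY f z ^ (q / 2) ≤
      2 / c * (-E z) + 2 / c * ((1 + c) * M ^ (q / 2) * (1 - ‖z‖) ^ (-q)) +
        2 / c * (M ^ (q / 2 - 1 + b) * (‖deriv f z‖ ^ 2 * lowY f z ^ (-b))) := by
    intro z hz
    have hzn : ‖z‖ < 1 := mem_ball_zero_iff.1 hz
    have hr0 : 0 < rho z := rho_pos hzn
    have hr1 : rho z ≤ 1 := rho_le_one z
    have hYr : lowY f z * rho z ^ 4 ≤ M := low_growth hf hzn
    have hTb : T z ≤ q / 2 * lowY f z ^ (q / 2 - 1 / 2) * ‖deriv f z‖ := by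
      refine (Complex.re_le_norm _).trans ?_
      rw [norm_mul, norm_mul, norm_mul, RCLike.norm_conj, Complex.norm_real,
        Real.norm_of_nonneg (by have := lowY_pos f z; positivity)]
      have h1 : ‖f z - f 0‖ ≤ lowY f z ^ (1 / 2 : ℝ) := by
        rw [← Real.sqrt_eq_rpow]
        apply Real.le_sqrt_of_sq_le
        unfold lowY
        linarith
      have h2 : lowY f z ^ (q / 2 - 1) * lowY f z ^ (1 / 2 : ℝ) = lowY f z ^ (q / 2 - 1 / 2) := by
        rw [← Real.rpow_add (lowY_pos f z)]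
        congr 1
        ring
      have h3 : 0 ≤ lowY f z ^ (q / 2 - 1) := Real.rpow_nonneg (lowY_pos f z).le _
      calc ‖z‖ * (q / 2 * lowY f z ^ (q / 2 - 1) * (‖f z - f 0‖ * ‖deriv f z‖))
          ≤ 1 * (q / 2 * lowY f z ^ (q / 2 - 1) * (lowY f z ^ (1 / 2 : ℝ) * ‖deriv f z‖)) := by
            gcongr
        _ = q / 2 * (lowY f z ^ (q / 2 - 1) * lowY f z ^ (1 / 2 : ℝ)) * ‖deriv f z‖ := by ring
        _ = _ := by rw [h2]
    have hyoung := low_young (lowY_one_le f z) hr0 hr1 hYr hc hq0 hq1 hb1 hb2 (norm_nonneg _) hTb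
    have hgr : rho z ^ c * lowY f z ^ (q / 2) ≤ M ^ (q / 2) * (1 - ‖z‖) ^ (-q) := by
      have h1 := low_Ypow (lowY_pos f z).le hr0 hYr (s := q / 2) (by linarith)
      have h2 : rho z ^ c * rho z ^ (-(4 * (q / 2))) ≤ rho z ^ (-q) := by
        rw [← Real.rpow_add hr0]
        exact Real.rpow_le_rpow_of_exponent_ge hr0 hr1 (by linarith)
      have h3 : rho z ^ (-q) ≤ (1 - ‖z‖) ^ (-q) := by
        refine Real.rpow_le_rpow_of_nonpos (by linarith) ?_ (by linarith)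
        unfold rho
        nlinarith [norm_nonneg z]
      calc rho z ^ c * lowY f z ^ (q / 2)
          ≤ rho z ^ c * (M ^ (q / 2) * rho z ^ (-(4 * (q / 2)))) := by gcongr
        _ = M ^ (q / 2) * (rho z ^ c * rho z ^ (-(4 * (q / 2)))) := by ring
        _ ≤ M ^ (q / 2) * rho z ^ (-q) := by gcongr
        _ ≤ M ^ (q / 2) * (1 - ‖z‖) ^ (-q) := by gcongr
    have hrr : rho z ^ c = rho z ^ (c - 1) * rho z := by
      have := Real.rpow_add_one hr0.ne' (c - 1)
      rwa [sub_add_cancel] at this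
    have hzz : ‖z‖ ^ 2 = 1 - rho z := by
      unfold rho
      ring
    have hident : c * (rho z ^ (c - 1) * lowY f z ^ (q / 2)) =
        -E z + (1 + c) * (rho z ^ c * lowY f z ^ (q / 2)) + T z * rho z ^ c := by
      simp only [hE]
      rw [hzz, hrr]
      ring
    have h8 : c / 2 * (rho z ^ (c - 1) * lowY f z ^ (q / 2)) ≤
        -E z + (1 + c) * (M ^ (q / 2) * (1 - ‖z‖) ^ (-q)) +
          M ^ (q / 2 - 1 + b) * (‖deriv f z‖ ^ 2 * lowY f z ^ (-b)) := by
      have h9 : (1 + c) * (rho z ^ c * lowY f z ^ (q / 2)) ≤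
          (1 + c) * (M ^ (q / 2) * (1 - ‖z‖) ^ (-q)) :=
        mul_le_mul_of_nonneg_left hgr (by linarith)
      linarith
    have h10 := mul_le_mul_of_nonneg_left h8 (by positivity : (0 : ℝ) ≤ 2 / c)
    have h11 : 2 / c * (c / 2 * (rho z ^ (c - 1) * lowY f z ^ (q / 2))) =
        rho z ^ (c - 1) * lowY f z ^ (q / 2) := by
      field_simp
    rw [h11] at h10
    linarith
  have hi2 : IntegrableOn (fun z => 2 / c * (-E z)) (ball 0 1) := (hEi.neg).const_mul _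
  have hi3 : IntegrableOn (fun z : ℂ => 2 / c * ((1 + c) * M ^ (q / 2) * (1 - ‖z‖) ^ (-q)))
      (ball 0 1) := (hi1.const_mul _).const_mul _
  have hi4 : IntegrableOn (fun z => 2 / c * (M ^ (q / 2 - 1 + b) *
      (‖deriv f z‖ ^ 2 * lowY f z ^ (-b)))) (ball 0 1) := (hAi.const_mul _).const_mul _
  have hmain := setIntegral_mono_on hXi ((hi2.add hi3).add hi4) measurableSet_ball hpt
  refine ⟨hXi, hmain.trans ?_⟩
  have e1 : ∫ z in ball (0 : ℂ) 1, (2 / c * (-E z) +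
      2 / c * ((1 + c) * M ^ (q / 2) * (1 - ‖z‖) ^ (-q)) +
        2 / c * (M ^ (q / 2 - 1 + b) * (‖deriv f z‖ ^ 2 * lowY f z ^ (-b)))) =
      2 / c * ((1 + c) * M ^ (q / 2) * ∫ z in ball (0 : ℂ) 1, (1 - ‖z‖) ^ (-q)) +
      2 / c * (M ^ (q / 2 - 1 + b) *
        ∫ z in ball (0 : ℂ) 1, ‖deriv f z‖ ^ 2 * lowY f z ^ (-b)) := by
    have hi23 : IntegrableOn (fun z : ℂ => 2 / c * (-E z) +
        2 / c * ((1 + c) * M ^ (q / 2) * (1 - ‖z‖) ^ (-q))) (ball 0 1) := hi2.add hi3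
    rw [integral_add hi23 hi4, integral_add hi2 hi3, integral_const_mul, integral_neg, hEint,
      integral_const_mul, integral_const_mul, integral_const_mul, integral_const_mul]
    ring
  have e2 : 2 / c * (M ^ (q / 2 - 1 + b) *
        ∫ z in ball (0 : ℂ) 1, ‖deriv f z‖ ^ 2 * lowY f z ^ (-b)) ≤
      2 / c * (M ^ (q / 2 - 1 + b) * A) := by
    gcongr
  calc _ = _ := e1
    _ ≤ _ := by linarith

end Vale.Agent.P142
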