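import Vale.Agent.P142.LowB
import Vale.Agent.P142.InjDeriv

/-!
# P142, module S5: the classical range `4/3 < s < 2`
(the auxiliary lemmas on inverse maps, dilations and Fatou are those of `Range.lean`)
-/

open Complex MeasureTheory Metric Set Filter Topology

namespace Vale.Agent.P142

theorem low_inv_exists {W : Set ℂ} (hW : IsOpen W) {φ : ℂ → ℂ}
    (hφ : DifferentiableOn ℂ φ W) (hb : BijOn φ W (ball 0 1)) :
    ∃ f : ℂ → ℂ, (∀ z ∈ W, f (φ z) = z) ∧ (∀ w ∈ ball (0 : ℂ) 1, f w ∈ W ∧ φ (f w) = w) ∧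
      ∀ w ∈ ball (0 : ℂ) 1, HasDerivAt f (deriv φ (f w))⁻¹ w := by
  have hinv := hb.invOn_invFunOn
  set f := Function.invFunOn φ W with hf
  have h1 : ∀ z ∈ W, f (φ z) = z := fun z hz => hinv.1 hz
  have h2 : ∀ w ∈ ball (0 : ℂ) 1, f w ∈ W ∧ φ (f w) = w := fun w hw =>
    ⟨hb.surjOn.mapsTo_invFunOn hw, hinv.2 hw⟩
  refine ⟨f, h1, h2, fun w hw => ?_⟩
  obtain ⟨hfw, hφw⟩ := h2 w hw
  have hd : deriv φ (f w) ≠ 0 := deriv_ne_zero_of_injOn hW hφ hb.injOn hfw
  have hs : HasStrictDerivAt φ (deriv φ (f w)) (f w) :=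
    (hφ.analyticAt (hW.mem_nhds hfw)).hasStrictDerivAt
  have hmap := hs.map_nhds_eq hd
  rw [hφw] at hmap
  have hcont : ContinuousAt f w := by
    rw [ContinuousAt, ← hmap, tendsto_map'_iff]
    refine Tendsto.congr' ?_ tendsto_id
    filter_upwards [hW.mem_nhds hfw] with z hz
    exact (h1 z hz).symm
  apply HasDerivAt.of_local_left_inverse hcont hs.hasDerivAt hd
  filter_upwards [isOpen_ball.mem_nhds hw] with y hy
  exact (h2 y hy).2

theorem low_det_mul (c : ℂ) :
    (((ContinuousLinearMap.toSpanSingleton ℂ c : ℂ →L[ℂ] ℂ)).restrictScalars ℝ).det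
      = ‖c‖ ^ 2 := by
  simp [ContinuousLinearMap.det, LinearMap.det_restrictScalars,
      Algebra.norm_complex_eq, Complex.normSq_eq_norm_sq]

theorem low_change_var {W : Set ℂ} (hW : IsOpen W) {φ : ℂ → ℂ}
    (hφ : DifferentiableOn ℂ φ W) (hb : BijOn φ W (ball 0 1)) {s : ℝ} {f : ℂ → ℂ}
    (h1 : ∀ z ∈ W, f (φ z) = z)
    (h3 : ∀ w ∈ ball (0 : ℂ) 1, HasDerivAt f (deriv φ (f w))⁻¹ w) :
    ∫⁻ z in W, ENNReal.ofReal (‖deriv φ z‖ ^ s) =
      ∫⁻ w in ball (0 : ℂ) 1, ENNReal.ofReal (‖deriv f w‖ ^ (-(s - 2))) := by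
  have hder : ∀ z ∈ W, HasFDerivWithinAt φ
      ((ContinuousLinearMap.toSpanSingleton ℂ (deriv φ z) : ℂ →L[ℂ] ℂ).restrictScalars ℝ) W z := by
    intro z hz
    have h := (hφ.differentiableAt (hW.mem_nhds hz)).hasDerivAt
    exact (h.hasFDerivAt.restrictScalars ℝ).hasFDerivWithinAt
  have hcv := lintegral_image_eq_lintegral_abs_det_fderiv_mul volume hW.measurableSet hder
    hb.injOn (fun w => ENNReal.ofReal (‖deriv f w‖ ^ (-(s - 2))))
  rw [hb.image_eq] at hcv
  rw [hcv]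
  apply setLIntegral_congr_fun hW.measurableSet
  intro z hz
  simp only
  have hd : deriv φ z ≠ 0 := deriv_ne_zero_of_injOn hW hφ hb.injOn hz
  have hn : 0 < ‖deriv φ z‖ := norm_pos_iff.2 hd
  rw [low_det_mul, (h3 (φ z) (hb.mapsTo hz)).deriv, h1 z hz, abs_of_nonneg (by positivity),
    ← ENNReal.ofReal_mul (by positivity)]
  congr 1
  rw [norm_inv, Real.inv_rpow hn.le, ← Real.rpow_neg hn.le, neg_neg, ← Real.rpow_natCast,
    ← Real.rpow_add hn]
  congr 1
  push_cast
  ring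

theorem low_rho_int {κ : ℝ} (h0 : 0 ≤ κ) (h1 : κ < 1) :
    ∫⁻ z in ball (0 : ℂ) 1, ENNReal.ofReal (rho z ^ (-κ)) < ⊤ := by
  have hint : IntegrableOn (fun z : ℂ => (1 - ‖z‖) ^ (-κ)) (ball (0 : ℂ) 1) := by
    rw [integrableOn_fun_norm_addHaar (μ := (volume : Measure ℂ)) (f := fun r => (1 - r) ^ (-κ))]
    have h2 : IntegrableOn (fun r : ℝ => (1 - r) ^ (-κ)) (Ioo 0 1) := by
      have h3 : IntervalIntegrable (fun r : ℝ => r ^ (-κ)) volume 0 1 :=
        intervalIntegral.intervalIntegrable_rpow' (by linarith)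
      have h4 := (h3.comp_sub_left 1)
      simp only [sub_zero, sub_self] at h4
      have h5 := h4.symm
      rw [intervalIntegrable_iff_integrableOn_Ioo_of_le zero_le_one] at h5
      exact h5
    apply h2.mono'
    · apply Measurable.aestronglyMeasurable
      fun_prop
    · rw [ae_restrict_iff' measurableSet_Ioo]
      refine Eventually.of_forall fun r hr => ?_
      have hr1 : 0 ≤ 1 - r := by linarith [hr.2]
      rw [norm_smul, norm_pow, Real.norm_of_nonneg (Real.rpow_nonneg hr1 _),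
        Real.norm_of_nonneg hr.1.le]
      apply mul_le_of_le_one_left (Real.rpow_nonneg hr1 _)
      exact pow_le_one₀ hr.1.le hr.2.le
  refine lt_of_le_of_lt ?_ hint.hasFiniteIntegral
  apply setLIntegral_mono' measurableSet_ball
  intro z hz
  rw [mem_ball_zero_iff] at hz
  have hr1 : 0 < 1 - ‖z‖ := by linarith
  have hrho : 1 - ‖z‖ ≤ rho z := by
    unfold rho
    nlinarith [norm_nonneg z]
  rw [← ofReal_norm, Real.norm_of_nonneg (Real.rpow_nonneg hr1.le _)]
  apply ENNReal.ofReal_le_ofReal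
  exact Real.rpow_le_rpow_of_nonpos hr1 hrho (by linarith)

theorem low_good_dil {F : ℂ → ℂ} (hF : DifferentiableOn ℂ F (ball 0 1))
    (hi : InjOn F (ball 0 1)) (h1 : deriv F 0 = 1) {R : ℝ} (hR0 : 0 < R) (hR1 : R < 1) :
    Good (fun z => F (R * z) / R) := by
  have hRC : (R : ℂ) ≠ 0 := by exact_mod_cast hR0.ne'
  have hmaps : MapsTo (fun z : ℂ => (R : ℂ) * z) (ball 0 (1 / R)) (ball 0 1) := by
    intro z hz
    rw [mem_ball_zero_iff] at hz ⊢
    rw [norm_mul, norm_real, Real.norm_of_nonneg hR0.le]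
    rw [lt_div_iff₀ hR0] at hz
    linarith
  refine ⟨⟨1 / R, ?_, ?_, ?_⟩, ?_⟩
  · rw [lt_div_iff₀ hR0]
    linarith
  · apply DifferentiableOn.div_const
    exact hF.comp (by fun_prop) hmaps
  · intro z hz w hw hzw
    simp only at hzw
    have h2 := (div_left_inj' hRC).1 hzw
    have h3 := hi (hmaps hz) (hmaps hw) h2
    exact mul_left_cancel₀ hRC h3
  · have h2 : HasDerivAt F (deriv F 0) ((R : ℂ) * 0) := by
      rw [mul_zero]
      exact (hF.differentiableAt (isOpen_ball.mem_nhds (mem_ball_self one_pos))).hasDerivAt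
    have h3 := (h2.comp (0 : ℂ) ((hasDerivAt_id (0 : ℂ)).const_mul (R : ℂ))).div_const (R : ℂ)
    have h4 : deriv F 0 * ((R : ℂ) * 1) / R = 1 := by
      rw [h1]
      field_simp
    rw [h4] at h3
    exact h3.deriv

theorem low_dil_deriv {F : ℂ → ℂ} (hF : DifferentiableOn ℂ F (ball 0 1)) {R : ℝ}
    (hR0 : 0 < R) (hR1 : R ≤ 1) {z : ℂ} (hz : z ∈ ball (0 : ℂ) (1 / R)) :
    deriv (fun z => F (R * z) / R) z = deriv F (R * z) := by
  have hRC : (R : ℂ) ≠ 0 := by exact_mod_cast hR0.ne'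
  have hz' : (R : ℂ) * z ∈ ball (0 : ℂ) 1 := by
    rw [mem_ball_zero_iff] at hz ⊢
    rw [norm_mul, norm_real, Real.norm_of_nonneg hR0.le]
    rw [lt_div_iff₀ hR0] at hz
    linarith
  have h2 : HasDerivAt F (deriv F (R * z)) ((R : ℂ) * z) :=
    (hF.differentiableAt (isOpen_ball.mem_nhds hz')).hasDerivAt
  have h3 := (h2.comp z ((hasDerivAt_id z).const_mul (R : ℂ))).div_const (R : ℂ)
  have h4 : deriv F (R * z) * ((R : ℂ) * 1) / R = deriv F (R * z) := by
    field_simp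
  rw [h4] at h3
  exact h3.deriv

theorem low_fatou_bound {τ η C : ℝ} (hη : 0 < η)
    (hC : ∀ f, Good f → In (-τ) η f ≤ C) {F : ℂ → ℂ} (hF : DifferentiableOn ℂ F (ball 0 1))
    (hi : InjOn F (ball 0 1)) (h1 : deriv F 0 = 1) :
    ∫⁻ z in ball (0 : ℂ) 1, ENNReal.ofReal (‖deriv F z‖ ^ (-τ) * rho z ^ η) ≤
      ENNReal.ofReal C := by
  have hne : ∀ z ∈ ball (0 : ℂ) 1, deriv F z ≠ 0 := fun z hz =>
    deriv_ne_zero_of_injOn isOpen_ball hF hi hz
  have hcd : ContinuousOn (deriv F) (ball 0 1) :=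
    (hF.deriv isOpen_ball).continuousOn
  -- the sequence of radii
  set R : ℕ → ℝ := fun n => 1 - 1 / ((n : ℝ) + 2) with hR
  have hR0 : ∀ n, 0 < R n := by
    intro n
    have : 1 / ((n : ℝ) + 2) < 1 := by
      rw [div_lt_one (by positivity)]
      have : (0 : ℝ) ≤ n := Nat.cast_nonneg n
      linarith
    simp only [hR]
    linarith
  have hR1 : ∀ n, R n < 1 := by
    intro n
    have : 0 < 1 / ((n : ℝ) + 2) := by positivity
    simp only [hR]
    linarith
  have hRt : Tendsto R atTop (𝓝 1) := by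
    have h2 : Tendsto (fun n : ℕ => 1 / ((n : ℝ) + 2)) atTop (𝓝 0) := by
      have := (tendsto_const_div_atTop_nhds_zero_nat (1 : ℝ)).comp (tendsto_add_atTop_nat 2)
      refine this.congr fun n => ?_
      simp
    have h3 := (tendsto_const_nhds (x := (1 : ℝ))).sub h2
    rw [sub_zero] at h3
    exact h3
  have hmem : ∀ (n : ℕ) (z : ℂ), z ∈ closedBall (0 : ℂ) 1 → (R n : ℂ) * z ∈ ball (0 : ℂ) 1 := by
    intro n z hz
    rw [mem_closedBall_zero_iff] at hz
    rw [mem_ball_zero_iff, norm_mul, norm_real, Real.norm_of_nonneg (hR0 n).le]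
    calc R n * ‖z‖ ≤ R n * 1 := mul_le_mul_of_nonneg_left hz (hR0 n).le
      _ < 1 := by rw [mul_one]; exact hR1 n
  have hrho0 : ∀ z ∈ closedBall (0 : ℂ) 1, 0 ≤ rho z := by
    intro z hz
    rw [mem_closedBall_zero_iff] at hz
    unfold rho
    nlinarith [norm_nonneg z]
  have hrhoc : Continuous rho := by
    unfold rho
    fun_prop
  have hcont : ∀ n, ContinuousOn (fun z : ℂ => ‖deriv F (R n * z)‖ ^ (-τ) * rho z ^ η)
      (closedBall 0 1) := by
    intro n
    apply ContinuousOn.mul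
    · apply ContinuousOn.rpow_const
      · apply ContinuousOn.norm
        exact hcd.comp (by fun_prop) (fun z hz => hmem n z hz)
      · intro z hz
        left
        exact norm_ne_zero_iff.2 (hne _ (hmem n z hz))
    · apply ContinuousOn.rpow_const hrhoc.continuousOn
      intro z _
      right
      exact hη.le
  have hwt : ∀ n, ∀ z ∈ ball (0 : ℂ) 1, wt (-τ) η (fun z => F (R n * z) / R n) z =
      ‖deriv F (R n * z)‖ ^ (-τ) * rho z ^ η := by
    intro n z hz
    unfold wt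
    rw [low_dil_deriv hF (hR0 n) (hR1 n).le]
    rw [mem_ball_zero_iff] at hz ⊢
    exact hz.trans (by rw [lt_div_iff₀ (hR0 n), one_mul]; exact hR1 n)
  have hle : ∀ n, ∫⁻ z in ball (0 : ℂ) 1,
      ENNReal.ofReal (‖deriv F (R n * z)‖ ^ (-τ) * rho z ^ η) ≤ ENNReal.ofReal C := by
    intro n
    have h2 := hC _ (low_good_dil hF hi h1 (hR0 n) (hR1 n))
    unfold In at h2
    rw [setIntegral_congr_fun measurableSet_ball (hwt n)] at h2
    rw [← ofReal_integral_eq_lintegral_ofReal]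
    · exact ENNReal.ofReal_le_ofReal h2
    · exact ((hcont n).integrableOn_compact (isCompact_closedBall 0 1)).mono_set
        ball_subset_closedBall
    · rw [EventuallyLE, ae_restrict_iff' measurableSet_ball]
      refine Eventually.of_forall fun z hz => ?_
      have := hrho0 z (ball_subset_closedBall hz)
      simp only [Pi.zero_apply]
      positivity
  have hlim : ∀ z ∈ ball (0 : ℂ) 1, Tendsto
      (fun n => ENNReal.ofReal (‖deriv F (R n * z)‖ ^ (-τ) * rho z ^ η)) atTop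
      (𝓝 (ENNReal.ofReal (‖deriv F z‖ ^ (-τ) * rho z ^ η))) := by
    intro z hz
    apply ENNReal.tendsto_ofReal
    apply Tendsto.mul_const
    have h2 : Tendsto (fun n => (R n : ℂ) * z) atTop (𝓝 z) := by
      have h3 : Tendsto (fun n => (R n : ℂ)) atTop (𝓝 ((1 : ℝ) : ℂ)) :=
        (continuous_ofReal.tendsto 1).comp hRt
      have h4 := h3.mul_const z
      rwa [ofReal_one, one_mul] at h4
    have h5 : ContinuousAt (fun w => ‖deriv F w‖ ^ (-τ)) z := by
      apply ContinuousAt.rpow_const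
      · exact (hcd.continuousAt (isOpen_ball.mem_nhds hz)).norm
      · left
        exact norm_ne_zero_iff.2 (hne z hz)
    exact h5.tendsto.comp h2
  calc ∫⁻ z in ball (0 : ℂ) 1, ENNReal.ofReal (‖deriv F z‖ ^ (-τ) * rho z ^ η)
      = ∫⁻ z in ball (0 : ℂ) 1, liminf
        (fun n => ENNReal.ofReal (‖deriv F (R n * z)‖ ^ (-τ) * rho z ^ η)) atTop := by
        apply setLIntegral_congr_fun measurableSet_ball
        intro z hz
        exact (hlim z hz).liminf_eq.symm
    _ ≤ liminf (fun n => ∫⁻ z in ball (0 : ℂ) 1,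
        ENNReal.ofReal (‖deriv F (R n * z)‖ ^ (-τ) * rho z ^ η)) atTop := by
        apply lintegral_liminf_le'
        intro n
        apply AEMeasurable.ennreal_ofReal
        exact ((hcont n).mono ball_subset_closedBall).aemeasurable measurableSet_ball
    _ ≤ ENNReal.ofReal C := by
        apply liminf_le_of_le
        · exact ⟨0, Eventually.of_forall fun _ => bot_le⟩
        · intro b hb
          obtain ⟨n, hn⟩ := hb.exists
          exact hn.trans (hle n)

theorem low_young_point {τ η p : ℝ} (hη : 0 < η) (hp : 0 < p) (hpτ : p < τ) {x r : ℝ}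
    (hx : 0 < x) (hr : 0 < r) :
    x ^ (-p) ≤ x ^ (-τ) * r ^ η + r ^ (-(η * p / (τ - p))) := by
  have _ := hη
  have hτ : 0 < τ := hp.trans hpτ
  have hτp : 0 < τ - p := by linarith
  have h1 := Real.geom_mean_le_arith_mean2_weighted (w₁ := p / τ) (w₂ := (τ - p) / τ)
    (p₁ := x ^ (-τ) * r ^ η) (p₂ := r ^ (-(η * p / (τ - p)))) (by positivity) (by positivity)
    (by positivity) (by positivity) (by field_simp; ring)
  have h2 : (x ^ (-τ) * r ^ η) ^ (p / τ) * (r ^ (-(η * p / (τ - p)))) ^ ((τ - p) / τ) =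
      x ^ (-p) := by
    rw [Real.mul_rpow (by positivity) (by positivity), ← Real.rpow_mul hx.le,
      ← Real.rpow_mul hr.le, ← Real.rpow_mul hr.le, mul_assoc, ← Real.rpow_add hr]
    have e1 : -τ * (p / τ) = -p := by field_simp
    have e2 : η * (p / τ) + -(η * p / (τ - p)) * ((τ - p) / τ) = 0 := by
      field_simp
      ring
    rw [e1, e2, Real.rpow_zero, mul_one]
  rw [h2] at h1
  refine h1.trans ?_
  have h3 : p / τ ≤ 1 := by
    rw [div_le_one hτ]
    exact hpτ.le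
  have h4 : (τ - p) / τ ≤ 1 := by
    rw [div_le_one hτ]
    linarith
  have h5 : 0 ≤ x ^ (-τ) * r ^ η := by positivity
  have h6 : 0 ≤ r ^ (-(η * p / (τ - p))) := by positivity
  nlinarith

/-! ### the bound for `p < 2/3` -/

theorem low_In {p η : ℝ} (hp0 : 0 < p) (hp1 : p < 2 / 3) (hη : 0 < η) :
    ∃ C : ℝ, ∀ f, Good f → In p η f ≤ C := by
  have h2p : 0 < 2 - p := by linarith
  have hL : 1 < (2 - p) / (2 * p) := by
    rw [lt_div_iff₀ (by linarith)]
    linarith
  obtain ⟨b, hb1, hb2⟩ := exists_between hL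
  set q : ℝ := 2 * b * p / (2 - p) with hq
  have hq0 : 0 < q := by positivity
  have hq1 : q < 1 := by
    rw [hq, div_lt_one h2p]
    rw [lt_div_iff₀ (by linarith)] at hb2
    linarith
  obtain ⟨A, hA⟩ := low_image hb1
  obtain ⟨C, hC⟩ := low_main hq0 hq1 (c := 1 + η) (by linarith)
  refine ⟨A + C, fun f hf => ?_⟩
  obtain ⟨hAi, hAb⟩ := hA f hf
  obtain ⟨hCi, hCb⟩ := hC f hf
  obtain ⟨R, hR, hd, -, hne⟩ := hf.exR
  have hwi : IntegrableOn (fun z => wt p η f z) (ball 0 1) := by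
    have := integrableOn_mul_wt p η hη.le hR hd hne (X := fun _ => 1) continuousOn_const
    simpa using this
  have hpt : ∀ z ∈ ball (0 : ℂ) 1, wt p η f z ≤
      ‖deriv f z‖ ^ 2 * lowY f z ^ (-b) + rho z ^ (1 + η - 1) * lowY f z ^ (q / 2) := by
    intro z hz
    have hzn : ‖z‖ < 1 := mem_ball_zero_iff.1 hz
    have hr0 : 0 < rho z := rho_pos hzn
    have hr1 : rho z ≤ 1 := rho_le_one z
    have hY := lowY_pos f z
    have hx : 0 < ‖deriv f z‖ := norm_pos_iff.2 (good_deriv_ne hf hzn)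
    have h1 := Real.geom_mean_le_arith_mean2_weighted (w₁ := p / 2) (w₂ := 1 - p / 2)
      (p₁ := ‖deriv f z‖ ^ 2 * lowY f z ^ (-b)) (p₂ := lowY f z ^ (q / 2)) (by positivity)
      (by linarith) (by positivity) (by positivity) (by ring)
    have h2 : (‖deriv f z‖ ^ 2 * lowY f z ^ (-b)) ^ (p / 2) *
        (lowY f z ^ (q / 2)) ^ (1 - p / 2) = ‖deriv f z‖ ^ p := by
      rw [Real.mul_rpow (by positivity) (by positivity), ← Real.rpow_natCast ‖deriv f z‖,
        ← Real.rpow_mul hx.le, ← Real.rpow_mul hY.le, ← Real.rpow_mul hY.le, mul_assoc,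
        ← Real.rpow_add hY]
      have e1 : ((2 : ℕ) : ℝ) * (p / 2) = p := by
        push_cast
        ring
      have e2 : -b * (p / 2) + q / 2 * (1 - p / 2) = 0 := by
        rw [hq]
        field_simp
        ring
      rw [e1, e2, Real.rpow_zero, mul_one]
    rw [h2] at h1
    have h5 : 0 ≤ ‖deriv f z‖ ^ 2 * lowY f z ^ (-b) := by positivity
    have h6 : 0 ≤ lowY f z ^ (q / 2) := by positivity
    have h7 : ‖deriv f z‖ ^ p ≤ ‖deriv f z‖ ^ 2 * lowY f z ^ (-b) + lowY f z ^ (q / 2) := by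
      nlinarith
    have h8 : rho z ^ η ≤ 1 := Real.rpow_le_one hr0.le hr1 hη.le
    have h9 : 0 ≤ rho z ^ η := Real.rpow_nonneg hr0.le _
    rw [add_sub_cancel_left]
    unfold wt
    calc ‖deriv f z‖ ^ p * rho z ^ η
        ≤ (‖deriv f z‖ ^ 2 * lowY f z ^ (-b) + lowY f z ^ (q / 2)) * rho z ^ η :=
          mul_le_mul_of_nonneg_right h7 h9
      _ = (‖deriv f z‖ ^ 2 * lowY f z ^ (-b)) * rho z ^ η + rho z ^ η * lowY f z ^ (q / 2) := by
          ring
      _ ≤ (‖deriv f z‖ ^ 2 * lowY f z ^ (-b)) * 1 + rho z ^ η * lowY f z ^ (q / 2) := by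
          gcongr
      _ = _ := by rw [mul_one]
  unfold In
  refine (setIntegral_mono_on hwi (hAi.add hCi) measurableSet_ball hpt).trans ?_
  have e1 : ∫ z in ball (0 : ℂ) 1, (‖deriv f z‖ ^ 2 * lowY f z ^ (-b) +
      rho z ^ (1 + η - 1) * lowY f z ^ (q / 2)) =
      (∫ z in ball (0 : ℂ) 1, ‖deriv f z‖ ^ 2 * lowY f z ^ (-b)) +
      ∫ z in ball (0 : ℂ) 1, rho z ^ (1 + η - 1) * lowY f z ^ (q / 2) := integral_add hAi hCi
  calc _ = _ := e1
    _ ≤ _ := by linarith

/-- the integral for normalised univalent functions -/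
theorem low_norm {F : ℂ → ℂ} (hF : DifferentiableOn ℂ F (ball 0 1))
    (hi : InjOn F (ball 0 1)) (h1 : deriv F 0 = 1) {p : ℝ} (hp : 0 < p) (hp1 : p < 2 / 3) :
    ∫⁻ z in ball (0 : ℂ) 1, ENNReal.ofReal (‖deriv F z‖ ^ p) < ⊤ := by
  obtain ⟨τ, hpτ, hτ1⟩ := exists_between hp1
  have hτ : 0 < τ := hp.trans hpτ
  have hτp : 0 < τ - p := by linarith
  obtain ⟨η, hη, hηp⟩ : ∃ η : ℝ, 0 < η ∧ η * p / (τ - p) < 1 := by
    refine ⟨(τ - p) / (2 * p), by positivity, ?_⟩
    have : (τ - p) / (2 * p) * p / (τ - p) = 1 / 2 := by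
      field_simp
    rw [this]
    norm_num
  obtain ⟨C, hC⟩ := low_In hτ hτ1 hη
  have hC' : ∀ f, Good f → In (-(-τ)) η f ≤ C := by
    intro f hf
    rw [neg_neg]
    exact hC f hf
  have h2 := low_fatou_bound hη hC' hF hi h1
  rw [neg_neg] at h2
  have hκ0 : 0 ≤ η * p / (τ - p) := by positivity
  have h3 := low_rho_int hκ0 hηp
  have h4 : ∫⁻ z in ball (0 : ℂ) 1, ENNReal.ofReal (‖deriv F z‖ ^ p) ≤
      ∫⁻ z in ball (0 : ℂ) 1, (ENNReal.ofReal (‖deriv F z‖ ^ τ * rho z ^ η) +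
        ENNReal.ofReal (rho z ^ (-(η * p / (τ - p))))) := by
    apply setLIntegral_mono' measurableSet_ball
    intro z hz
    have hx : 0 < ‖deriv F z‖ :=
      norm_pos_iff.2 (deriv_ne_zero_of_injOn isOpen_ball hF hi hz)
    rw [mem_ball_zero_iff] at hz
    have hr : 0 < rho z := by
      unfold rho
      nlinarith [norm_nonneg z]
    rw [← ENNReal.ofReal_add (by positivity) (by positivity)]
    apply ENNReal.ofReal_le_ofReal
    have h5 := low_young_point hη hp hpτ (x := ‖deriv F z‖⁻¹) (by positivity) hr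
    rw [Real.inv_rpow hx.le, Real.inv_rpow hx.le, ← Real.rpow_neg hx.le, ← Real.rpow_neg hx.le,
      neg_neg, neg_neg] at h5
    exact h5
  refine lt_of_le_of_lt h4 ?_
  rw [lintegral_add_right']
  · exact ENNReal.add_lt_top.2 ⟨lt_of_le_of_lt h2 ENNReal.ofReal_lt_top, h3⟩
  · apply AEMeasurable.ennreal_ofReal
    apply Measurable.aemeasurable
    unfold rho
    fun_prop

/-- S5 (Lower.lean, optional, classical): the range `4/3 < s < 2` -/
theorem lower_range {W : Set ℂ} (hW : IsOpen W) {φ : ℂ → ℂ} (hφ : DifferentiableOn ℂ φ W)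
    (hb : BijOn φ W (ball 0 1)) {s : ℝ} (h1 : 4 / 3 < s) (h2 : s < 2) :
    ∫⁻ z in W, ENNReal.ofReal (‖deriv φ z‖ ^ s) < ⊤ := by
  obtain ⟨f, hf1, hf2, hf3⟩ := low_inv_exists hW hφ hb
  rw [low_change_var hW hφ hb hf1 hf3]
  have hfd : DifferentiableOn ℂ f (ball 0 1) := fun w hw =>
    (hf3 w hw).differentiableAt.differentiableWithinAt
  have hfi : InjOn f (ball 0 1) := by
    intro w hw v hv h
    rw [← (hf2 w hw).2, h, (hf2 v hv).2]
  set c : ℂ := deriv f 0 with hc
  have hc0 : c ≠ 0 := deriv_ne_zero_of_injOn isOpen_ball hfd hfi (mem_ball_self one_pos)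
  have hFd : DifferentiableOn ℂ (fun w => f w / c) (ball 0 1) := hfd.div_const c
  have hFi : InjOn (fun w => f w / c) (ball 0 1) := by
    intro w hw v hv h
    exact hfi hw hv ((div_left_inj' hc0).1 h)
  have hderF : ∀ w, deriv (fun w => f w / c) w = deriv f w / c := by
    intro w
    exact deriv_div_const c
  have hF1 : deriv (fun w => f w / c) 0 = 1 := by
    rw [hderF, ← hc, div_self hc0]
  have hmain := low_norm hFd hFi hF1 (p := -(s - 2)) (by linarith) (by linarith)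
  have hcn : 0 < ‖c‖ := norm_pos_iff.2 hc0
  have heq : ∫⁻ w in ball (0 : ℂ) 1, ENNReal.ofReal (‖deriv f w‖ ^ (-(s - 2))) =
      ∫⁻ w in ball (0 : ℂ) 1, ENNReal.ofReal (‖c‖ ^ (-(s - 2))) *
        ENNReal.ofReal (‖deriv (fun w => f w / c) w‖ ^ (-(s - 2))) := by
    apply setLIntegral_congr_fun measurableSet_ball
    intro w _
    simp only
    rw [hderF, ← ENNReal.ofReal_mul (by positivity), ← Real.mul_rpow (norm_nonneg _)
      (norm_nonneg _), norm_div, mul_div_cancel₀ _ hcn.ne']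
  rw [heq, lintegral_const_mul' _ _ ENNReal.ofReal_ne_top]
  exact ENNReal.mul_lt_top ENNReal.ofReal_lt_top hmain

end Vale.Agent.P142
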