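import Vale.Agent.P142.Defs2
import Vale.Agent.P142.Final

/-!
# P142: module S4, the bound of the universal integral means spectrum
-/

open Complex MeasureTheory Metric Set Filter Topology

namespace Vale.Agent.P142

theorem tendsto_log_inv_one_sub : Tendsto (fun r : ℝ => Real.log (1 / (1 - r))) (𝓝[<] 1) atTop := by
  have h1 : Tendsto (fun r : ℝ => 1 - r) (𝓝[<] 1) (𝓝[>] 0) := by
    refine tendsto_nhdsWithin_iff.2 ⟨?_, ?_⟩
    · have : Tendsto (fun r : ℝ => 1 - r) (𝓝 1) (𝓝 (1 - 1)) := by
        exact (continuous_const.sub continuous_id).tendsto 1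
      rw [sub_self] at this
      exact this.mono_left nhdsWithin_le_nhds
    · filter_upwards [self_mem_nhdsWithin] with r hr
      have : r < 1 := hr
      exact sub_pos.2 this
  have h2 := (tendsto_inv_nhdsGT_zero (𝕜 := ℝ)).comp h1
  have h3 := Real.tendsto_log_atTop.comp h2
  refine h3.congr fun r => ?_
  simp [Function.comp, one_div]

/-- S4 -/
theorem BS_le (a : ℝ) (ha : 1 < a) (C : ℝ) (hC : ∀ f, Good f → In (-2) (a - 1) f ≤ C) :
    BS (-2) ≤ (a : EReal) := by
  unfold BS
  refine iSup_le fun f => ?_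
  obtain ⟨f, hf, hi, -, h1⟩ := f
  set C' : ℝ := max (C * a) 1 with hC'
  have hC1 : 1 ≤ C' := le_max_right _ _
  have hlim : Tendsto (fun r : ℝ => ((a + Real.log C' / Real.log (1 / (1 - r)) : ℝ) : EReal))
      (𝓝[<] 1) (𝓝 (a : EReal)) := by
    have h2 : Tendsto (fun r : ℝ => Real.log C' / Real.log (1 / (1 - r))) (𝓝[<] 1) (𝓝 0) :=
      tendsto_log_inv_one_sub.const_div_atTop _
    have h3 : Tendsto (fun r : ℝ => a + Real.log C' / Real.log (1 / (1 - r))) (𝓝[<] 1)
        (𝓝 (a + 0)) := tendsto_const_nhds.add h2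
    rw [add_zero] at h3
    exact (continuous_coe_real_ereal.tendsto a).comp h3
  have hle : ∀ᶠ r : ℝ in 𝓝[<] 1,
      ((Real.log (intMean (-2) f r) / Real.log (1 / (1 - r)) : ℝ) : EReal) ≤
        ((a + Real.log C' / Real.log (1 / (1 - r)) : ℝ) : EReal) := by
    have hIoo : Ioo (0 : ℝ) 1 ∈ 𝓝[<] (1 : ℝ) := Ioo_mem_nhdsLT zero_lt_one
    filter_upwards [hIoo] with r hr
    rw [EReal.coe_le_coe_iff]
    have hr1 : 0 < 1 - r := by linarith [hr.2]
    have hL : 0 < Real.log (1 / (1 - r)) := by
      apply Real.log_pos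
      rw [one_div]
      exact (one_lt_inv₀ hr1).2 (by linarith [hr.1])
    have hm := mean_bound a ha C hC hf hi h1 hr.1.le hr.2
    have hm' : intMean (-2) f r ≤ C' * (1 - r) ^ (-a) := by
      unfold intMean
      refine hm.trans ?_
      exact mul_le_mul_of_nonneg_right (le_max_left _ _) (Real.rpow_nonneg hr1.le _)
    have hlog : Real.log (intMean (-2) f r) ≤ Real.log C' + a * Real.log (1 / (1 - r)) := by
      have h0 : 0 ≤ intMean (-2) f r := by
        unfold intMean
        refine mul_nonneg (by positivity) ?_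
        refine intervalIntegral.integral_nonneg (by linarith [Real.pi_pos]) fun θ _ => ?_
        exact Real.rpow_nonneg (norm_nonneg _) _
      rcases h0.eq_or_lt with h0 | h0
      · rw [← h0, Real.log_zero]
        have := Real.log_nonneg hC1
        have := mul_nonneg (by linarith : (0 : ℝ) ≤ a) hL.le
        linarith
      · refine (Real.log_le_log h0 hm').trans ?_
        rw [Real.log_mul (by linarith) (Real.rpow_pos_of_pos hr1 _).ne', Real.log_rpow hr1,
          one_div, Real.log_inv]
        linarith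
    rw [div_le_iff₀ hL, add_mul, div_mul_cancel₀ _ hL.ne']
    linarith
  unfold betaF
  exact (limsup_le_limsup hle).trans hlim.limsup_eq.le

end Vale.Agent.P142
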