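import Vale.Agent.P142.Defs2
import Vale.Agent.P142.Koebe2
import Vale.Agent.P142.AreaIneq

/-!
# P142: module S1, the area inequality with the shift `1` instead of `|z|^2`
-/

open Complex MeasureTheory Metric Set Filter Topology

namespace Vale.Agent.P142

/-- two bounded families whose distance is `O(d)` -/
def Near {ι : Type} (d : ι → ℝ) (A A' : ι → ℂ) : Prop :=
  ∃ M : ℝ, 0 ≤ M ∧ ∀ i, ‖A i‖ ≤ M ∧ ‖A' i‖ ≤ M ∧ ‖A i - A' i‖ ≤ M * d i

section near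

variable {ι : Type} {d : ι → ℝ}

theorem Near.self (hd : ∀ i, 0 ≤ d i) {A : ι → ℂ} (hA : ∃ M : ℝ, ∀ i, ‖A i‖ ≤ M) :
    Near d A A := by
  obtain ⟨M, hM⟩ := hA
  refine ⟨max M 0, le_max_right _ _, fun i => ⟨(hM i).trans (le_max_left _ _),
    (hM i).trans (le_max_left _ _), ?_⟩⟩
  rw [sub_self, norm_zero]
  exact mul_nonneg (le_max_right _ _) (hd i)

theorem Near.const (hd : ∀ i, 0 ≤ d i) (c : ℂ) : Near d (fun _ => c) (fun _ => c) :=
  Near.self hd ⟨‖c‖, fun _ => le_rfl⟩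

theorem Near.add {A A' B B' : ι → ℂ} (hA : Near d A A') (hB : Near d B B') :
    Near d (fun i => A i + B i) (fun i => A' i + B' i) := by
  obtain ⟨M, hM, h⟩ := hA
  obtain ⟨M', hM', h'⟩ := hB
  refine ⟨M + M', by linarith, fun i => ⟨?_, ?_, ?_⟩⟩
  · exact (norm_add_le _ _).trans (add_le_add (h i).1 (h' i).1)
  · exact (norm_add_le _ _).trans (add_le_add (h i).2.1 (h' i).2.1)
  · have e : A i + B i - (A' i + B' i) = (A i - A' i) + (B i - B' i) := by ring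
    rw [e, add_mul]
    exact (norm_add_le _ _).trans (add_le_add (h i).2.2 (h' i).2.2)

theorem Near.mul {A A' B B' : ι → ℂ} (hd : ∀ i, 0 ≤ d i) (hA : Near d A A') (hB : Near d B B') :
    Near d (fun i => A i * B i) (fun i => A' i * B' i) := by
  obtain ⟨M, hM, h⟩ := hA
  obtain ⟨M', hM', h'⟩ := hB
  have hMM := mul_nonneg hM hM'
  refine ⟨2 * (M * M'), by linarith, fun i => ⟨?_, ?_, ?_⟩⟩
  · rw [norm_mul]
    have := mul_le_mul (h i).1 (h' i).1 (norm_nonneg _) hM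
    linarith
  · rw [norm_mul]
    have := mul_le_mul (h i).2.1 (h' i).2.1 (norm_nonneg _) hM
    linarith
  · have e : A i * B i - A' i * B' i = A i * (B i - B' i) + (A i - A' i) * B' i := by ring
    rw [e]
    have h1 : ‖A i * (B i - B' i)‖ ≤ M * (M' * d i) := by
      rw [norm_mul]
      exact mul_le_mul (h i).1 (h' i).2.2 (norm_nonneg _) hM
    have h2 : ‖(A i - A' i) * B' i‖ ≤ (M * d i) * M' := by
      rw [norm_mul]
      exact mul_le_mul (h i).2.2 (h' i).2.1 (norm_nonneg _) (mul_nonneg hM (hd i))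
    have h3 := norm_add_le (A i * (B i - B' i)) ((A i - A' i) * B' i)
    nlinarith

theorem Near.sum {κ : Type} (s : Finset κ) {A A' : κ → ι → ℂ} (hd : ∀ i, 0 ≤ d i)
    (h : ∀ j ∈ s, Near d (A j) (A' j)) :
    Near d (fun i => ∑ j ∈ s, A j i) (fun i => ∑ j ∈ s, A' j i) := by
  classical
  induction s using Finset.induction_on with
  | empty =>
    simp only [Finset.sum_empty]
    exact Near.const hd 0
  | insert j s hj ih =>
    simp only [Finset.sum_insert hj]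
    exact (h j (Finset.mem_insert_self _ _)).add
      (ih fun j' hj' => h j' (Finset.mem_insert_of_mem hj'))

theorem Near.pow {A A' : ι → ℂ} (hd : ∀ i, 0 ≤ d i) (hA : Near d A A') (n : ℕ) :
    Near d (fun i => A i ^ n) (fun i => A' i ^ n) := by
  induction n with
  | zero =>
    simp only [pow_zero]
    exact Near.const hd 1
  | succ n ih =>
    simp only [pow_succ]
    exact ih.mul hd hA

theorem Near.powC (hd : ∀ i, 0 ≤ d i) (μ : ℝ) {C C' : ι → ℕ → ℂ}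
    (h : ∀ k, Near d (fun i => C i k) (fun i => C' i k)) (n : ℕ) :
    Near d (fun i => Vale.Agent.P142.powC μ (C i) n) (fun i => Vale.Agent.P142.powC μ (C' i) n) := by
  induction n using Nat.strong_induction_on with
  | _ n ih =>
    cases n with
    | zero =>
      simp only [Vale.Agent.P142.powC]
      exact Near.const hd 1
    | succ n =>
      simp only [Vale.Agent.P142.powC]
      refine (Near.const hd _).mul hd ?_
      refine Near.sum _ hd fun j _ => ?_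
      exact ((Near.const hd _).mul hd (h _)).mul hd (ih _ (by omega))

/-- the squares of the norms of two near families -/
theorem Near.sq_le {A A' : ι → ℂ} (hA : Near d A A') :
    ∃ M : ℝ, ∀ i, |‖A i‖ ^ 2 - ‖A' i‖ ^ 2| ≤ M * d i := by
  obtain ⟨M, hM, h⟩ := hA
  refine ⟨2 * M * M, fun i => ?_⟩
  have h1 : |‖A i‖ - ‖A' i‖| ≤ M * d i := (abs_norm_sub_norm_le _ _).trans (h i).2.2
  have h2 : |‖A i‖ + ‖A' i‖| ≤ 2 * M := by
    rw [abs_of_nonneg (by positivity)]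
    linarith [(h i).1, (h i).2.1]
  have e : ‖A i‖ ^ 2 - ‖A' i‖ ^ 2 = (‖A i‖ + ‖A' i‖) * (‖A i‖ - ‖A' i‖) := by ring
  rw [e, abs_mul]
  calc |‖A i‖ + ‖A' i‖| * |‖A i‖ - ‖A' i‖| ≤ (2 * M) * (M * d i) :=
        mul_le_mul h2 h1 (abs_nonneg _) (by linarith)
    _ = _ := by ring

end near

/-- pairs of a good function and a point of the disc -/
structure GIdx : Type where
  f : ℂ → ℂ
  z : ℂ
  hf : Good f
  hz : ‖z‖ < 1

/-- S1: the area inequality with the shift `1` -/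
theorem areaQ_pert (K : ℕ) (p0 p1 p2 : ℝ) : ∃ C : ℝ, ∀ f, Good f → ∀ z : ℂ, ‖z‖ < 1 → z ≠ 0 →
    areaQ K ((p0 : ℂ) + (p1 : ℂ) * jetU f z 1) (p2 : ℂ) (shiftC 1 (jetU f z)) ≤ C * rho z := by
  set d : GIdx → ℝ := fun i => rho i.z with hdef
  have hd : ∀ i, 0 ≤ d i := fun i => (rho_pos i.hz).le
  have hu : ∀ k, Near d (fun i : GIdx => jetU i.f i.z k) (fun i => jetU i.f i.z k) := by
    intro k
    obtain ⟨C, hC⟩ := jetU_bound k
    exact Near.self hd ⟨C, fun i => hC i.f i.hf i.z i.hz⟩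
  have hx : Near d (fun _ : GIdx => (-((1 : ℝ) : ℂ))) (fun i => (-(((‖i.z‖ ^ 2 : ℝ)) : ℂ))) := by
    refine ⟨1, zero_le_one, fun i => ⟨?_, ?_, ?_⟩⟩
    · simp
    · rw [norm_neg, Complex.norm_real, Real.norm_eq_abs, abs_of_nonneg (by positivity)]
      exact pow_le_one₀ (norm_nonneg _) i.hz.le
    · have e : (-((1 : ℝ) : ℂ)) - (-(((‖i.z‖ ^ 2 : ℝ)) : ℂ)) = -((rho i.z : ℝ) : ℂ) := by
        unfold rho
        push_cast
        ring
      rw [e, norm_neg, Complex.norm_real, Real.norm_eq_abs, abs_of_nonneg (hd i), one_mul]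
  have hs : ∀ k, Near d (fun i : GIdx => shiftC 1 (jetU i.f i.z) k)
      (fun i => shiftC (‖i.z‖ ^ 2) (jetU i.f i.z) k) := by
    intro k
    unfold shiftC
    refine Near.sum _ hd fun j _ => ?_
    exact ((Near.const hd _).mul hd (hx.pow hd _)).mul hd (hu j)
  have hg0 : Near d (fun i : GIdx => (p0 : ℂ) + (p1 : ℂ) * jetU i.f i.z 1)
      (fun i => (p0 : ℂ) + (p1 : ℂ) * jetU i.f i.z 1) :=
    (Near.const hd _).add ((Near.const hd _).mul hd (hu 1))
  have hX : ∀ n : ℕ, ∃ M : ℝ, ∀ i : GIdx,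
      |‖((p0 : ℂ) + (p1 : ℂ) * jetU i.f i.z 1) *
          powC (-1 / 2) (shiftC 1 (jetU i.f i.z)) (n + 1) +
          (p2 : ℂ) * powC (-3 / 2) (shiftC 1 (jetU i.f i.z)) (n + 2)‖ ^ 2 -
        ‖((p0 : ℂ) + (p1 : ℂ) * jetU i.f i.z 1) *
          powC (-1 / 2) (shiftC (‖i.z‖ ^ 2) (jetU i.f i.z)) (n + 1) +
          (p2 : ℂ) * powC (-3 / 2) (shiftC (‖i.z‖ ^ 2) (jetU i.f i.z)) (n + 2)‖ ^ 2| ≤ M * d i :=
    fun n => ((hg0.mul hd (Near.powC hd _ hs _)).add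
      ((Near.const hd _).mul hd (Near.powC hd _ hs _))).sq_le
  have hY : ∃ M : ℝ, ∀ i : GIdx,
      |‖((p0 : ℂ) + (p1 : ℂ) * jetU i.f i.z 1) +
          (p2 : ℂ) * powC (-3 / 2) (shiftC 1 (jetU i.f i.z)) 1‖ ^ 2 -
        ‖((p0 : ℂ) + (p1 : ℂ) * jetU i.f i.z 1) +
          (p2 : ℂ) * powC (-3 / 2) (shiftC (‖i.z‖ ^ 2) (jetU i.f i.z)) 1‖ ^ 2| ≤ M * d i :=
    (hg0.add ((Near.const hd _).mul hd (Near.powC hd _ hs _))).sq_le
  choose M hM using hX
  obtain ⟨M', hM'⟩ := hY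
  refine ⟨(∑ n ∈ Finset.range K, ((n : ℝ) + 1 / 2) * M n) + 1 / 2 * M', fun f hf z hz hz0 => ?_⟩
  set i : GIdx := ⟨f, z, hf, hz⟩ with hi
  obtain ⟨Φ, hΦ1, hΦ2, hΦ3⟩ := koebe hf hz hz0
  have h0 : shiftC (‖z‖ ^ 2) (jetU f z) 0 = 1 := by
    rw [shiftC_zero, jetU_zero hf hz]
  have h1 := area_ineq hΦ1 hΦ2 _ hΦ3 h0 ((p0 : ℂ) + (p1 : ℂ) * jetU f z 1) (p2 : ℂ) K
  have h2 : areaQ K ((p0 : ℂ) + (p1 : ℂ) * jetU f z 1) (p2 : ℂ) (shiftC 1 (jetU f z)) -
      areaQ K ((p0 : ℂ) + (p1 : ℂ) * jetU f z 1) (p2 : ℂ) (shiftC (‖z‖ ^ 2) (jetU f z)) ≤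
      ((∑ n ∈ Finset.range K, ((n : ℝ) + 1 / 2) * M n) + 1 / 2 * M') * rho z := by
    unfold areaQ
    have h3 : ∑ n ∈ Finset.range K, ((n : ℝ) + 1 / 2) *
        ‖((p0 : ℂ) + (p1 : ℂ) * jetU f z 1) * powC (-1 / 2) (shiftC 1 (jetU f z)) (n + 1) +
          (p2 : ℂ) * powC (-3 / 2) (shiftC 1 (jetU f z)) (n + 2)‖ ^ 2 ≤
        ∑ n ∈ Finset.range K, (((n : ℝ) + 1 / 2) *
        ‖((p0 : ℂ) + (p1 : ℂ) * jetU f z 1) *
            powC (-1 / 2) (shiftC (‖z‖ ^ 2) (jetU f z)) (n + 1) +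
          (p2 : ℂ) * powC (-3 / 2) (shiftC (‖z‖ ^ 2) (jetU f z)) (n + 2)‖ ^ 2 +
          ((n : ℝ) + 1 / 2) * M n * rho z) := by
      refine Finset.sum_le_sum fun n _ => ?_
      have h4 := (le_abs_self _).trans (hM n i)
      have h5 : (0 : ℝ) ≤ (n : ℝ) + 1 / 2 := by positivity
      have h6 := mul_le_mul_of_nonneg_left h4 h5
      simp only [hdef, hi] at h6
      linarith
    rw [Finset.sum_add_distrib, ← Finset.sum_mul] at h3
    have h7 := (neg_abs_le _).trans' (neg_le_neg (hM' i))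
    simp only [hdef, hi] at h7
    linarith
  linarith

end Vale.Agent.P142
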