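import Vale.Agent.P142.Defs2
import Vale.Agent.P142.Diverg
import Vale.Agent.P142.Pert

/-!
# P142: module S2, the inequality `(*)` from the certificate
-/

open Complex MeasureTheory Metric Set Filter Topology

namespace Vale.Agent.P142

/-- the divergence bound for all forms in the span -/
theorem ndiv_bound {t a : ℝ} (ha : 1 < a) {h : (ℕ → ℂ) → ℝ} (hh : h ∈ Ndiv t a) :
    (∀ f, Good f → IntegrableOn (fun z => h (jetU f z) * wt t (a - 1) f z) (ball 0 1)) ∧
    ∃ C : ℝ, ∀ f, Good f →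
      |∫ z in ball (0 : ℂ) 1, h (jetU f z) * wt t (a - 1) f z| ≤ C * In t a f := by
  unfold Ndiv at hh
  induction hh using Submodule.span_induction with
  | mem x hx =>
    obtain ⟨l, l', rfl⟩ := hx
    exact ⟨fun f hf => div_integrable t a ha l l' hf, div_bound t a ha l l'⟩
  | zero =>
    refine ⟨fun f _ => ?_, 0, fun f _ => ?_⟩
    · simp only [Pi.zero_apply, zero_mul]
      exact integrableOn_zero
    · simp
  | add x y _ _ hx hy =>
    obtain ⟨hx1, C, hC⟩ := hx
    obtain ⟨hy1, C', hC'⟩ := hy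
    refine ⟨fun f hf => ?_, C + C', fun f hf => ?_⟩
    · simp only [Pi.add_apply, add_mul]
      exact (hx1 f hf).add (hy1 f hf)
    · simp only [Pi.add_apply, add_mul]
      rw [integral_add (hx1 f hf) (hy1 f hf)]
      exact (abs_add_le _ _).trans (add_le_add (hC f hf) (hC' f hf))
  | smul c x _ hx =>
    obtain ⟨hx1, C, hC⟩ := hx
    refine ⟨fun f hf => ?_, |c| * C, fun f hf => ?_⟩
    · simp only [Pi.smul_apply, smul_eq_mul, mul_assoc]
      exact (hx1 f hf).const_mul c
    · simp only [Pi.smul_apply, smul_eq_mul, mul_assoc]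
      rw [integral_const_mul, abs_mul]
      exact mul_le_mul_of_nonneg_left (hC f hf) (abs_nonneg c)

/-- S2 from the perturbation bound S1 -/
theorem star_of_cert_of {t a : ℝ} (ha : 1 < a) {K : ℕ} {p0 p1 p2 : ℝ}
    (hP : ∃ C : ℝ, ∀ f, Good f → ∀ z : ℂ, ‖z‖ < 1 → z ≠ 0 →
      areaQ K ((p0 : ℂ) + (p1 : ℂ) * jetU f z 1) (p2 : ℂ) (shiftC 1 (jetU f z)) ≤ C * rho z)
    (hc : Cert t a K p0 p1 p2) :
    ∃ C : ℝ, ∀ f, Good f → In t (a - 1) f ≤ C * In t a f := by
  obtain ⟨C₁, hC₁⟩ := hP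
  obtain ⟨h, hh, κ, hκ, lam, hlam, hcert⟩ := hc
  obtain ⟨hint, C₂, hC₂⟩ := ndiv_bound ha hh
  refine ⟨(C₂ + lam * C₁) / κ, fun f hf => ?_⟩
  obtain ⟨R, hR, hd, -, h0⟩ := hf.exR
  have hi1 : IntegrableOn (fun z => wt t (a - 1) f z) (ball 0 1) := by
    have := integrableOn_mul_wt t (a - 1) (by linarith) hR hd h0
      (X := fun _ => 1) continuousOn_const
    simpa using this
  have hi2 : IntegrableOn (fun z => wt t a f z) (ball 0 1) := by
    have := integrableOn_mul_wt t a (by linarith) hR hd h0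
      (X := fun _ => 1) continuousOn_const
    simpa using this
  have hpt : ∀ᵐ z ∂(volume.restrict (ball (0 : ℂ) 1)),
      κ * wt t (a - 1) f z ≤ h (jetU f z) * wt t (a - 1) f z + lam * C₁ * wt t a f z := by
    have hz0 : ∀ᵐ z ∂(volume.restrict (ball (0 : ℂ) 1)), z ≠ 0 := by
      rw [ae_iff]
      simp only [ne_eq, not_not, Set.ofPred_eq_eq_singleton]
      exact measure_singleton _
    filter_upwards [ae_restrict_mem measurableSet_ball, hz0] with z hz hz0
    have hz1 : ‖z‖ < 1 := by simpa using hz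
    have hw : wt t a f z = rho z * wt t (a - 1) f z := by
      unfold wt
      have : rho z ^ a = rho z ^ (a - 1) * rho z := by
        conv_lhs => rw [show a = (a - 1) + 1 by ring]
        rw [Real.rpow_add_one (rho_pos_ball hz).ne']
      rw [this]
      ring
    have hw0 := wt_nonneg t (a - 1) f hz
    have h1 := hcert (jetU f z) (jetU_zero hf hz1)
    have h2 := hC₁ f hf z hz1 hz0
    have h3 : lam * areaQ K ((p0 : ℂ) + (p1 : ℂ) * jetU f z 1) (p2 : ℂ) (shiftC 1 (jetU f z)) ≤
        lam * (C₁ * rho z) := mul_le_mul_of_nonneg_left h2 hlam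
    have h4 : κ ≤ h (jetU f z) + lam * C₁ * rho z := by linarith
    calc κ * wt t (a - 1) f z ≤ (h (jetU f z) + lam * C₁ * rho z) * wt t (a - 1) f z :=
          mul_le_mul_of_nonneg_right h4 hw0
      _ = _ := by rw [hw]; ring
  have h5 : κ * In t (a - 1) f ≤
      (∫ z in ball (0 : ℂ) 1, h (jetU f z) * wt t (a - 1) f z) + lam * C₁ * In t a f := by
    unfold In
    rw [← integral_const_mul, ← integral_const_mul, ← integral_add (hint f hf) (hi2.const_mul _)]
    exact integral_mono_ae (hi1.const_mul κ) ((hint f hf).add (hi2.const_mul _)) hpt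
  have h6 := (le_abs_self _).trans (hC₂ f hf)
  rw [div_mul_eq_mul_div, le_div_iff₀ hκ]
  linarith

/-- S2: the inequality `(*)` from the certificate -/
theorem star_of_cert {t a : ℝ} (ha : 1 < a) {K : ℕ} {p0 p1 p2 : ℝ} (hc : Cert t a K p0 p1 p2) :
    ∃ C : ℝ, ∀ f, Good f → In t (a - 1) f ≤ C * In t a f :=
  star_of_cert_of ha (areaQ_pert K p0 p1 p2) hc

end Vale.Agent.P142
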