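import Vale.Agent.P142.Sound3
import Vale.Agent.P142.Star
import Vale.Agent.P142.Star2
import Vale.Agent.P142.Spec
import Vale.Agent.P142.Range

/-!
# P142: from certificates to bounds
-/

open Complex MeasureTheory Metric Set Filter Topology

namespace Vale.Agent.P142

theorem BS_le_of_cert {a : ℝ} (ha : 1 < a) {K : ℕ} {p0 p1 p2 : ℝ} (hc : Cert (-2) a K p0 p1 p2) :
    BS (-2) ≤ (a : EReal) := by
  obtain ⟨C, hC⟩ := bound_of_star ha (by norm_num) (by linarith) (star_of_cert ha hc)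
  exact BS_le a ha C hC

theorem range_of_cert {τ η : ℝ} (hτ : 0 < τ) (hτ2 : τ < 2) (hη : 0 < η) {K : ℕ} {p0 p1 p2 : ℝ}
    (hc : Cert (-τ) (1 + η) K p0 p1 p2) {W : Set ℂ} (hW : IsOpen W) {φ : ℂ → ℂ}
    (hφ : DifferentiableOn ℂ φ W) (hb : BijOn φ W (ball 0 1)) {s : ℝ} (h2 : 2 ≤ s)
    (hs : s - 2 < τ / (1 + η)) :
    ∫⁻ z in W, ENNReal.ofReal (‖deriv φ z‖ ^ s) < ⊤ := by
  obtain ⟨C, hC⟩ := bound_of_star (by linarith) (by linarith) (by linarith)
    (star_of_cert (by linarith) hc)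
  rw [add_sub_cancel_left] at hC
  exact range_bound τ η C hτ hη hC hW hφ hb h2 hs

end Vale.Agent.P142
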