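import Vale.Agent.P142.Ck
import Vale.Agent.P142.AreaIneq

/-!
# P142: soundness of the certificate checker, part 1 (lists of terms)
-/

open Complex

namespace Vale.Agent.P142.Ck

section gen

variable {V : Type*} [AddCommGroup V] (w : List ℕ → List ℕ → V)

/-- value of a form -/
def ev (F : List Tm) : V := (F.map fun x => x.c • w x.p x.q).sum

@[simp] theorem ev_nil : ev w [] = 0 := rfl

@[simp] theorem ev_cons (x : Tm) (F : List Tm) : ev w (x :: F) = x.c • w x.p x.q + ev w F := by
  simp [ev]

@[simp] theorem ev_append (F G : List Tm) : ev w (F ++ G) = ev w F + ev w G := by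
  simp [ev]

theorem eqL_eq : ∀ {p q : List ℕ}, eqL p q = true → p = q
  | [], [], _ => rfl
  | [], _ :: _, h => by simp [eqL] at h
  | _ :: _, [], h => by simp [eqL] at h
  | x :: p, y :: q, h => by
    simp only [eqL, Bool.and_eq_true] at h
    rw [Nat.eq_of_beq_eq_true h.1, eqL_eq h.2]

theorem ev_mrg (n : ℕ) (F G : List Tm) : ev w (mrg n F G) = ev w F + ev w G := by
  induction n generalizing F G with
  | zero => simp [mrg]
  | succ n ih =>
    cases F with
    | nil => simp [mrg]
    | cons x F =>
      cases G with
      | nil => simp [mrg]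
      | cons y G =>
        simp only [mrg]
        cases h1 : Nat.ble x.k y.k with
        | false =>
          simp only [cond_false, ev_cons, ih]
          abel
        | true =>
          simp only [cond_true]
          cases h2 : (Nat.beq x.k y.k && (eqL x.p y.p && eqL x.q y.q)) with
          | false =>
            simp only [cond_false, ev_cons, ih]
            abel
          | true =>
            simp only [Bool.and_eq_true] at h2
            simp only [cond_true, ev_cons, ih]
            rw [← eqL_eq h2.2.1, ← eqL_eq h2.2.2, add_smul]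
            abel

theorem ev_pass (n : ℕ) : ∀ L : List (List Tm),
    ((pass n L).map (ev w)).sum = (L.map (ev w)).sum
  | [] => by simp [pass]
  | [x] => by simp [pass]
  | x :: y :: l => by
    simp only [pass, List.map_cons, List.sum_cons, ev_mrg, ev_pass n l]
    abel

theorem ev_flatten (L : List (List Tm)) : ev w L.flatten = (L.map (ev w)).sum := by
  induction L with
  | nil => simp
  | cons x l ih => simp [ih]

theorem ev_msort (n m : ℕ) (L : List (List Tm)) : ev w (msort n m L) = (L.map (ev w)).sum := by
  induction m generalizing L with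
  | zero => simp [msort, ev_flatten]
  | succ m ih =>
    cases L with
    | nil => simp [msort]
    | cons x l =>
      cases l with
      | nil => simp [msort]
      | cons y l =>
        simp only [msort]
        rw [ih, ev_pass]

theorem ev_srt (F : List Tm) : ev w (srt F) = ev w F := by
  unfold srt
  rw [ev_msort]
  induction F with
  | nil => simp
  | cons x F ih => simp_all

theorem ev_flatMap {α : Type*} (l : List α) (f : α → List Tm) :
    ev w (l.flatMap f) = (l.map fun x => ev w (f x)).sum := by
  induction l with
  | nil => simp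
  | cons x l ih => simp [ih]

theorem ev_scl (s : ℤ) (F : List Tm) : ev w (scl s F) = s • ev w F := by
  unfold scl
  induction F with
  | nil => simp
  | cons x F ih =>
    simp only [List.map_cons, ev_cons, ih, smul_add, mul_smul]

theorem ev_filter (b : Tm → Bool) (F : List Tm) :
    ev w (F.filter fun x => !(b x)) + ev w (F.filter b) = ev w F := by
  induction F with
  | nil => simp
  | cons x F ih =>
    cases h : b x with
    | false =>
      simp only [List.filter_cons, h, Bool.not_false, if_true, ev_cons, Bool.false_eq_true,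
        if_false]
      rw [← ih]
      abel
    | true =>
      simp only [List.filter_cons, h, Bool.not_true, if_true, ev_cons, Bool.false_eq_true,
        if_false]
      rw [← ih]
      abel

variable (hs : ∀ p q, w p q = w q p)
include hs

theorem mkT_val (c : ℤ) (p q : List ℕ) : (mkT c p q).c • w (mkT c p q).p (mkT c p q).q =
    c • w p q := by
  unfold mkT
  cases Nat.ble (kp q) (kp p) with
  | false => simp only [cond_false]; rw [hs q p]
  | true => simp only [cond_true]

theorem ev_canon (F : List Tm) : ev w (canon F) = ev w F := by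
  unfold canon
  rw [ev_srt]
  induction F with
  | nil => simp
  | cons x F ih =>
    simp only [List.map_cons, ev_cons, ih, mkT_val w hs]

theorem ev_flp (F : List Tm) : ev w (flp F) = ev w F := by
  unfold flp
  rw [ev_srt]
  induction F with
  | nil => simp
  | cons x F ih =>
    simp only [List.map_cons, ev_cons, ih]
    rw [hs x.q x.p]

end gen

/-! monomials -/

theorem mon_nil' (u : ℕ → ℂ) : mon [] u = 1 := by simp [mon]

theorem mon_cons' (k : ℕ) (l : List ℕ) (u : ℕ → ℂ) : mon (k :: l) u = u k * mon l u := by
  simp [mon]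

theorem mon_ins (k : ℕ) (l : List ℕ) (u : ℕ → ℂ) : mon (ins k l) u = u k * mon l u := by
  induction l with
  | nil => simp [ins, mon]
  | cons x l ih =>
    simp only [ins]
    cases Nat.ble k x with
    | false =>
      simp only [cond_false, mon_cons', ih]
      ring
    | true => simp only [cond_true, mon_cons']

theorem sum_ins (k : ℕ) (l : List ℕ) : (ins k l).sum = k + l.sum := by
  induction l with
  | nil => simp [ins]
  | cons x l ih =>
    simp only [ins]
    cases Nat.ble k x with
    | false =>
      simp only [cond_false, List.sum_cons, ih]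
      ring
    | true => simp only [cond_true, List.sum_cons]

theorem mon_mulM (p q : List ℕ) (u : ℕ → ℂ) : mon (mulM p q) u = mon p u * mon q u := by
  induction p with
  | nil => simp [mulM, mon]
  | cons x p ih => simp only [mulM, mon_ins, ih, mon_cons', mul_assoc]

/-- the value of a pair of monomials -/
noncomputable def w0 (u : ℕ → ℂ) (p q : List ℕ) : ℝ := (mon p u * (starRingEnd ℂ) (mon q u)).re

theorem w0_symm (u : ℕ → ℂ) (p q : List ℕ) : w0 u p q = w0 u q p := by
  simp only [w0, mul_re, conj_re, conj_im]
  ring

/-! Gram lists -/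

theorem dot_eq (a b : List ℤ) (r : ℕ) (h : a.length ≤ r) :
    dot a b = ∑ k ∈ Finset.range r, a.getD k 0 * b.getD k 0 := by
  induction a generalizing b r with
  | nil => simp [dot]
  | cons x a ih =>
    cases r with
    | zero => simp at h
    | succ r =>
      cases b with
      | nil => simp [dot]
      | cons y b =>
        rw [Finset.sum_range_succ']
        simp only [dot, List.getD_cons_zero, List.getD_cons_succ]
        rw [ih b r (by simpa using h), add_comm]

/-- generator value -/
noncomputable def zz (u : ℕ → ℂ) (x : Gt) : ℂ := mon x.g u * (starRingEnd ℂ) (mon x.q u)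

/-- `k`-th vector component -/
noncomputable def vk (u : ℕ → ℂ) (k : ℕ) (xs : List Gt) : ℂ :=
  (xs.map fun x => ((x.v.getD k 0 : ℤ) : ℂ) * zz u x).sum

theorem vk_cons (u : ℕ → ℂ) (k : ℕ) (x : Gt) (xs : List Gt) :
    vk u k (x :: xs) = ((x.v.getD k 0 : ℤ) : ℂ) * zz u x + vk u k xs := by
  simp [vk]

theorem w0_cross (u : ℕ → ℂ) (x y : Gt) :
    w0 u (mulM x.g y.q) (mulM y.g x.q) = (zz u x * (starRingEnd ℂ) (zz u y)).re := by
  unfold w0 zz
  congr 1
  rw [mon_mulM, mon_mulM, map_mul, map_mul, Complex.conj_conj]
  ring

theorem cross_sum (u : ℕ → ℂ) (x : Gt) (r : ℕ) (h : x.v.length ≤ r) (xs : List Gt) :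
    ev (w0 u) (xs.map (fun y => mkT (2 * dot x.v y.v) (mulM x.g y.q) (mulM y.g x.q))) =
      ∑ k ∈ Finset.range r, 2 * ((x.v.getD k 0 : ℤ) : ℝ) *
        (zz u x * (starRingEnd ℂ) (vk u k xs)).re := by
  induction xs with
  | nil => simp [vk]
  | cons y ys ih =>
    simp only [List.map_cons, ev_cons, ih, mkT_val (w0 u) (w0_symm u)]
    rw [w0_cross, dot_eq _ _ r h]
    have e : ∀ k, 2 * ((x.v.getD k 0 : ℤ) : ℝ) * (zz u x * (starRingEnd ℂ) (vk u k (y :: ys))).re =
        2 * ((x.v.getD k 0 * y.v.getD k 0 : ℤ) : ℝ) * (zz u x * (starRingEnd ℂ) (zz u y)).re +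
        2 * ((x.v.getD k 0 : ℤ) : ℝ) * (zz u x * (starRingEnd ℂ) (vk u k ys)).re := by
      intro k
      rw [vk_cons]
      simp only [map_add, map_mul, map_intCast, mul_re, add_re, add_im, mul_im, conj_re,
        conj_im, intCast_re, intCast_im]
      push_cast
      ring
    simp only [e, Finset.sum_add_distrib]
    congr 1
    rw [← Finset.sum_mul, ← Finset.mul_sum, zsmul_eq_mul]
    push_cast
    ring

theorem ev_gram (u : ℕ → ℂ) (r : ℕ) (xs : List Gt) (h : ∀ x ∈ xs, x.v.length ≤ r) :
    ev (w0 u) (gram xs) = ∑ k ∈ Finset.range r, ‖vk u k xs‖ ^ 2 := by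
  induction xs with
  | nil => simp [gram, vk]
  | cons x xs ih =>
    have hx : x.v.length ≤ r := h x (by simp)
    simp only [gram, ev_cons, ev_append]
    rw [ih (fun y hy => h y (by simp [hy])), cross_sum u x r hx, mkT_val (w0 u) (w0_symm u),
      dot_eq _ _ r hx]
    have e : ∀ k, ‖vk u k (x :: xs)‖ ^ 2 =
        ((x.v.getD k 0 * x.v.getD k 0 : ℤ) : ℝ) * w0 u (mulM x.g x.q) (mulM x.g x.q) +
        (2 * ((x.v.getD k 0 : ℤ) : ℝ) * (zz u x * (starRingEnd ℂ) (vk u k xs)).re +
          ‖vk u k xs‖ ^ 2) := by
      intro k
      rw [w0_cross, vk_cons, ← Complex.normSq_eq_norm_sq, ← Complex.normSq_eq_norm_sq,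
        Complex.normSq_apply, Complex.normSq_apply]
      simp only [mul_re, add_re, add_im, mul_im, conj_re,
        conj_im, intCast_re, intCast_im]
      push_cast
      ring
    simp only [e, Finset.sum_add_distrib]
    rw [← Finset.sum_mul, zsmul_eq_mul]
    push_cast
    rfl

theorem ev_gram_nonneg (u : ℕ → ℂ) (xs : List Gt) : 0 ≤ ev (w0 u) (gram xs) := by
  obtain ⟨r, hr⟩ : ∃ r : ℕ, ∀ x ∈ xs, x.v.length ≤ r := by
    induction xs with
    | nil => exact ⟨0, by simp⟩
    | cons x xs ih =>
      obtain ⟨r, hr⟩ := ih
      refine ⟨max r x.v.length, fun y hy => ?_⟩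
      rcases List.mem_cons.mp hy with rfl | hy
      · exact le_max_right _ _
      · exact (hr y hy).trans (le_max_left _ _)
  rw [ev_gram u r xs hr]
  exact Finset.sum_nonneg fun _ _ => by positivity

end Vale.Agent.P142.Ck
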