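import Vale.Agent.P142.Sound1

/-!
# P142: soundness of the certificate checker, part 2 (the area form)
-/

open Complex

namespace Vale.Agent.P142.Ck

/-- value of a polynomial -/
noncomputable def pe (u : ℕ → ℂ) (F : List Tm) : ℂ := ev (fun p _ => mon p u) F

theorem pe_nil (u : ℕ → ℂ) : pe u [] = 0 := rfl

theorem pe_cons (u : ℕ → ℂ) (x : Tm) (F : List Tm) :
    pe u (x :: F) = (x.c : ℂ) * mon x.p u + pe u F := by
  unfold pe
  rw [ev_cons, zsmul_eq_mul]

theorem pe_append (u : ℕ → ℂ) (F G : List Tm) : pe u (F ++ G) = pe u F + pe u G := by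
  unfold pe
  rw [ev_append]

theorem pe_srt (u : ℕ → ℂ) (F : List Tm) : pe u (srt F) = pe u F := by
  unfold pe
  rw [ev_srt]

theorem pe_mulP (u : ℕ → ℂ) (s : ℤ) (F G : List Tm) :
    pe u (mulP s F G) = (s : ℂ) * pe u F * pe u G := by
  unfold mulP
  induction F with
  | nil => simp [pe_nil]
  | cons x F ih =>
    rw [List.flatMap_cons, pe_append, ih, pe_cons]
    have : pe u (G.map fun y => ⟨kp (mulM x.p y.p), s * x.c * y.c, mulM x.p y.p, []⟩) =
        (s : ℂ) * ((x.c : ℂ) * mon x.p u) * pe u G := by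
      clear ih
      induction G with
      | nil => simp [pe_nil]
      | cons y G ih =>
        rw [List.map_cons, pe_cons, ih, pe_cons]
        simp only [mon_mulM]
        push_cast
        ring
    rw [this]
    ring

theorem pe_map_range (u : ℕ → ℂ) (n : ℕ) (f : ℕ → Tm) :
    pe u ((List.range n).map f) = ∑ i ∈ Finset.range n, ((f i).c : ℂ) * mon (f i).p u := by
  induction n with
  | zero => simp [pe_nil]
  | succ n ih =>
    rw [List.range_succ, List.map_append, pe_append, ih, Finset.sum_range_succ]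
    simp [pe_cons, pe_nil]

theorem pe_cPol (u : ℕ → ℂ) (h0 : u 0 = 1) (k : ℕ) : pe u (cPol k) = shiftC 1 u k := by
  unfold cPol shiftC
  rw [pe_map_range]
  refine Finset.sum_congr rfl fun i _ => ?_
  cases i with
  | zero =>
    simp [mon, h0]
  | succ j =>
    simp only [mon_cons', mon_nil']
    push_cast
    ring

theorem pe_nxt (u : ℕ → ℂ) (h0 : u 0 = 1) (m : ℤ) (n : ℕ) (Ps : List (List Tm)) (j : ℕ) :
    pe u (nxt m n j Ps) = ∑ i ∈ Finset.range Ps.length,
      (((-m * ((j + i : ℕ) + 1) - 2 * ((n : ℤ) - (j + i : ℕ))) * 2 * 4 ^ (j + i) *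
        (n.descFactorial (j + i) : ℤ) : ℤ) : ℂ) * shiftC 1 u (j + i + 1) *
          pe u (Ps.getD i []) := by
  induction Ps generalizing j with
  | nil => simp [nxt, pe_nil]
  | cons P Ps ih =>
    rw [nxt, pe_append, ih, pe_mulP, pe_cPol u h0, List.length_cons, Finset.sum_range_succ', add_comm]
    congr 1
    · refine Finset.sum_congr rfl fun i _ => ?_
      rw [List.getD_cons_succ, show j + 1 + i = j + (i + 1) by ring]

theorem tab_length (m : ℤ) (n : ℕ) : (tab m n).length = n + 1 := by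
  induction n with
  | zero => rfl
  | succ n ih => simp [tab, ih]

theorem pe_tab (u : ℕ → ℂ) (h0 : u 0 = 1) (m : ℤ) (n : ℕ) : ∀ i ≤ n,
    pe u ((tab m n).getD i []) =
      ((n - i).factorial : ℂ) * 4 ^ (n - i) * powC (-(m : ℝ) / 2) (shiftC 1 u) (n - i) := by
  induction n with
  | zero =>
    intro i hi
    obtain rfl : i = 0 := Nat.le_zero.mp hi
    simp [tab, pe_cons, pe_nil, mon, ai_powC_zero]
  | succ n ih =>
    intro i hi
    cases i with
    | succ i =>
      rw [tab, List.getD_cons_succ, ih i (by omega), show n + 1 - (i + 1) = n - i by omega]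
    | zero =>
      rw [tab, List.getD_cons_zero, pe_srt, pe_nxt u h0, tab_length, Nat.sub_zero, ai_powC_succ,
        Nat.factorial_succ, Finset.mul_sum, Finset.mul_sum]
      refine Finset.sum_congr rfl fun j hj => ?_
      have hj' : j ≤ n := Nat.lt_succ_iff.mp (Finset.mem_range.mp hj)
      rw [ih j hj', zero_add]
      have e1 : (n.descFactorial j : ℂ) * ((n - j).factorial : ℂ) = (n.factorial : ℂ) := by
        rw [mul_comm]
        exact_mod_cast Nat.factorial_mul_descFactorial hj'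
      have e2 : (4 : ℂ) ^ j * 4 ^ (n - j) = 4 ^ n := by
        rw [← pow_add]
        congr 1
        omega
      have e3 : ((n : ℂ) + 1) ≠ 0 := by exact_mod_cast Nat.succ_ne_zero n
      push_cast
      field_simp
      have e4 : (4 : ℂ) ^ (n + 1) = 4 * (4 ^ j * 4 ^ (n - j)) := by rw [e2, pow_succ]; ring
      rw [e4, ← e1]
      ring

theorem pe_head (u : ℕ → ℂ) (h0 : u 0 = 1) (m : ℤ) (n : ℕ) :
    pe u ((tab m n).headD []) =
      (n.factorial : ℂ) * 4 ^ n * powC (-(m : ℝ) / 2) (shiftC 1 u) n := by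
  have := pe_tab u h0 m n 0 (Nat.zero_le _)
  rw [Nat.sub_zero] at this
  rw [← this]
  congr 1
  have hl := tab_length m n
  cases h : tab m n with
  | nil => simp [h] at hl
  | cons a l => simp

theorem sS_ne (n : ℕ) : sS n ≠ 0 := by
  unfold sS
  positivity

/-- `g0 powC(-1/2) n + g1 powC(-3/2) (n+1)` -/
noncomputable def bet (g0 g1 : ℂ) (c : ℕ → ℂ) (n : ℕ) : ℂ :=
  g0 * powC (-1 / 2) c n + g1 * powC (-3 / 2) c (n + 1)

theorem pe_bt (u : ℕ → ℂ) (h0 : u 0 = 1) (p0 p1 p2 : ℤ) (n : ℕ) :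
    pe u (bt p0 p1 p2 n) = (sS n : ℂ) * bet ((p0 : ℂ) + p1 * u 1) p2 (shiftC 1 u) n := by
  unfold bt
  rw [pe_srt, pe_append, pe_mulP, pe_mulP, pe_head u h0, pe_head u h0, pe_cons, pe_cons, pe_cons,
    pe_nil]
  unfold bet sS
  rw [Nat.factorial_succ]
  simp only [mon_cons', mon_nil']
  push_cast
  ring

theorem ev_toG (u : ℕ → ℂ) (F : List Tm) : ev (w0 u) (gram (toG F)) = ‖pe u F‖ ^ 2 := by
  rw [ev_gram u 1 (toG F)]
  · rw [Finset.sum_range_one]
    congr 2
    unfold toG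
    induction F with
    | nil => simp [vk, pe_nil]
    | cons x F ih =>
      rw [List.map_cons, vk_cons, ih, pe_cons]
      simp [zz, mon_nil']
  · intro x hx
    unfold toG at hx
    obtain ⟨y, _, rfl⟩ := List.mem_map.mp hx
    simp

theorem sS_dvd {n K : ℕ} (h : n ≤ K) : (sS K / sS n) * sS n = sS K := by
  refine Nat.div_mul_cancel ?_
  unfold sS
  exact Nat.mul_dvd_mul (Nat.factorial_dvd_factorial (by omega)) (pow_dvd_pow _ (by omega))

theorem ev_range_flatMap {V : Type*} [AddCommGroup V] (w : List ℕ → List ℕ → V) (n : ℕ)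
    (f : ℕ → List Tm) : ev w ((List.range n).flatMap f) = ∑ i ∈ Finset.range n, ev w (f i) := by
  induction n with
  | zero => simp
  | succ n ih =>
    rw [List.range_succ, List.flatMap_append, ev_append, ih, Finset.sum_range_succ]
    simp

theorem ev_qForm (u : ℕ → ℂ) (h0 : u 0 = 1) (p0 p1 p2 : ℤ) (K : ℕ) :
    ev (w0 u) (qForm p0 p1 p2 K) =
      -(2 * (sS K : ℝ) ^ 2 * areaQ K ((p0 : ℂ) + p1 * u 1) p2 (shiftC 1 u)) := by
  unfold qForm
  rw [ev_append, ev_range_flatMap, ev_append, ev_scl, ev_toG, pe_bt u h0, ev_cons, ev_nil]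
  have hn : ∀ n ∈ Finset.range K, ev (w0 u) (scl (-(2 * n + 1) * ((sS K / sS (n + 1)) ^ 2 : ℕ))
      (gram (toG (bt p0 p1 p2 (n + 1))))) = -((2 * (n : ℝ) + 1) * ((sS K : ℝ) ^ 2 *
        ‖bet ((p0 : ℂ) + p1 * u 1) p2 (shiftC 1 u) (n + 1)‖ ^ 2)) := by
    intro n hn
    have hn' : n + 1 ≤ K := Finset.mem_range.mp hn
    rw [ev_scl, ev_toG, pe_bt u h0, norm_mul, Complex.norm_natCast, mul_pow, zsmul_eq_mul]
    have e : ((sS K / sS (n + 1) : ℕ) : ℝ) * (sS (n + 1) : ℝ) = (sS K : ℝ) := by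
      exact_mod_cast sS_dvd hn'
    generalize sS K / sS (n + 1) = d at e
    rw [← e]
    push_cast
    ring
  rw [Finset.sum_congr rfl hn, norm_mul, Complex.norm_natCast, mul_pow, zsmul_eq_mul, zsmul_eq_mul]
  have e : ((sS K / sS 0 : ℕ) : ℝ) * (sS 0 : ℝ) = (sS K : ℝ) := by
    exact_mod_cast sS_dvd (Nat.zero_le K)
  have e3 : ‖bet ((p0 : ℂ) + p1 * u 1) p2 (shiftC 1 u) 0‖ =
      ‖((p0 : ℂ) + p1 * u 1) + p2 * powC (-3 / 2) (shiftC 1 u) 1‖ := by
    unfold bet
    rw [ai_powC_zero, mul_one]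
  have e4 : ‖(p2 : ℂ)‖ ^ 2 = (p2 : ℝ) ^ 2 := by
    rw [← Complex.ofReal_intCast, Complex.norm_real, Real.norm_eq_abs, sq_abs]
  unfold areaQ
  rw [e3, e4, mul_sub, Finset.mul_sum]
  have e5 : w0 u [] [] = 1 := by simp [w0, mon_nil']
  simp only [e5]
  have e6 : ∑ n ∈ Finset.range K, -((2 * (n : ℝ) + 1) * ((sS K : ℝ) ^ 2 *
        ‖bet ((p0 : ℂ) + p1 * u 1) p2 (shiftC 1 u) (n + 1)‖ ^ 2)) =
      -∑ n ∈ Finset.range K, 2 * (sS K : ℝ) ^ 2 * (((n : ℝ) + 1 / 2) *
      ‖((p0 : ℂ) + p1 * u 1) * powC (-1 / 2) (shiftC 1 u) (n + 1) +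
        p2 * powC (-3 / 2) (shiftC 1 u) (n + 2)‖ ^ 2) := by
    rw [← Finset.sum_neg_distrib]
    refine Finset.sum_congr rfl fun n _ => ?_
    unfold bet
    ring
  rw [e6]
  generalize sS K / sS 0 = d at e
  push_cast
  rw [← e]
  ring

end Vale.Agent.P142.Ck
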