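import Vale.Agent.P142.Sound2

/-!
# P142: soundness of the certificate checker, part 3 (lifting and the final theorem)
-/

open Complex

namespace Vale.Agent.P142.Ck

section lift

variable (a td : ℝ)

/-- the scale of level `n` -/
noncomputable def sc : ℕ → ℝ
  | 0 => 1
  | n + 1 => sc n / (td * (a + n))

/-- scaled symbol -/
noncomputable def sf (p q : List ℕ) : (ℕ → ℂ) → ℝ := fun u => sc a td (p.sum + q.sum) * w0 u p q

theorem sf_symm (p q : List ℕ) : sf a td p q = sf a td q p := by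
  funext u
  simp only [sf]
  rw [w0_symm, add_comm]

theorem ev_sf_apply (F : List Tm) (u : ℕ → ℂ) :
    ev (sf a td) F u = ev (fun p q => sf a td p q u) F := by
  induction F with
  | nil => simp
  | cons x F ih => simp [ih]

end lift

/-- value of a list of monomials with coefficients -/
noncomputable def pd (u : ℕ → ℂ) (l : List (ℤ × List ℕ)) : ℂ :=
  (l.map fun y => (y.1 : ℂ) * mon y.2 u).sum

theorem pd_cons (u : ℕ → ℂ) (y : ℤ × List ℕ) (l : List (ℤ × List ℕ)) :
    pd u (y :: l) = (y.1 : ℂ) * mon y.2 u + pd u l := by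
  simp [pd]

theorem pd_dA (u : ℕ → ℂ) (td : ℤ) (p : List ℕ) :
    pd u (dA td p) = (td : ℂ) * (derL p u + 2 * p.length * u 1 * mon p u) := by
  induction p with
  | nil => simp [dA, pd, derL]
  | cons k l ih =>
    have e : pd u ((dA td l).map (fun x => (x.1, ins k x.2))) = u k * pd u (dA td l) := by
      clear ih
      induction dA td l with
      | nil => simp [pd]
      | cons y m ih =>
        rw [List.map_cons, pd_cons, ih, pd_cons]
        simp only [mon_ins]
        ring
    rw [dA, pd_cons, e, ih, derL]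
    simp only [mon_ins, mon_cons', List.length_cons]
    push_cast
    ring

theorem sum_dA (td : ℤ) (p : List ℕ) : ∀ y ∈ dA td p, y.2.sum = p.sum + 1 := by
  induction p with
  | nil => simp [dA]
  | cons k l ih =>
    intro y hy
    rw [dA, List.mem_cons] at hy
    rcases hy with rfl | hy
    · simp only [sum_ins, List.sum_cons]
      ring
    · obtain ⟨z, hz, rfl⟩ := List.mem_map.mp hy
      simp only [sum_ins, List.sum_cons, ih z hz]
      ring

theorem pd_dM (u : ℕ → ℂ) (tn td : ℤ) (t : ℝ) (ht : (tn : ℝ) = t * td) (p : List ℕ) :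
    pd u (dM tn td p) = (td : ℂ) * (derL p u + (t : ℂ) * u 1 * mon p u) := by
  have ht' : (tn : ℂ) = (t : ℂ) * (td : ℂ) := by exact_mod_cast congrArg (fun x : ℝ => (x : ℂ)) ht
  rw [dM, pd_cons, pd_dA]
  simp only [mon_ins]
  push_cast
  rw [ht']
  ring

theorem sum_dM (tn td : ℤ) (p : List ℕ) : ∀ y ∈ dM tn td p, y.2.sum = p.sum + 1 := by
  intro y hy
  rw [dM, List.mem_cons] at hy
  rcases hy with rfl | hy
  · simp only [sum_ins]
    ring
  · exact sum_dA td p y hy

theorem ev_exT (a t : ℝ) (ha : 0 < a) (tn td : ℤ) (htd : 0 < td) (ht : (tn : ℝ) = t * td) (x : Tm)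
    (u : ℕ → ℂ) :
    ev (sf a td) (exT tn td x) u = x.c * sf a td x.p x.q u +
      x.c * sc a td (x.p.sum + x.q.sum + 1) * td * divT t a x.p x.q u := by
  have e1 : ∀ l : List (ℤ × List ℕ), (∀ y ∈ l, y.2.sum = x.p.sum + 1) →
      ev (sf a td) (l.map fun y => (⟨key y.2 x.q, x.c * y.1, y.2, x.q⟩ : Tm)) u =
        x.c * sc a td (x.p.sum + x.q.sum + 1) * (pd u l * (starRingEnd ℂ) (mon x.q u)).re := by
    intro l hl
    induction l with
    | nil => simp [pd]
    | cons y m ih =>
      rw [List.map_cons, ev_cons, Pi.add_apply, ih (fun z hz => hl z (by simp [hz])), pd_cons,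
        add_mul, add_re]
      have h1 := hl y (by simp)
      simp only [Pi.smul_apply, zsmul_eq_mul, sf, h1]
      rw [show x.p.sum + 1 + x.q.sum = x.p.sum + x.q.sum + 1 by ring, mul_assoc ((y.1 : ℤ) : ℂ)]
      have : (((y.1 : ℤ) : ℂ) * (mon y.2 u * (starRingEnd ℂ) (mon x.q u))).re =
          (y.1 : ℝ) * w0 u y.2 x.q := by
        rw [← Complex.ofReal_intCast, Complex.re_ofReal_mul]
        rfl
      rw [this]
      push_cast
      ring
  rw [exT, e1 _ (sum_dM tn td x.p), pd_dM u tn td t ht]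
  have htd' : (0 : ℝ) < td := by exact_mod_cast htd
  have hn : (0 : ℝ) < a + (x.p.sum + x.q.sum : ℕ) := by positivity
  have e2 : sc a td (x.p.sum + x.q.sum) =
      sc a td (x.p.sum + x.q.sum + 1) * (td * (a + (x.p.sum + x.q.sum : ℕ))) := by
    rw [sc]
    field_simp
  have e3 : ((td : ℂ) * (derL x.p u + (t : ℂ) * u 1 * mon x.p u) *
      (starRingEnd ℂ) (mon x.q u)).re = td * (divT t a x.p x.q u +
        (a + (x.p.sum + x.q.sum : ℕ)) * w0 u x.p x.q) := by
    rw [mul_assoc, ← Complex.ofReal_intCast, Complex.re_ofReal_mul]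
    congr 1
    unfold divT w0
    rw [sub_mul, sub_re]
    have : (((a : ℂ) + x.p.sum + x.q.sum) * mon x.p u * (starRingEnd ℂ) (mon x.q u)).re =
        (a + (x.p.sum + x.q.sum : ℕ)) * (mon x.p u * (starRingEnd ℂ) (mon x.q u)).re := by
      generalize x.p.sum = m1
      generalize x.q.sum = m2
      rw [mul_assoc, ← Complex.re_ofReal_mul]
      push_cast
      ring_nf
    rw [this]
    ring
  rw [e3, sf, e2]
  ring

section steps

variable {a t : ℝ} (ha : 0 < a) {tn td : ℤ} (htd : 0 < td) (ht : (tn : ℝ) = t * td)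
include ha htd ht

theorem exT_mem (x : Tm) : ev (sf a td) (exT tn td x) - x.c • sf a td x.p x.q ∈ Ndiv t a := by
  have e : ev (sf a td) (exT tn td x) - x.c • sf a td x.p x.q =
      (x.c * sc a td (x.p.sum + x.q.sum + 1) * td) • divT t a x.p x.q := by
    funext u
    rw [Pi.sub_apply, ev_exT a t ha tn td htd ht x u, Pi.smul_apply, Pi.smul_apply, smul_eq_mul,
      zsmul_eq_mul]
    ring
  rw [e]
  exact Submodule.smul_mem _ _ (Submodule.subset_span ⟨x.p, x.q, rfl⟩)

theorem step_mem (w : ℕ) (F : List Tm) :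
    ev (sf a td) (step tn td w F) - ev (sf a td) F ∈ Ndiv t a := by
  unfold step
  rw [ev_mrg, ev_srt]
  rw [← ev_filter (sf a td) (fun x => Nat.beq x.p.sum w) F]
  rw [add_sub_add_left_eq_sub]
  induction F.filter fun x => Nat.beq x.p.sum w with
  | nil => simp
  | cons x F ih =>
    rw [List.flatMap_cons, ev_append, ev_cons, add_sub_add_comm]
    exact Submodule.add_mem _ (exT_mem ha htd ht x) ih

theorem steps_mem (W n : ℕ) (F : List Tm) :
    ev (sf a td) (steps tn td W n F) - ev (sf a td) F ∈ Ndiv t a := by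
  induction n generalizing F with
  | zero => simp [steps]
  | succ n ih =>
    rw [steps]
    have h1 := ih (step tn td (W - (n + 1)) F)
    have h2 := step_mem ha htd ht (W - (n + 1)) F
    have := Submodule.add_mem _ h1 h2
    rwa [sub_add_sub_cancel] at this

end steps

theorem fI_val (an ad td : ℤ) (had : 0 < ad) (htd : 0 < td) (han : 0 < an) (N n : ℕ) (h : n ≤ N) :
    (fI an ad td N n : ℝ) * sc (an / ad) td n = (ad : ℝ) ^ N := by
  have had' : (0 : ℝ) < ad := by exact_mod_cast had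
  have htd' : (0 : ℝ) < td := by exact_mod_cast htd
  have han' : (0 : ℝ) < an := by exact_mod_cast han
  have key : ∀ n : ℕ, ((((List.range n).map fun i : ℕ => td * (an + i * ad)).prod : ℤ) : ℝ) *
      sc (an / ad) td n = (ad : ℝ) ^ n := by
    intro n
    induction n with
    | zero => simp [sc]
    | succ n ih =>
      rw [List.range_succ, List.map_append, List.prod_append, sc, pow_succ, ← ih]
      simp only [List.map_cons, List.map_nil, List.prod_cons, List.prod_nil, mul_one]
      have h1 : (0 : ℝ) < td * (an / ad + n) := by positivity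
      push_cast
      field_simp
  rw [fI]
  push_cast
  rw [mul_assoc]
  have := key n
  push_cast at this
  rw [this, ← pow_add]
  congr 1
  omega

theorem ev_fac (an ad td : ℤ) (had : 0 < ad) (htd : 0 < td) (han : 0 < an) (N : ℕ) (F : List Tm)
    (hF : ∀ x ∈ F, x.p.sum + x.q.sum ≤ N) (u : ℕ → ℂ) :
    ev (sf (an / ad) td) (fac an ad td N F) u = (ad : ℝ) ^ N * ev (w0 u) F := by
  induction F with
  | nil => simp [fac]
  | cons x F ih =>
    have h1 := fI_val an ad td had htd han N _ (hF x (by simp))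
    have h2 := ih (fun y hy => hF y (by simp [hy]))
    unfold fac at h2 ⊢
    rw [List.map_cons, ev_cons, ev_cons, Pi.add_apply, h2, Pi.smul_apply, zsmul_eq_mul,
      zsmul_eq_mul, ← h1]
    simp only [sf]
    push_cast
    ring

theorem ev_sf_const (a td : ℝ) (N : ℕ) (F : List Tm) (hF : ∀ x ∈ F, x.p.sum + x.q.sum = N)
    (u : ℕ → ℂ) : ev (sf a td) F u = sc a td N * ev (w0 u) F := by
  induction F with
  | nil => simp
  | cons x F ih =>
    rw [ev_cons, ev_cons, Pi.add_apply, ih (fun y hy => hF y (by simp [hy])), Pi.smul_apply,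
      zsmul_eq_mul, zsmul_eq_mul]
    simp only [sf, hF x (by simp)]
    ring

theorem ddT_le (u : ℕ → ℂ) (x : Tm) :
    2 * (x.c * w0 u x.p x.q) ≤ ev (fun p _ => ‖mon p u‖ ^ 2) (ddT x) := by
  unfold ddT
  cases h : eqL x.p x.q with
  | true =>
    have e := eqL_eq h
    simp only [cond_true, ev_cons, ev_nil, zsmul_eq_mul, add_zero]
    have : w0 u x.p x.q = ‖mon x.p u‖ ^ 2 := by
      rw [← e, w0, Complex.mul_conj, Complex.normSq_eq_norm_sq, Complex.ofReal_re]
    rw [this]
    push_cast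
    linarith
  | false =>
    simp only [cond_false, ev_cons, ev_nil, zsmul_eq_mul, add_zero]
    have h1 : |w0 u x.p x.q| ≤ ‖mon x.p u‖ * ‖mon x.q u‖ := by
      refine (Complex.abs_re_le_norm _).trans ?_
      rw [norm_mul, Complex.norm_conj]
    have h2 : (x.c : ℝ) * w0 u x.p x.q ≤ |(x.c : ℝ)| * (‖mon x.p u‖ * ‖mon x.q u‖) := by
      refine (le_abs_self _).trans ?_
      rw [abs_mul]
      exact mul_le_mul_of_nonneg_left h1 (abs_nonneg _)
    have h3 : |(x.c : ℝ)| * (2 * (‖mon x.p u‖ * ‖mon x.q u‖)) ≤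
        |(x.c : ℝ)| * (‖mon x.p u‖ ^ 2 + ‖mon x.q u‖ ^ 2) := by
      refine mul_le_mul_of_nonneg_left ?_ (abs_nonneg _)
      nlinarith [sq_nonneg (‖mon x.p u‖ - ‖mon x.q u‖)]
    push_cast
    linarith

theorem dd_le (u : ℕ → ℂ) (R : List Tm) :
    2 * ev (w0 u) R ≤ ev (fun p _ => ‖mon p u‖ ^ 2) (R.flatMap ddT) := by
  induction R with
  | nil => simp
  | cons x R ih =>
    rw [List.flatMap_cons, ev_append, ev_cons, zsmul_eq_mul]
    have := ddT_le u x
    linarith

theorem ev_nonpos (w : List ℕ → List ℕ → ℝ) (hw : ∀ p q, 0 ≤ w p q) (F : List Tm)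
    (h : ∀ x ∈ F, x.c ≤ 0) : ev w F ≤ 0 := by
  induction F with
  | nil => simp
  | cons x F ih =>
    rw [ev_cons, zsmul_eq_mul]
    have h1 : (x.c : ℝ) ≤ 0 := by exact_mod_cast h x (by simp)
    have := mul_nonpos_of_nonpos_of_nonneg h1 (hw x.p x.q)
    linarith [ih (fun y hy => h y (by simp [hy]))]

theorem sc_pos (a td : ℝ) (ha : 0 < a) (htd : 0 < td) (n : ℕ) : 0 < sc a td n := by
  induction n with
  | zero => simp [sc]
  | succ n ih =>
    rw [sc]
    positivity

/-- soundness of the checker -/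
theorem cert_of_check {an ad tn td : ℤ} {W : ℕ} {p0 p1 p2 : ℤ} {K : ℕ} {kap : ℤ} {L G : List Gt}
    (han : 0 < an) (had : 0 < ad) (htd : 0 < td) (hkap : 0 < kap)
    (h : check an ad tn td W p0 p1 p2 K kap L G = true) :
    Cert (tn / td) (an / ad) K p0 p1 p2 := by
  have had' : (0 : ℝ) < ad := by exact_mod_cast had
  have htd' : (0 : ℝ) < td := by exact_mod_cast htd
  have han' : (0 : ℝ) < an := by exact_mod_cast han
  have ha : (0 : ℝ) < an / ad := by positivity
  have ht : (tn : ℝ) = (tn / td : ℝ) * td := by field_simp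
  unfold check at h
  simp only [Bool.and_eq_true, List.all_eq_true] at h
  obtain ⟨h1, h2, h3, h4⟩ := h
  set T := tot p0 p1 p2 K kap L with hT
  set R := canon (lifted an ad tn td W T ++ gram G) with hR
  have h1' : ∀ x ∈ T, x.p.sum + x.q.sum ≤ 2 * W := fun x hx => Nat.le_of_ble_eq_true (h1 x hx)
  have h2' : ∀ x ∈ gram G, x.p.sum + x.q.sum = 2 * W := fun x hx => Nat.eq_of_beq_eq_true (h2 x hx)
  have h3' : ∀ x ∈ R, x.p.sum + x.q.sum = 2 * W := fun x hx => Nat.eq_of_beq_eq_true (h3 x hx)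
  have h4' : ∀ x ∈ srt (R.flatMap ddT), x.c ≤ 0 := fun x hx => of_decide_eq_true (h4 x hx)
  -- the element of the span
  have hmem : ev (sf (an / ad) td) (lifted an ad tn td W T) -
      ev (sf (an / ad) td) (fac an ad td (2 * W) T) ∈ Ndiv (tn / td) (an / ad) := by
    unfold lifted
    have s1 := steps_mem ha htd ht W W (flp (steps tn td W W (fac an ad td (2 * W) T)))
    have s2 := steps_mem ha htd ht W W (fac an ad td (2 * W) T)
    rw [ev_flp _ (sf_symm _ _)] at s1
    have := Submodule.add_mem _ s1 s2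
    rwa [sub_add_sub_cancel] at this
  refine ⟨(-(1 / (ad : ℝ) ^ (2 * W))) • (ev (sf (an / ad) td) (lifted an ad tn td W T) -
      ev (sf (an / ad) td) (fac an ad td (2 * W) T)), Submodule.smul_mem _ _ hmem, kap,
      by exact_mod_cast hkap, 2 * (sS K : ℝ) ^ 2, by positivity, fun u h0 => ?_⟩
  have g1 : ev (w0 u) R ≤ 0 := by
    have := dd_le u R
    rw [← ev_srt (fun p _ => ‖mon p u‖ ^ 2) (R.flatMap ddT)] at this
    have := ev_nonpos (fun p _ => ‖mon p u‖ ^ 2) (fun _ _ => by positivity) _ h4'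
    linarith
  have g2 : ev (sf (an / ad) td) R u ≤ 0 := by
    rw [ev_sf_const _ _ (2 * W) R h3']
    exact mul_nonpos_of_nonneg_of_nonpos (sc_pos _ _ ha htd' _).le g1
  have g3 : 0 ≤ ev (sf (an / ad) td) (gram G) u := by
    rw [ev_sf_const _ _ (2 * W) _ h2']
    exact mul_nonneg (sc_pos _ _ ha htd' _).le (ev_gram_nonneg u G)
  have g4 : ev (sf (an / ad) td) R u = ev (sf (an / ad) td) (lifted an ad tn td W T) u +
      ev (sf (an / ad) td) (gram G) u := by
    rw [hR, ev_canon _ (sf_symm _ _), ev_append, Pi.add_apply]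
  have g5 : ev (w0 u) T = ev (w0 u) (gram L) +
      (-(2 * (sS K : ℝ) ^ 2 * areaQ K ((p0 : ℂ) + p1 * u 1) p2 (shiftC 1 u)) + kap) := by
    rw [hT, tot, ev_srt, ev_append, ev_append, ev_qForm u h0, ev_cons, ev_nil, zsmul_eq_mul]
    simp [w0, mon_nil']
  have g6 := ev_gram_nonneg u L
  have g7 := ev_fac an ad td had htd han (2 * W) T h1' u
  rw [Pi.smul_apply, Pi.sub_apply, g7, smul_eq_mul]
  have hp : (0 : ℝ) < (ad : ℝ) ^ (2 * W) := by positivity
  have g8 : -(1 / (ad : ℝ) ^ (2 * W)) * (ev (sf (an / ad) td) (lifted an ad tn td W T) u -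
      (ad : ℝ) ^ (2 * W) * ev (w0 u) T) = ev (w0 u) T -
      (1 / (ad : ℝ) ^ (2 * W)) * ev (sf (an / ad) td) (lifted an ad tn td W T) u := by
    field_simp
    ring
  rw [g8, g5]
  have g9 : (1 / (ad : ℝ) ^ (2 * W)) * ev (sf (an / ad) td) (lifted an ad tn td W T) u ≤ 0 :=
    mul_nonpos_of_nonneg_of_nonpos (by positivity) (by linarith)
  have e1 : (((p0 : ℝ) : ℂ)) = (p0 : ℂ) := by push_cast; rfl
  have e2 : (((p1 : ℝ) : ℂ)) = (p1 : ℂ) := by push_cast; rfl
  have e3 : (((p2 : ℝ) : ℂ)) = (p2 : ℂ) := by push_cast; rfl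
  rw [e1, e2, e3]
  linarith

end Vale.Agent.P142.Ck
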