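import Vale.Agent.P142.Defs

open Complex MeasureTheory Metric Set Filter Topology

namespace Vale.Agent.P142

/-- A1 (file Area.lean). Area theorem for `P(1/g)`, `P(s)=p1 s + p3 s^3`, `g` univalent. -/
theorem area_laurent {g : ℂ → ℂ} (hg : DifferentiableOn ℂ g (ball 0 1)) (hi : InjOn g (ball 0 1))
    (h0 : g 0 = 0) (p1 p3 : ℂ) (B : ℕ → ℂ)
    (hB : ∀ w ∈ ball (0 : ℂ) 1, w ≠ 0 → HasSum (fun n => B n * w ^ n)
      (w ^ 3 * (p1 / g w + p3 / g w ^ 3))) (N : ℕ) :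
    ∑ n ∈ Finset.range N, ((n : ℝ) + 1) * ‖B (n + 4)‖ ^ 2 ≤
      3 * ‖B 0‖ ^ 2 + 2 * ‖B 1‖ ^ 2 + ‖B 2‖ ^ 2 := sorry

/-- A2 (file AreaIneq.lean). -/
theorem area_ineq {Φ : ℂ → ℂ} (h : DifferentiableOn ℂ Φ (ball 0 1)) (hi : InjOn Φ (ball 0 1))
    (c : ℕ → ℂ) (hc : ∀ w ∈ ball (0 : ℂ) 1, HasSum (fun k => c k * w ^ (k + 1)) (Φ w))
    (h0 : c 0 = 1) (g0 g1 : ℂ) (K : ℕ) : areaQ K g0 g1 c ≤ 0 := sorry

/-- A3 (file AreaIneq.lean). bounds on the coefficients -/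
theorem coef_bound (n : ℕ) : ∃ C : ℝ, ∀ Φ : ℂ → ℂ, DifferentiableOn ℂ Φ (ball 0 1) →
    InjOn Φ (ball 0 1) → ∀ c : ℕ → ℂ,
    (∀ w ∈ ball (0 : ℂ) 1, HasSum (fun k => c k * w ^ (k + 1)) (Φ w)) → c 0 = 1 →
    ‖c n‖ ≤ C := sorry

/-- A3' -/
theorem coef_one_bound {Φ : ℂ → ℂ} (h : DifferentiableOn ℂ Φ (ball 0 1))
    (hi : InjOn Φ (ball 0 1)) (c : ℕ → ℂ)
    (hc : ∀ w ∈ ball (0 : ℂ) 1, HasSum (fun k => c k * w ^ (k + 1)) (Φ w))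
    (h0 : c 0 = 1) : ‖c 1‖ ≤ 2 := sorry

/-- K1 (file Koebe.lean). rotated Koebe transform:
`Φ w = (f (z (1+w)/(1+|z|^2 w)) - f z) / (z (1-|z|^2) f' z)` -/
theorem koebe {f : ℂ → ℂ} (hf : Good f) {z : ℂ} (hz : ‖z‖ < 1) (hz0 : z ≠ 0) :
    ∃ Φ : ℂ → ℂ, DifferentiableOn ℂ Φ (ball 0 1) ∧ InjOn Φ (ball 0 1) ∧
      ∀ w ∈ ball (0 : ℂ) 1, HasSum (fun k => shiftC (‖z‖ ^ 2) (jetU f z) k * w ^ (k + 1)) (Φ w) :=
  sorry

/-- K2 (file Koebe.lean), from K1 and A3: jets are bounded -/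
theorem jetU_bound (n : ℕ) : ∃ C : ℝ, ∀ f, Good f → ∀ z : ℂ, ‖z‖ < 1 → ‖jetU f z n‖ ≤ C := sorry

/-- K3 (file Koebe.lean), from K1, A3': distortion -/
theorem distortion {f : ℂ → ℂ} (hf : Good f) {z : ℂ} (hz : ‖z‖ < 1) :
    Real.exp (-3) * (1 - ‖z‖) ≤ ‖deriv f z‖ := sorry

/-- D1 (file Diverg.lean): the divergence identity (integration by parts in the disc);
uses only `jetU_bound` -/
theorem div_bound (t a : ℝ) (ha : 1 < a) (l l' : List ℕ) : ∃ C : ℝ, ∀ f, Good f →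
    |∫ z in ball (0 : ℂ) 1, divT t a l l' (jetU f z) * wt t (a - 1) f z| ≤ C * In t a f := sorry

/-- D2: integrability of everything in sight -/
theorem div_integrable (t a : ℝ) (ha : 1 < a) (l l' : List ℕ) {f : ℂ → ℂ} (hf : Good f) :
    IntegrableOn (fun z => divT t a l l' (jetU f z) * wt t (a - 1) f z) (ball 0 1) := sorry

/-- F1 (file Final.lean) -/
theorem mean_bound (a : ℝ) (ha : 1 < a) (C : ℝ) (hC : ∀ f, Good f → In (-2) (a - 1) f ≤ C)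
    {f : ℂ → ℂ} (hf : DifferentiableOn ℂ f (ball 0 1)) (hi : InjOn f (ball 0 1))
    (h1 : deriv f 0 = 1) {r : ℝ} (h0 : 0 ≤ r) (hr : r < 1) :
    (1 / (2 * Real.pi)) * ∫ θ in (-Real.pi)..Real.pi, ‖deriv f (r * exp (θ * I))‖ ^ (-2 : ℝ) ≤
      C * a * (1 - r) ^ (-a) := sorry

/-- F2 (file Range.lean): integrability range for conformal maps onto the disc -/
theorem range_bound (τ η C : ℝ) (hτ : 0 < τ) (hη : 0 < η)
    (hC : ∀ f, Good f → In (-τ) η f ≤ C) {W : Set ℂ} (hW : IsOpen W) {φ : ℂ → ℂ}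
    (hφ : DifferentiableOn ℂ φ W) (hb : BijOn φ W (ball 0 1)) {s : ℝ} (h2 : 2 ≤ s)
    (hs : s - 2 < τ / (1 + η)) :
    ∫⁻ z in W, ENNReal.ofReal (‖deriv φ z‖ ^ s) < ⊤ := sorry

end Vale.Agent.P142
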