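import Vale.Agent.P142.Defs2

open Complex MeasureTheory Metric Set Filter Topology

namespace Vale.Agent.P142

/-- S1 (Pert.lean): uses area_ineq, koebe, jetU_bound -/
theorem areaQ_pert (K : ℕ) (p0 p1 p2 : ℝ) : ∃ C : ℝ, ∀ f, Good f → ∀ z : ℂ, ‖z‖ < 1 → z ≠ 0 →
    areaQ K ((p0 : ℂ) + (p1 : ℂ) * jetU f z 1) (p2 : ℂ) (shiftC 1 (jetU f z)) ≤ C * rho z := sorry

/-- S2 (Star.lean): uses S1, div_bound, div_integrable, jetU_zero -/
theorem star_of_cert {t a : ℝ} (ha : 1 < a) {K : ℕ} {p0 p1 p2 : ℝ} (hc : Cert t a K p0 p1 p2) :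
    ∃ C : ℝ, ∀ f, Good f → In t (a - 1) f ≤ C * In t a f := sorry

/-- S3 (Star2.lean): uses distortion -/
theorem bound_of_star {t a : ℝ} (ha : 1 < a) (ht : t < 0) (hat : -1 < a + t)
    (h : ∃ C : ℝ, ∀ f, Good f → In t (a - 1) f ≤ C * In t a f) :
    ∃ C : ℝ, ∀ f, Good f → In t (a - 1) f ≤ C := sorry

/-- S4 (Spec.lean): uses mean_bound -/
theorem BS_le (a : ℝ) (ha : 1 < a) (C : ℝ) (hC : ∀ f, Good f → In (-2) (a - 1) f ≤ C) :
    BS (-2) ≤ (a : EReal) := sorry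

/-- S5 (Lower.lean, optional, classical): the range `4/3 < s < 2` -/
theorem lower_range {W : Set ℂ} (hW : IsOpen W) {φ : ℂ → ℂ} (hφ : DifferentiableOn ℂ φ W)
    (hb : BijOn φ W (ball 0 1)) {s : ℝ} (h1 : 4 / 3 < s) (h2 : s < 2) :
    ∫⁻ z in W, ENNReal.ofReal (‖deriv φ z‖ ^ s) < ⊤ := sorry

end Vale.Agent.P142
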